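import Vale.Agent.P231.TW.Theta
import Vale.Agent.P231.Q.Main

/-!
# P231, stage 3, item (A1) of the Euler number: the fibre integral over the sphere as an integral
over a ball
-/

set_option linter.unusedSectionVars false
set_option linter.unusedVariables false

open Module MeasureTheory Set Metric Filter
open scoped ContDiff Topology

namespace Vale.Agent.P231.S3E

open Fm WA TW

section Alg

variable {X : Type*} [NormedAddCommGroup X] [NormedSpace ℝ X] [FiniteDimensional ℝ X]
  [MeasurableSpace X] [BorelSpace X]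
variable {V : Type*} [NormedAddCommGroup V] [NormedSpace ℝ V] [FiniteDimensional ℝ V]
  [MeasurableSpace V] [BorelSpace V]

/-- horizontal vectors -/
def hor {k : ℕ} (v : Fin k → X) (i : Fin k) : X × V := (v i, 0)

theorem cont_cont {k l : ℕ} (u : Fin k → X) (v : Fin l → X) (w : Lam X) :
    cont u (cont v w) = (-1 : ℝ) ^ (k * l) • cont v (cont u w) := by
  induction k generalizing w with
  | zero => simp
  | succ k ih =>
    rw [cont_succ, Q.iprod_cont, map_smul, ih, smul_smul, cont_succ]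
    congr 1
    rw [← pow_add]
    congr 1
    ring

/-- the two ways of evaluating a form on a product -/
theorem evalForm_pB' {k l : ℕ} (bX : Basis (Fin k) ℝ X) (bV : Basis (Fin l) ℝ V)
    (w : Lam (X × V)) : evalForm w (pB bX bV) =
      (-1 : ℝ) ^ (k * l) * evalForm (pull (ContinuousLinearMap.inr ℝ X V)
        (cont (hor bX) w)) bV := by
  rw [evalForm_pB, evalForm_apply, slice_apply, pull_cont, aug_pull, evalForm_apply, pull_cont,
    aug_pull]
  have h1 : (fun i => ContinuousLinearMap.inl ℝ X V (bX i)) = hor (V := V) bX := rfl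
  have h2 : (fun i => ContinuousLinearMap.inr ℝ X V (bV i)) = vert (E := X) bV := rfl
  rw [h1, h2, cont_cont, map_smul, smul_eq_mul]

theorem iprod_hor_ps {v : X} (a : Lam V) :
    iprod ((v, 0) : X × V) (Q.ps a : Lam (X × V)) = 0 := by
  rw [Q.ps, pull_iprod]
  change pull _ (iprod (0 : V) a) = 0
  rw [Q.iprod_zero_left, map_zero]

theorem cont_hor_ps_mul {k : ℕ} (v : Fin k → X) {a : Lam V} (ha : Fm.inv a = -a)
    (w : Lam (X × V)) : cont (hor v) (Q.ps a * w) =
      (-1 : ℝ) ^ k • (Q.ps a * cont (hor v) w) := by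
  have h2 : Fm.inv (Q.ps a : Lam (X × V)) = -Q.ps a := by
    rw [Q.ps, ← pull_inv, ha, map_neg]
  induction k generalizing w with
  | zero => simp
  | succ k ih =>
    have h3 : (fun i : Fin k => hor (V := V) v i.succ) = hor fun i => v i.succ := rfl
    have h4 : iprod (hor (V := V) v 0) (Q.ps a : Lam (X × V)) = 0 := iprod_hor_ps a
    rw [cont_succ, cont_succ, h3, iprod_mul, h4, zero_mul, zero_add, h2, neg_mul, map_neg,
      ih, pow_succ, mul_neg_one, neg_smul]

end Alg

section An

variable {X : Type*} [NormedAddCommGroup X] [NormedSpace ℝ X] [FiniteDimensional ℝ X]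
  [MeasurableSpace X] [BorelSpace X]
variable {V : Type*} [NormedAddCommGroup V] [InnerProductSpace ℝ V] [FiniteDimensional ℝ V]
  [MeasurableSpace V] [BorelSpace V]

/-- the form on the fibre -/
noncomputable def omx {k : ℕ} (bX : Fin k → X) (W : X × V → Lam (X × V)) (x : X) (y : V) : Lam V :=
  pull (ContinuousLinearMap.inr ℝ X V) (cont (hor bX) (W (x, y)))

theorem contDiffOn_omx {k : ℕ} (bX : Fin k → X) {W : X × V → Lam (X × V)} {U : Set X}
    (hU : IsOpen U) (hW : ContDiffOn ℝ ∞ W (U ×ˢ {0}ᶜ)) {x : X} (hx : x ∈ U) :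
    ContDiffOn ℝ ∞ (omx bX W x) {0}ᶜ := by
  have h1 : ContDiffOn ℝ ∞ (fun y => W (x, y)) ({0}ᶜ : Set V) :=
    hW.comp (contDiff_prodMk_right x).contDiffOn fun y hy => ⟨hx, hy⟩
  exact ((pullL (ContinuousLinearMap.inr ℝ X V) ∘L contL (hor bX)).contDiff).comp_contDiffOn h1

/-- the map which is the identity on the base -/
noncomputable def idm {Y : Type*} (f : Y → V) (z : X × Y) : X × V := (z.1, f z.2)

theorem pull_inr_cont {Y : Type*} [NormedAddCommGroup Y] [NormedSpace ℝ Y]
    [FiniteDimensional ℝ Y] {k : ℕ} (bX : Fin k → X) (W : X × V → Lam (X × V)) {f : Y → V} {x : X}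
    {y : Y} (hf : DifferentiableAt ℝ f y) :
    pull (ContinuousLinearMap.inr ℝ X Y) (cont (hor bX) (pb (idm f) W (x, y))) =
      pb f (omx bX W x) y := by
  have h1 : HasFDerivAt (idm (X := X) f) ((ContinuousLinearMap.fst ℝ X Y).prod
      ((fderiv ℝ f y).comp (ContinuousLinearMap.snd ℝ X Y))) (x, y) :=
    hasFDerivAt_fst.prodMk (HasFDerivAt.comp (x, y) (g := f) (f := Prod.snd) hf.hasFDerivAt
      hasFDerivAt_snd)
  have h2 : (fun i => fderiv ℝ (idm (X := X) f) (x, y) (hor bX i)) = hor bX := by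
    funext i
    rw [h1.fderiv]
    refine Prod.ext rfl ?_
    change fderiv ℝ f y 0 = 0
    exact map_zero _
  have h3 : (fderiv ℝ (idm (X := X) f) (x, y)).comp (ContinuousLinearMap.inr ℝ X Y) =
      (ContinuousLinearMap.inr ℝ X V).comp (fderiv ℝ f y) := by
    rw [h1.fderiv]
    ext v
    · rfl
    · rfl
  rw [pb, pull_cont, h2, ← pull_comp_apply, h3, pull_comp_apply]
  rfl

theorem hom_omx {k : ℕ} (bX : Fin k → X) {W : X × V → Lam (X × V)} {U : Set X}
    (hh : ∀ x ∈ U, ∀ y ≠ 0, pb (idm (rad : V → V)) W (x, y) = W (x, y)) {x : X} (hx : x ∈ U) :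
    Hom (omx bX W x) := by
  intro y hy
  rw [← pull_inr_cont bX W ((contDiffAt_rad hy).differentiableAt (by simp)), hh x hx y hy]
  rfl

/-- the evaluation of the fibre integral -/
theorem evalForm_phi {k l : ℕ} (bX : Basis (Fin k) ℝ X) (bV : Basis (Fin l) ℝ V)
    (μ : Measure V) [μ.IsAddHaarMeasure] {W : X × V → Lam (X × V)} {U : Set X}
    (hU : IsOpen U) (hW : ContDiffOn ℝ ∞ W (U ×ˢ {0}ᶜ)) {r : V → ℝ} {K : Set V} (hr : Q.Cut r K)
    {x : X} (hx : x ∈ U) : evalForm (Q.phi μ bV r W x) bX =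
      (-1 : ℝ) ^ (k * l + k) * ∫ y, evalForm (Q.dR r y * omx bX W x y) bV ∂μ := by
  have h1 := (evalL (bX : Fin k → X)).integral_comp_comm (Q.integrable_slice μ bV hr hU hW hx)
  refine h1.symm.trans ?_
  rw [← integral_const_mul]
  refine integral_congr_ae (Eventually.of_forall fun y => ?_)
  change evalForm (slice bV (Q.ps (Q.dR r y) * W (x, y))) bX = _
  have h2 : Fm.inv (Q.dR r y) = -Q.dR r y := by
    rw [Q.dR, inv_dx]
  rw [← evalForm_pB, evalForm_pB', cont_hor_ps_mul _ h2, map_smul, map_mul]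
  have h3 : pull (ContinuousLinearMap.inr ℝ X V) (Q.ps (Q.dR r y)) = Q.dR r y := Q.pull_inr_ps _
  have h4 : evalForm ((-1 : ℝ) ^ k • (Q.dR r y * omx bX W x y)) bV =
      (-1 : ℝ) ^ k * evalForm (Q.dR r y * omx bX W x y) bV := map_smul (evalL bV) _ _
  rw [h3, pow_add]
  refine (congrArg (fun t => (-1 : ℝ) ^ (k * l) * t) h4).trans ?_
  ring

end An

end Vale.Agent.P231.S3E
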