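import Vale.Agent.P231.S3E.A0
import Vale.Agent.P231.WG.Cyc

/-!
# P231, stage 3, item (A1): the fundamental functional as an integral over a product of two balls
-/

set_option maxSynthPendingDepth 3
set_option linter.unusedSectionVars false
set_option linter.unusedVariables false

open Bundle Manifold Set Filter Module Topology MeasureTheory Metric
open scoped ContDiff Manifold Topology

namespace Vale.Agent.P231.S3E

noncomputable section

open Vale.Agent.P231.Fm WA TW

section An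

variable {X : Type*} [NormedAddCommGroup X] [NormedSpace ℝ X] [FiniteDimensional ℝ X]
  [MeasurableSpace X] [BorelSpace X]
variable {V : Type*} [NormedAddCommGroup V] [InnerProductSpace ℝ V] [FiniteDimensional ℝ V]
  [MeasurableSpace V] [BorelSpace V]

theorem eval_extd_of_hom {om : V → Lam V} (hs : ContDiffOn ℝ ∞ om {0}ᶜ) (hh : Hom om) {l : ℕ}
    (b : Basis (Fin l) ℝ V) {y : V} (hy : y ≠ 0) : evalForm (extd om y) b = 0 := by
  have h1 : extd om y = extd (pb rad om) y := by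
    refine extd_congr ?_
    filter_upwards [isOpen_compl_singleton.mem_nhds hy] with z hz using (hh z hz).symm
  rw [h1]
  exact sphMap_rad.eval_extd b hs hy

theorem intY {e0 : V} (he : ‖e0‖ = 1) {m : ℕ} (hm : 0 < m)
    (bY : Basis (Fin m) ℝ (Submodule.span ℝ {e0})ᗮ) (hV : 3 ≤ finrank ℝ V) (om : V → Lam V) :
    JJ bY (pb (th e0) om) = ∫ y in ball 0 1, evalForm (pb (th e0) om y) bY ∂bY.addHaar := by
  have h1 : ball (0 : (Submodule.span ℝ {e0})ᗮ) 1 =ᵐ[bY.addHaar] closedBall 0 1 := by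
    rw [← ball_union_sphere]
    have h2 : bY.addHaar (sphere (0 : (Submodule.span ℝ {e0})ᗮ) 1) = 0 :=
      Measure.addHaar_sphere_of_ne_zero _ _ one_ne_zero
    exact (union_ae_eq_left_of_ae_eq_empty (ae_eq_empty.2 h2)).symm
  rw [setIntegral_congr_set h1]
  exact (setIntegral_eq_integral_of_forall_compl_eq_zero fun y hy =>
    (cyc_th he hV).eval_out bY om hy).symm

/-- **the fibre integral as an integral over the ball** -/
theorem exists_ball {e0 : V} (he : ‖e0‖ = 1) (hV : 3 ≤ finrank ℝ V) {k l m : ℕ}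
    (bX : Basis (Fin k) ℝ X) (bV : Basis (Fin l) ℝ V)
    (bY : Basis (Fin m) ℝ (Submodule.span ℝ {e0})ᗮ) :
    ∃ ε : ℝ, |ε| = 1 ∧ ∀ (W : X × V → Lam (X × V)) (U : Set X), IsOpen U →
      ContDiffOn ℝ ∞ W (U ×ˢ {0}ᶜ) →
      (∀ x ∈ U, ∀ y ≠ 0, pb (idm (rad : V → V)) W (x, y) = W (x, y)) →
      ∀ (r : V → ℝ) (K : Set V), Q.Cut r K → ∀ x ∈ U,
        evalForm (Q.phi bV.addHaar bV r W x) bX =
          ε * ∫ y in ball 0 1, evalForm (pb (idm (th e0)) W (x, y)) (pB bX bY) ∂bY.addHaar := by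
  have h1 : finrank ℝ (Submodule.span ℝ {e0})ᗮ = m :=
    (finrank_eq_card_basis bY).trans (Fintype.card_fin m)
  have h2 : finrank ℝ V = l := (finrank_eq_card_basis bV).trans (Fintype.card_fin l)
  have h3 := finrank_Y he
  obtain rfl : l = 1 + m := by omega
  obtain ⟨n, hn, hd⟩ := th_degree he hV (by omega) bY bV
  refine ⟨(-1 : ℝ) ^ (k * (1 + m) + k) * n * (-1 : ℝ) ^ (k * m), ?_, ?_⟩
  · have h4 : |(n : ℝ)| = 1 := by exact_mod_cast hn
    rw [abs_mul, abs_mul, h4, abs_pow, abs_pow, abs_neg, abs_one, one_pow, one_pow, one_mul,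
      one_mul]
  intro W U hU hW hh r K hr x hx
  have hs := contDiffOn_omx (bX : Fin k → X) hU hW hx
  have ho := hom_omx (bX : Fin k → X) hh hx
  rw [evalForm_phi bX bV bV.addHaar hU hW hr hx, cut_indep bV.addHaar bV hs
    (fun y hy => eval_extd_of_hom hs ho bV hy) hr cut_rst]
  have h5 := hd _ hs ho
  have hn2 : (n : ℝ) * n = 1 := by
    have h6 : n * n = 1 := by
      rw [← abs_mul_abs_self, hn, one_mul]
    exact_mod_cast h6
  have h6 : ∫ y, evalForm (Q.dR rst y * omx bX W x y) bV ∂bV.addHaar =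
      n * JJ bY (pb (th e0) (omx bX W x)) := by
    rw [h5, ← mul_assoc, hn2, one_mul]
    rfl
  have h7 : ∫ y in ball 0 1, evalForm (pb (th e0) (omx bX W x) y) bY ∂bY.addHaar =
      (-1 : ℝ) ^ (k * m) *
        ∫ y in ball 0 1, evalForm (pb (idm (th e0)) W (x, y)) (pB bX bY) ∂bY.addHaar := by
    rw [← integral_const_mul]
    refine integral_congr_ae (Eventually.of_forall fun y => ?_)
    simp only
    rw [evalForm_pB', pull_inr_cont (bX : Fin k → X) W
      ((contDiff_th he).differentiable (by simp) y), ← mul_assoc, ← mul_pow]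
    norm_num
  rw [h6, intY he (by omega) bY hV, h7]
  ring

/-- the standard map covers the sphere -/
theorem th_image {e0 : V} (he : ‖e0‖ = 1) (hV : 2 ≤ finrank ℝ V) :
    th e0 '' closedBall 0 1 = sphere 0 1 := by
  have he0 : e0 ≠ 0 := by
    rintro rfl
    rw [norm_zero] at he
    exact zero_ne_one he
  refine Subset.antisymm ?_ fun u hu => ?_
  · rintro _ ⟨y, -, rfl⟩
    rw [mem_sphere_zero_iff_norm, norm_th he]
  rw [mem_sphere_zero_iff_norm] at hu
  have hY : 0 < finrank ℝ (Submodule.span ℝ {e0})ᗮ := by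
    have := finrank_Y he
    omega
  have : Nontrivial (Submodule.span ℝ {e0})ᗮ := nontrivial_of_finrank_pos (R := ℝ) hY
  -- the decomposition
  have hc : u - inner ℝ e0 u • e0 ∈ (Submodule.span ℝ {e0})ᗮ := by
    rw [Submodule.mem_orthogonal_singleton_iff_inner_right, inner_sub_right,
      real_inner_smul_right, real_inner_self_eq_norm_sq, he]
    ring
  set c : ℝ := inner ℝ e0 u with hcdef
  let v : (Submodule.span ℝ {e0})ᗮ := ⟨u - c • e0, hc⟩
  have huv : (v : V) + c • e0 = u := sub_add_cancel _ _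
  by_cases hv : v = 0
  · have h1 : c • e0 = u := by rw [← huv, hv, Submodule.coe_zero, zero_add]
    have h2 : |c| = 1 := by
      rw [← h1, norm_smul, he, mul_one, Real.norm_eq_abs] at hu
      exact hu
    rcases (abs_eq zero_le_one).1 h2 with h3 | h3
    · obtain ⟨y, hy⟩ := exists_norm_eq (Submodule.span ℝ {e0})ᗮ (zero_le_one (α := ℝ))
      refine ⟨y, ?_, ?_⟩
      · rw [mem_closedBall_zero_iff, hy]
      · rw [th_out he hy.ge, ← h1, h3, one_smul]
    · refine ⟨0, ?_, ?_⟩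
      · rw [mem_closedBall_zero_iff, norm_zero]
        exact zero_le_one
      · rw [th_zero he, ← h1, h3, neg_one_smul]
  have hvn : 0 < ‖v‖ := norm_pos_iff.2 hv
  -- the intermediate value
  have hcont : ContinuousOn (fun t : ℝ => c * (gg (t ^ 2) * t) - ‖v‖ * hh (t ^ 2)) (Icc 0 1) := by
    have h1 := contDiff_gg.continuous
    have h2 := contDiff_hh.continuous
    exact Continuous.continuousOn (by fun_prop)
  obtain ⟨t, ⟨ht0, ht1⟩, ht⟩ : ∃ t ∈ Icc (0 : ℝ) 1,
      c * (gg (t ^ 2) * t) - ‖v‖ * hh (t ^ 2) = 0 := by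
    refine intermediate_value_Icc' zero_le_one hcont ⟨?_, ?_⟩
    · simp only [one_pow, gg_zero le_rfl, hh_one le_rfl]
      linarith
    · simp only [mul_zero, ne_eq, OfNat.ofNat_ne_zero, not_false_eq_true, zero_pow, hh_zero]
      linarith
  have ht1' : t ≠ 1 := by
    rintro rfl
    simp only [one_pow, gg_zero le_rfl, hh_one le_rfl] at ht
    linarith
  have ht0' : t ≠ 0 := by
    rintro rfl
    simp only [mul_zero, ne_eq, OfNat.ofNat_ne_zero, not_false_eq_true, zero_pow, hh_zero] at ht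
    linarith
  have ht2 : 0 < t := lt_of_le_of_ne ht0 (Ne.symm ht0')
  have ht3 : t < 1 := lt_of_le_of_ne ht1 ht1'
  have hg : 0 < gg (t ^ 2) := gg_pos (by nlinarith)
  have hyn : ‖(t * ‖v‖⁻¹) • v‖ = t := by
    rw [norm_smul, Real.norm_eq_abs, abs_of_pos (mul_pos ht2 (inv_pos.2 hvn)), mul_assoc,
      inv_mul_cancel₀ hvn.ne', mul_one]
  refine ⟨(t * ‖v‖⁻¹) • v, ?_, ?_⟩
  · rw [mem_closedBall_zero_iff, hyn]
    exact ht1
  · have h1 : vv e0 ((t * ‖v‖⁻¹) • v) = (gg (t ^ 2) * t * ‖v‖⁻¹) • u := by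
      have h2 : hh (t ^ 2) = gg (t ^ 2) * t * ‖v‖⁻¹ * c := by
        field_simp
        linarith
      rw [vv, hyn, h2, Submodule.coe_smul, ← huv, smul_add, smul_smul, smul_smul, ← mul_assoc]
    have h3 : 0 < gg (t ^ 2) * t * ‖v‖⁻¹ := mul_pos (mul_pos hg ht2) (inv_pos.2 hvn)
    rw [th, h1, rad_smul _ h3, rad, hu, inv_one, one_smul]

end An

section Geom

open Vale.Agent.P234 Vale.Agent.P231 Vale.Agent.P231.W Vale.Agent.P231.H775 Vale.Agent.P231.WG

variable {E : Type*} [NormedAddCommGroup E] [NormedSpace ℝ E]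
  {M : Type*} [MetricSpace M] [ChartedSpace E M]
  [RiemannianBundle (fun x : M => TangentSpace 𝓘(ℝ, E) x)]
  {e : ∀ x : M, TangentSpace 𝓘(ℝ, E) x → M}
  [FiniteDimensional ℝ E] [IsManifold 𝓘(ℝ, E) ∞ M]
  [IsContMDiffRiemannianBundle 𝓘(ℝ, E) ∞ E (fun x : M => TangentSpace 𝓘(ℝ, E) x)]
  {p : M} {R : ℝ}

theorem sm_idm {X V Y : Type*} [NormedAddCommGroup X] [NormedSpace ℝ X]
    [NormedAddCommGroup V] [NormedSpace ℝ V] [NormedAddCommGroup Y] [NormedSpace ℝ Y]
    {f : Y → V} {z : X × Y} (hf : Sm f z.2) : Sm (idm (X := X) f) z := by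
  have h1 : ∀ᶠ w : X × Y in 𝓝 z, ContDiffAt ℝ ∞ f w.2 :=
    (continuous_snd.tendsto z).eventually hf
  filter_upwards [h1] with w hw
  exact contDiffAt_fst.prodMk (ContDiffAt.comp w hw contDiffAt_snd)

/-- the coordinates depend on the direction only -/
theorem pb_cc (X : WG.Fr e p R) (v0 : UT E M) (w : Form (dUT E M)) {x : Eu E} (hx : ‖x‖ < R)
    {y : Eu E} (hy : y ≠ 0) :
    pb (idm (rad : Eu E → Eu E)) (w.val (cc X v0)) (x, y) = w.val (cc X v0) (x, y) := by
  have hr0 : rad y ≠ 0 := by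
    rw [← norm_ne_zero_iff, norm_rad hy]
    exact one_ne_zero
  have hs : Sm (rad : Eu E → Eu E) y := by
    filter_upwards [isOpen_compl_singleton.mem_nhds hy] with z hz using contDiffAt_rad hz
  have h1 := w.nat (u := cc X v0) (g := idm (rad : Eu E → Eu E)) (x := (x, y))
    (at_cc X v0 (z := (x, rad y)) hx hr0) (sm_idm (z := (x, y)) hs)
  refine h1.symm.trans (w.congr (at_cc X v0 (z := (x, y)) hx hy) ?_).symm
  have h2 : ∀ᶠ z : Eu E × Eu E in 𝓝 (x, y), ‖z.1‖ < R ∧ z.2 ≠ 0 := by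
    filter_upwards [(isOpen_dom (E := E) R).mem_nhds ⟨mem_ball_zero_iff.2 hx, hy⟩] with z hz
    exact ⟨mem_ball_zero_iff.1 hz.1, hz.2⟩
  filter_upwards [h2] with z hz
  exact (cc_smul X v0 hz.1 hz.2 (inv_pos.2 (norm_pos_iff.2 hz.2))).symm

variable {e0 : Eu E} (he : ‖e0‖ = 1)

include he in
/-- the composition with the standard map -/
theorem val_cc_th (X : WG.Fr e p R) (v0 : UT E M) (w : Form (dUT E M))
    {z : Eu E × (Submodule.span ℝ {e0})ᗮ} (hx : ‖z.1‖ < R) :
    w.val (fun z : Eu E × (Submodule.span ℝ {e0})ᗮ => cc X v0 (z.1, TW.th e0 z.2)) z =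
      pb (idm (TW.th e0)) (w.val (cc X v0)) z := by
  have hn0 : TW.th e0 z.2 ≠ 0 := by
    rw [← norm_ne_zero_iff, norm_th he]
    exact one_ne_zero
  exact w.nat (u := cc X v0) (g := idm (TW.th e0)) (x := z)
    (at_cc X v0 (z := (z.1, TW.th e0 z.2)) hx hn0)
    (sm_idm (z := z) (Eventually.of_forall fun y => (contDiff_th he).contDiffAt))

include he in
/-- **(A1)**: the fundamental functional as an integral over a product of balls -/
theorem II_ball (X : WG.Fr e p R) (v0 : UT E M) (hE : 3 ≤ finrank ℝ E) {k l : ℕ}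
    (b : OrthonormalBasis (Fin k) ℝ (Eu E)) (bY : Basis (Fin l) ℝ (Submodule.span ℝ {e0})ᗮ) :
    ∃ ε : ℝ, |ε| = 1 ∧ ∀ {r : Eu E → ℝ} {K : Set (Eu E)} (hr : Q.Cut r K) {D : ℝ} (hDR : D < R)
      (w : Form (dUT E M)), WG.II X v0 b.toBasis hr hDR w =
        ε * ∫ z in ball 0 D ×ˢ ball 0 1, evalForm
          (w.val (fun z : Eu E × (Submodule.span ℝ {e0})ᗮ => cc X v0 (z.1, TW.th e0 z.2)) z)
          (TW.pB b.toBasis bY) ∂(TW.pB b.toBasis bY).addHaar := by
  have hV : 3 ≤ finrank ℝ (Eu E) := by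
    rw [finrank_euclideanSpace, Fintype.card_fin]
    exact hE
  obtain ⟨ε, hε, h⟩ := exists_ball he hV b.toBasis b.toBasis bY
  refine ⟨ε, hε, fun {r K} hr {D} hDR w => ?_⟩
  have hvol : (volume : Measure (Eu E)) = b.toBasis.addHaar := b.addHaar_eq_volume.symm
  have hW := contDiffOn_val X v0 w
  have h1 : ∀ x ∈ ball (0 : Eu E) R, evalForm (WG.th X v0 b.toBasis r w x) b.toBasis =
      ε * ∫ y in ball 0 1, evalForm (pb (idm (TW.th e0)) (w.val (cc X v0)) (x, y))
        (pB b.toBasis bY) ∂bY.addHaar := by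
    intro x hx
    rw [WG.th, hvol]
    exact h (w.val (cc X v0)) (ball 0 R) isOpen_ball hW
      (fun x hx y hy => pb_cc X v0 w (mem_ball_zero_iff.1 hx) hy) r K hr x hx
  rw [WG.II_apply, hvol, addHaar_pB]
  have hsub : ball (0 : Eu E) D ⊆ ball 0 R := ball_subset_ball hDR.le
  have hcont : ContinuousOn (fun z : Eu E × (Submodule.span ℝ {e0})ᗮ =>
      evalForm (pb (idm (TW.th e0)) (w.val (cc X v0)) z) (pB b.toBasis bY))
      (closedBall 0 D ×ˢ closedBall 0 1) := by
    rintro z ⟨hz, -⟩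
    have hz1 : ‖z.1‖ < R := (mem_closedBall_zero_iff.1 hz).trans_lt hDR
    have hn0 : TW.th e0 z.2 ≠ 0 := by
      rw [← norm_ne_zero_iff, norm_th he]
      exact one_ne_zero
    have h2 : ContDiffAt ℝ ∞ (w.val (cc X v0)) (z.1, TW.th e0 z.2) :=
      hW.contDiffAt ((isOpen_dom (E := E) R).mem_nhds ⟨mem_ball_zero_iff.2 hz1, hn0⟩)
    have h3 : ContDiffAt ℝ ∞ (idm (X := Eu E) (TW.th e0)) z :=
      contDiffAt_fst.prodMk ((contDiff_th he).contDiffAt.comp z contDiffAt_snd)
    exact ((evalL (pB b.toBasis bY)).continuous.continuousAt.comp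
      (contDiffAt_pb (n := ∞) (m := ∞) h3 h2 (by simp)).continuousAt).continuousWithinAt
  rw [setIntegral_prod]
  · rw [← integral_const_mul]
    refine setIntegral_congr_fun measurableSet_ball fun x hx => ?_
    rw [h1 x (hsub hx)]
    congr 1
    refine setIntegral_congr_fun measurableSet_ball fun y hy => ?_
    rw [val_cc_th he X v0 w (z := (x, y)) (mem_ball_zero_iff.1 (hsub hx))]
  · have h2 := (hcont.integrableOn_compact (μ := b.toBasis.addHaar.prod bY.addHaar)
      ((isCompact_closedBall 0 D).prod (isCompact_closedBall 0 1))).mono_set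
      (prod_mono ball_subset_closedBall ball_subset_closedBall)
    refine h2.congr_fun (fun z hz => ?_) (measurableSet_ball.prod measurableSet_ball)
    rw [val_cc_th he X v0 w (mem_ball_zero_iff.1 (hsub hz.1))]

end Geom

end

end Vale.Agent.P231.S3E
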