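import Vale.Agent.P231.S3E.Frames
import Vale.Agent.P231.S2II.Fun
import Vale.Agent.P231.TW.Prod

/-!
# P231, stage 3, S3-INT (f): the functional `I ∘ SL` as an integral over a box
-/

set_option maxSynthPendingDepth 3
set_option linter.unusedSectionVars false
set_option linter.unusedVariables false

open Bundle Manifold Set Filter Module Topology MeasureTheory
open scoped ContDiff Manifold Topology

namespace Vale.Agent.P231.S3E

noncomputable section

open Vale.Agent.P234 Vale.Agent.P231 Vale.Agent.P231.Fm Vale.Agent.P231.W Vale.Agent.P231.H775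
open Vale.Agent.P231.WR Vale.Agent.P231.S2II

/-! ### the cut-off function of the fibre -/

section Chi

variable {W : Type*} [NormedAddCommGroup W] [InnerProductSpace ℝ W] [FiniteDimensional ℝ W]

/-- the cut-off function -/
def ch (y : W) : ℝ := Real.smoothTransition (2 * ‖y‖ ^ 2 - 1)

theorem contDiff_ch : ContDiff ℝ ∞ (ch : W → ℝ) :=
  Real.smoothTransition.contDiff.comp ((contDiff_const.mul (contDiff_norm_sq ℝ)).sub contDiff_const)

theorem cut_ch : Q.Cut (ch : W → ℝ) (Metric.closedBall 0 1) where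
  smooth := contDiff_ch
  compact := isCompact_closedBall _ _
  one y hy := by
    rw [mem_closedBall_zero_iff, not_le] at hy
    refine Real.smoothTransition.one_of_one_le ?_
    nlinarith
  zero := by
    have h1 : ∀ᶠ y : W in 𝓝 0, 2 * ‖y‖ ^ 2 < 1 := by
      have hc : ContinuousAt (fun y : W => 2 * ‖y‖ ^ 2) 0 := by fun_prop
      refine hc.eventually (gt_mem_nhds ?_)
      simp
    filter_upwards [h1] with y hy
    exact Real.smoothTransition.zero_of_nonpos (by linarith)

end Chi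

variable {E : Type*} [NormedAddCommGroup E] [NormedSpace ℝ E]
  {M : Type*} [MetricSpace M] [ChartedSpace E M]
  [RiemannianBundle (fun x : M => TangentSpace 𝓘(ℝ, E) x)]
  {e : ∀ x : M, TangentSpace 𝓘(ℝ, E) x → M}
  [FiniteDimensional ℝ E] [IsManifold 𝓘(ℝ, E) ∞ M]
  [IsContMDiffRiemannianBundle 𝓘(ℝ, E) ∞ E (fun x : M => TangentSpace 𝓘(ℝ, E) x)]
  [CompactSpace M] [ConnectedSpace M] [IsRiemannianManifold 𝓘(ℝ, E) M]
  (F : Facts e) {D : ℝ} (hD : 0 < D) (hB : InjGE e D) (hdiam : ∀ p q : M, dist p q ≤ D)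
  {l : ℕ} [NeZero l]

/-- the cone map only depends on the direction -/
theorem cone_smul (f : S2II.Fr e D l) {y : Eul l} (hy : y ≠ 0) {c : ℝ} (hc : 0 < c) :
    cone F hD hB hdiam (f, c • y) = cone F hD hB hdiam (f, y) := by
  have hcy : c • y ≠ 0 := smul_ne_zero hc.ne' hy
  have h1 := cone_of F hD hB hdiam (z := (f, c • y)) hcy
  have h2 := cone_of F hD hB hdiam (z := (f, y)) hy
  rw [h1, h2]
  have h3 : (‖c • y‖⁻¹ : ℝ) • c • y = (‖y‖⁻¹ : ℝ) • y := by
    rw [norm_smul, Real.norm_of_nonneg hc.le, smul_smul, mul_inv, mul_comm c⁻¹, mul_assoc,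
      inv_mul_cancel₀ hc.ne', mul_one]
  congr 1

section Box

variable {Z : Type} [NormedAddCommGroup Z] [NormedSpace ℝ Z] [FiniteDimensional ℝ Z]

/-- the pairs over a family of frames -/
def Qh (T : Z → S2II.Fr e D l) (q : Z × Eul l) : Pr e D := cone F hD hB hdiam (T q.1, q.2)

variable {T : Z → S2II.Fr e D l}

theorem at_Qh (hT : ∀ z, (dFr e D l).At T z) {q : Z × Eul l} (hq : q.2 ≠ 0) :
    (dPr e D).At (Qh F hD hB hdiam T) q := by
  refine map_cone F hD hB hdiam (u := cylF T) (x := q) ⟨cylF_at (hT q.1) q.2, ?_⟩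
  exact continuous_snd.continuousAt.eventually_ne hq

theorem Qh_smul {q : Z × Eul l} (hq : q.2 ≠ 0) {c : ℝ} (hc : 0 < c) :
    Qh F hD hB hdiam T (q.1, c • q.2) = Qh F hD hB hdiam T q :=
  cone_smul F hD hB hdiam _ hq hc

theorem frb_val_eq (hT : ∀ z, (dFr e D l).At T z) (w : Form (dPr e D)) (z : Z) :
    (frb F hD hB hdiam w : Form (dFr e D l)).val T z =
      Q.phi volume (bas l) ch (w.val (Qh F hD hB hdiam T)) z := by
  rw [frb, Co.si, Form.fi_val (Co.vc_of_van (Co.vc_dx _)) (hT z), Q.phi]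
  refine integral_congr_ae (Eventually.of_forall fun ζ => ?_)
  change slice _ _ = slice _ _
  congr 1
  have hat : (Co.D1 (dFr e D l) (Eul l)).At (cylF (F := Eul l) T) (z, ζ) := cylF_at (hT z) ζ
  have h1 : (Co.chf (dFr e D l) (Eul l)).d.val (cylF T) (z, ζ) = Q.ps (Q.dR ch ζ) := by
    rw [Form.d_val _ hat]
    have h2 : (Co.chf (dFr e D l) (Eul l)).val (cylF T) =ᶠ[𝓝 (z, ζ)]
        Fm.fn (fun q : Z × Eul l => ch q.2) := by
      filter_upwards [(Co.D1 (dFr e D l) (Eul l)).open' hat] with q hq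
      rw [Co.chf, Form.fn_val _ _ hq]
      rfl
    have h3 : HasFDerivAt (fun q : Z × Eul l => ch q.2)
        ((fderiv ℝ ch ζ).comp (ContinuousLinearMap.snd ℝ Z (Eul l))) (z, ζ) := by
      have h4 : HasFDerivAt (ch : Eul l → ℝ) (fderiv ℝ ch ζ) ζ :=
        (contDiff_ch.differentiable (by simp) ζ).hasFDerivAt
      exact HasFDerivAt.comp (g := ch) (f := Prod.snd) (z, ζ) h4
        (ContinuousLinearMap.snd ℝ Z (Eul l)).hasFDerivAt
    rw [extd_congr h2, extd_fn h3.differentiableAt, h3.fderiv, Q.ps, Q.dR, pull_dx]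
  rw [Co.dx, Form.mx_val, h1, Q.cw]
  rcases eq_or_ne ζ 0 with rfl | hζ
  · have h5 : Q.dR (ch : Eul l → ℝ) 0 = 0 := (cut_ch (W := Eul l)).dR_near.self_of_nhds
    rw [h5, Q.ps, map_zero, zero_mul, zero_mul]
  · congr 1
    have hne : ∀ᶠ q in 𝓝 ((z, ζ) : Z × Eul l), q.2 ≠ 0 :=
      continuous_snd.continuousAt.eventually_ne hζ
    have h6 : (Co.PB (dFr e D l) (Eul l)).At (cylF (F := Eul l) T) (z, ζ) := ⟨hat, hne⟩
    rw [Form.pull_val _ _ h6, Form.pull_val _ _ (Co.map_nrm h6)]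
    refine w.congr (map_coneS F hD hB hdiam (Co.map_nrm h6)) ?_
    filter_upwards [hne] with q hq
    change cone F hD hB hdiam (T q.1, ‖q.2‖⁻¹ • q.2) = cone F hD hB hdiam (T q.1, q.2)
    exact cone_smul F hD hB hdiam _ hq (inv_pos.2 (norm_pos_iff.2 hq))

end Box

end

end Vale.Agent.P231.S3E
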