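import Vale.Agent.P231.S3E479.E1
import Vale.Agent.P231.S3E.Box

/-!
# P231, stage 3, S3-INT (f): comparison of connection forms in the presence of a closed basic form
with small support
-/

set_option linter.unusedSectionVars false
set_option linter.unusedVariables false

open Module MeasureTheory Set Filter
open scoped ContDiff Topology

namespace Vale.Agent.P231.S3E

open Vale.Agent.P231.Fm Vale.Agent.P231.S2I Vale.Agent.P231.W Vale.Agent.P231.H584
open Vale.Agent.P231.Q (dR Cut)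
open Vale.Agent.P231.EN (om Conn)

/-! ### regularisation at the origin -/

section Reg

variable {W : Type*} [NormedAddCommGroup W] [InnerProductSpace ℝ W] [FiniteDimensional ℝ W]

/-- the cut-off function of a given size -/
noncomputable def rgf (c0 : ℝ) (y : W) : ℝ := ch (c0⁻¹ • y)

theorem contDiff_rgf (c0 : ℝ) : ContDiff ℝ ∞ (rgf c0 : W → ℝ) :=
  contDiff_ch.comp (contDiff_const_smul _)

theorem rgf_congr (c0 : ℝ) {y z : W} (h : ‖y‖ = ‖z‖) : rgf c0 y = rgf c0 z := by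
  rw [rgf, rgf, ch, ch, norm_smul, norm_smul, h]

theorem rgf_one {c0 : ℝ} (h : 0 < c0) {y : W} (hy : c0 ≤ ‖y‖) : rgf c0 y = 1 := by
  refine Real.smoothTransition.one_of_one_le ?_
  have h1 : 1 ≤ ‖c0⁻¹ • y‖ := by
    rw [norm_smul, norm_inv, Real.norm_of_nonneg h.le, ← div_eq_inv_mul, le_div_iff₀ h, one_mul]
    exact hy
  nlinarith

theorem rgf_near (c0 : ℝ) : (rgf c0 : W → ℝ) =ᶠ[𝓝 0] fun _ => 0 := by
  have h1 : Tendsto (fun y : W => c0⁻¹ • y) (𝓝 0) (𝓝 0) := by
    have : ContinuousAt (fun y : W => c0⁻¹ • y) 0 := by fun_prop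
    simpa using this.tendsto
  exact h1.eventually (cut_ch (W := W)).zero

theorem rgf_zero (c0 : ℝ) : rgf c0 (0 : W) = 0 := (rgf_near c0).self_of_nhds

/-- the regularised form -/
noncomputable def reg (c0 : ℝ) (w : W → Lam W) (y : W) : Lam W := rgf c0 y • w y

theorem contDiff_reg (c0 : ℝ) {w : W → Lam W} (hw : ContDiffOn ℝ ∞ w {x | x ≠ 0}) :
    ContDiff ℝ ∞ (reg c0 w) := by
  refine contDiff_iff_contDiffAt.2 fun y => ?_
  rcases eq_or_ne y 0 with rfl | hy
  · have h1 : reg c0 w =ᶠ[𝓝 (0 : W)] fun _ => 0 := by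
      filter_upwards [rgf_near (W := W) c0] with z hz
      rw [reg, hz, zero_smul]
    exact contDiffAt_const.congr_of_eventuallyEq h1
  · exact (contDiff_rgf c0).contDiffAt.smul (hw.contDiffAt (isOpen_ne.mem_nhds hy))

theorem reg_eq {c0 : ℝ} (h : 0 < c0) (w : W → Lam W) {y : W} (hy : c0 ≤ ‖y‖) :
    reg c0 w y = w y := by
  rw [reg, rgf_one h hy, one_smul]

end Reg

/-! ### forms which agree near a set -/

section Loc

variable {X : Type*} {D : Dif X}

/-- two forms agree at the points of a set -/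
structure Loc (N : Set X) (a b : Form D) : Prop where
  eq : ∀ (E : Type) [NormedAddCommGroup E] [NormedSpace ℝ E] [FiniteDimensional ℝ E] (u : E → X)
    (x : E), D.At u x → u x ∈ N → a.val u x = b.val u x

/-- open in the plots -/
structure Opn (D : Dif X) (N : Set X) : Prop where
  ev : ∀ (E : Type) [NormedAddCommGroup E] [NormedSpace ℝ E] [FiniteDimensional ℝ E] (u : E → X)
    (x : E), D.At u x → u x ∈ N → ∀ᶠ y in 𝓝 x, u y ∈ N

variable {N : Set X} {a b a' b' : Form D}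

theorem Loc.refl (a : Form D) : Loc N a a := ⟨fun _ _ _ _ _ _ _ _ => rfl⟩

theorem Loc.symm (h : Loc N a b) : Loc N b a := ⟨fun _ _ _ _ _ _ hu hx => (h.eq _ _ _ hu hx).symm⟩

theorem Loc.trans {c : Form D} (h : Loc N a b) (h' : Loc N b c) : Loc N a c :=
  ⟨fun _ _ _ _ _ _ hu hx => (h.eq _ _ _ hu hx).trans (h'.eq _ _ _ hu hx)⟩

theorem Loc.mul (h : Loc N a b) (h' : Loc N a' b') : Loc N (a * a') (b * b') :=
  ⟨fun _ _ _ _ _ _ hu hx => by
    rw [Form.mul_val, Form.mul_val, h.eq _ _ _ hu hx, h'.eq _ _ _ hu hx]⟩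

theorem Loc.add (h : Loc N a b) (h' : Loc N a' b') : Loc N (a + a') (b + b') :=
  ⟨fun _ _ _ _ _ _ hu hx => by
    rw [Form.add_val, Form.add_val, h.eq _ _ _ hu hx, h'.eq _ _ _ hu hx]⟩

theorem Loc.smul (c : ℝ) (h : Loc N a b) : Loc N (c • a) (c • b) :=
  ⟨fun _ _ _ _ _ _ hu hx => by rw [Form.smul_val, Form.smul_val, h.eq _ _ _ hu hx]⟩

theorem Loc.pow (h : Loc N a b) (n : ℕ) : Loc N (a ^ n) (b ^ n) := by
  induction n with
  | zero => rw [pow_zero, pow_zero]; exact Loc.refl _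
  | succ n ih => rw [pow_succ, pow_succ]; exact ih.mul h

theorem Loc.d (hN : Opn D N) (h : Loc N a b) : Loc N a.d b.d := ⟨fun E _ _ _ u x hu hx => by
  rw [Form.d_val _ hu, Form.d_val _ hu]
  refine extd_congr ?_
  filter_upwards [D.open' hu, hN.ev _ _ _ hu hx] with y h1 h2 using h.eq _ _ _ h1 h2⟩

theorem Loc.mul_eq {w : Form D} (hw : Loc Nᶜ w 0) (h : Loc N a b) : w * a = w * b :=
  Form.ext_val fun E _ _ _ u x hu => by
    rw [Form.mul_val, Form.mul_val]
    by_cases hx : u x ∈ N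
    · rw [h.eq _ _ _ hu hx]
    · rw [hw.eq _ _ _ hu hx, Form.zero_val, zero_mul, zero_mul]

theorem Loc.pull {Y : Type*} {D' : Dif Y} {f : X → Y} (hf : D.Map D' f) {N' : Set Y}
    (hNN : ∀ x ∈ N, f x ∈ N') {a b : Form D'} (h : Loc N' a b) :
    Loc N (Form.pull f hf a) (Form.pull f hf b) := ⟨fun E _ _ _ u x hu hx => by
  rw [Form.pull_val hf _ hu, Form.pull_val hf _ hu]
  exact h.eq _ _ _ (hf hu) (hNN _ hx)⟩

theorem Opn.pre {Y : Type*} {D' : Dif Y} {f : X → Y} (hf : D.Map D' f) {N' : Set Y}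
    (h : Opn D' N') : Opn D (f ⁻¹' N') := ⟨fun _ _ _ _ _ _ hu hx => h.ev _ _ _ (hf hu) hx⟩

theorem loc_lin {W : Type*} [NormedAddCommGroup W] [NormedSpace ℝ W] [FiniteDimensional ℝ W]
    {N : Set W} {w w' : W → Lam W} (hw : ContDiff ℝ ∞ w) (hw' : ContDiff ℝ ∞ w')
    (h : ∀ y ∈ N, w y = w' y) : Loc N (Form.ofLin w hw) (Form.ofLin w' hw') :=
  ⟨fun E _ _ _ u x hu hx => by
    rw [Form.ofLin_val _ _ hu, Form.ofLin_val _ _ hu, pb, pb, h _ hx]⟩

theorem opn_lin {W : Type*} [NormedAddCommGroup W] [NormedSpace ℝ W] [FiniteDimensional ℝ W]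
    {N : Set W} (hN : IsOpen N) : Opn (Dif.lin W) N := ⟨fun E _ _ _ u x hu hx => by
  have h1 : Sm u x := hu
  exact h1.continuousAt.eventually_mem (hN.mem_nhds hx)⟩

end Loc

end Vale.Agent.P231.S3E
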