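import Vale.Agent.P231.S3E.Alg

/-!
# P231, stage 3, S3-INT (f): comparison of connection forms in the presence of a closed basic form
with small support, 2
-/

set_option linter.unusedSectionVars false
set_option linter.unusedVariables false

open Module MeasureTheory Set Filter
open scoped ContDiff Topology

namespace Vale.Agent.P231.S3E

open Vale.Agent.P231.Fm Vale.Agent.P231.S2I Vale.Agent.P231.W Vale.Agent.P231.H584
open Vale.Agent.P231.Q (dR Cut)
open Vale.Agent.P231.EN (om Conn)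

variable (n : ℕ)

theorem pb_reg_RW (c0 c : ℝ) (x : WW n) (t : ℝ) :
    pb (RW n c) (reg c0 (bw n)) (x, t) =
      Fm.pull (ContinuousLinearMap.fst ℝ (WW n) ℝ) (reg c0 (bw n) x) +
        (c * rgf c0 x) • dx (ContinuousLinearMap.snd ℝ (WW n) ℝ) := by
  have h1 : pb (RW n c) (reg c0 (bw n)) (x, t) = rgf c0 x • pb (RW n c) (bw n) (x, t) := by
    rw [pb, pb, reg, map_smul, rgf_congr c0 (norm_RW n c (x, t))]
  rw [h1, reg, map_smul]
  rcases eq_or_ne x 0 with rfl | hx
  · rw [rgf_zero, zero_smul, zero_smul, mul_zero, zero_smul, add_zero]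
  · rw [pb_RW n c hx t, smul_add, smul_smul, mul_comm c]

variable {X : Type*} {D : Dif X} {T : ℝ} {R : X × ℝ → X} {n}

/-- the regularised connection form pulled back by an equivariant map -/
theorem pull_flow_reg (hR : (D.prod (Dif.lin ℝ)).Map D R) {H : X → WW n}
    (hH : D.Map (Dif.lin (WW n)) H) {c : ℝ} (heq : ∀ v t, H (R (v, t)) = RW n c (H v, t)) (c0 : ℝ)
    (h1 : ContDiff ℝ ∞ (reg c0 (bw n))) (h2 : ContDiff ℝ ∞ (reg c0 (fun _ : WW n => 1))) :
    Form.pull R hR (Form.pull H hH (Form.ofLin (reg c0 (bw n)) h1)) =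
      pr (Form.pull H hH (Form.ofLin (reg c0 (bw n)) h1)) +
        c • (pr (Form.pull H hH (Form.ofLin (reg c0 (fun _ : WW n => 1)) h2)) * dt) := by
  refine Form.ext_val fun E _ _ _ u x hu => ?_
  have hu1 : D.At (fun y => (u y).1) x := hu.1
  have hu2 : Sm (fun y => (u y).2) x := hu.2
  have hRu : D.At (R ∘ u) x := hR hu
  have hg1 : Sm (fun y => H (u y).1) x := hH hu1
  have hg : Sm (fun y => (H (u y).1, (u y).2)) x := hg1.prodMk hu2
  set g : E → WW n × ℝ := fun y => (H (u y).1, (u y).2) with hgdef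
  have e1 : H ∘ (R ∘ u) = fun y => RW n c (g y) := by
    funext y
    exact heq (u y).1 (u y).2
  have hd1 : DifferentiableAt ℝ g x := hg.differentiableAt
  have hval : ∀ {w : WW n → Lam (WW n)} (hw : ContDiff ℝ ∞ w),
      (pr (Form.pull H hH (Form.ofLin w hw))).val u x =
        Fm.pull (fderiv ℝ g x) (Fm.pull (ContinuousLinearMap.fst ℝ (WW n) ℝ) (w (g x).1)) := by
    intro w hw
    have h1 : (pr (Form.pull H hH (Form.ofLin w hw))).val u x =
        (Form.pull H hH (Form.ofLin w hw)).val (fun y => (u y).1) x :=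
      Form.pull_val (f := (Prod.fst : X × ℝ → X)) (Dif.map_fst (D := D) (D' := Dif.lin ℝ)) _ hu
    have hHu : Sm (H ∘ fun y => (u y).1) x := hH hu1
    rw [h1, Form.pull_val hH _ hu1, Form.ofLin_val _ _ hHu, ← pull_comp_apply]
    have h2 : fderiv ℝ (H ∘ fun y => (u y).1) x =
        (ContinuousLinearMap.fst ℝ (WW n) ℝ) ∘L fderiv ℝ g x := by
      have h3 := (ContinuousLinearMap.fst ℝ (WW n) ℝ).hasFDerivAt.comp x hd1.hasFDerivAt
      exact h3.fderiv
    rw [pb, h2]
    rfl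
  have e2 : (Form.pull R hR (Form.pull H hH (Form.ofLin (reg c0 (bw n)) h1))).val u x =
      Fm.pull (fderiv ℝ g x) (pb (RW n c) (reg c0 (bw n)) (g x)) := by
    have h3 : DifferentiableAt ℝ (RW n c) (g x) := (contDiff_RW n c).differentiable (by simp) _
    have hHu : Sm (H ∘ (R ∘ u)) x := hH hRu
    rw [Form.pull_val hR _ hu, Form.pull_val hH _ hRu,
      Form.ofLin_val _ _ hHu, e1, pb_comp (f := g) (g := RW n c) (reg c0 (bw n)) h3 hd1]
    rfl
  have e4 : (dt : Form (D.prod (Dif.lin ℝ))).val u x =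
      Fm.pull (fderiv ℝ g x) (dx (ContinuousLinearMap.snd ℝ (WW n) ℝ)) := by
    rw [WA.dt_val hu, pull_dx]
    congr 1
    have h3 := (ContinuousLinearMap.snd ℝ (WW n) ℝ).hasFDerivAt.comp x hd1.hasFDerivAt
    exact h3.fderiv
  have e5 := pb_reg_RW n c0 c (g x).1 (g x).2
  rw [Form.add_val, Form.smul_val, Form.mul_val, e2, hval h1, hval h2, e4]
  change Fm.pull (fderiv ℝ g x) (pb (RW n c) (reg c0 (bw n)) ((g x).1, (g x).2)) = _
  have e6 : Fm.pull (fderiv ℝ g x) (Fm.pull (ContinuousLinearMap.fst ℝ (WW n) ℝ)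
      (reg c0 (fun _ : WW n => 1) (g x).1)) = rgf c0 (g x).1 • 1 := by
    rw [reg, map_smul, map_smul, map_one, map_one]
  rw [e5, map_add, map_smul, e6, smul_mul_assoc, one_mul, smul_smul]

theorem loc_om {c0 : ℝ} (h0 : 0 < c0) (m : ℕ) (s1 : ContDiff ℝ ∞ (reg c0 (bw n)))
    (s2 : ContDiff ℝ ∞ (reg c0 (om (bw n) m))) :
    Loc {y : WW n | c0 < ‖y‖} (Form.ofLin (reg c0 (bw n)) s1 * (Form.ofLin (reg c0 (bw n)) s1).d ^ m)
      (Form.ofLin (reg c0 (om (bw n) m)) s2) := by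
  have ho : IsOpen {y : WW n | c0 < ‖y‖} := isOpen_lt continuous_const continuous_norm
  refine ⟨fun E _ _ _ u x hu hx => ?_⟩
  have hx' : c0 < ‖u x‖ := hx
  have h1 : ∀ k : ℕ, ((Form.ofLin (reg c0 (bw n)) s1).d ^ k).val u x =
      Fm.pull (fderiv ℝ u x) (extd (bw n) (u x) ^ k) := by
    intro k
    induction k with
    | zero => rw [pow_zero, pow_zero, Form.one_val hu, map_one]
    | succ k ih =>
      rw [pow_succ, pow_succ, Form.mul_val, ih, map_mul, Form.d_ofLin, Form.ofLin_val _ _ hu, pb]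
      congr 2
      refine extd_congr ?_
      filter_upwards [ho.mem_nhds hx] with y hy using reg_eq h0 _ (le_of_lt hy)
  rw [Form.mul_val, h1, Form.ofLin_val _ _ hu, Form.ofLin_val _ _ hu, pb, pb, ← map_mul,
    reg_eq h0 _ hx'.le, reg_eq h0 _ hx'.le, om]

/-- **comparison of connection forms**, with a closed basic factor supported where the equivariant
map `H` is large -/
theorem conn_weight (h : IsFlow D T R) (hT : T ≠ 0) {α : Form D}
    (hα : Form.pull R h.map α = pr α + dt) (hαo : α.sg = -α) {H : X → WW (n + 1)}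
    (hH : D.Map (Dif.lin (WW (n + 1))) H) {c : ℝ} (hc : c ≠ 0)
    (heq : ∀ v t, H (R (v, t)) = RW (n + 1) c (H v, t)) {c0 : ℝ} (h0 : 0 < c0) {N : Set X}
    (hN : Opn D N) (hHN : ∀ v ∈ N, c0 < ‖H v‖) {w1 : Form D} (hw : Loc Nᶜ w1 0)
    (hwe : w1.sg = w1) (hwd : w1.d = 0) (hwb : Basic R h.map w1) (I : Form D →ₗ[ℝ] ℝ)
    (hId : ∀ w : Form D, I w.d = 0) (hIb : ∀ w : Form D, Basic R h.map w → I w = 0)
    {om' : WW (n + 1) → Lam (WW (n + 1))} (ho1 : ContDiffOn ℝ ∞ om' {x | x ≠ 0})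
    (ho2 : ∀ y, Q.IsDeg (2 * n + 1) (om' y)) (ho3 : ∀ y ≠ 0, extd om' y = 0)
    {r : WW (n + 1) → ℝ} {K : Set (WW (n + 1))} (hr : Cut r K)
    (ho5 : ∫ y, evalForm (dR r y * om' y) (bW (n + 1)) = 1) :
    I (w1 * (α * α.d ^ n)) = (c⁻¹) ^ (n + 1) * (2 * Real.pi) ^ (n + 1) *
      I (w1 * Form.pull H hH (Form.ofLin (reg c0 om') (contDiff_reg c0 ho1))) := by
  have s1 := contDiff_reg c0 (contDiffOn_bw (n + 1))
  have s2 : ContDiff ℝ ∞ (reg c0 (fun _ : WW (n + 1) => 1)) := contDiff_reg c0 contDiffOn_const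
  set A : Form D := Form.pull H hH (Form.ofLin (reg c0 (bw (n + 1))) s1) with hA
  set ρ : Form D := Form.pull H hH (Form.ofLin (reg c0 (fun _ : WW (n + 1) => 1)) s2) with hρ
  have hfl : Form.pull R h.map A = pr A + c • (pr ρ * dt) :=
    pull_flow_reg h.map hH heq c0 s1 s2
  have hρb : Form.pull R h.map ρ = pr ρ := by
    refine Form.ext_val fun E _ _ _ u x hu => ?_
    have hu1 : D.At (fun y => (u y).1) x := hu.1
    have hRu : D.At (R ∘ u) x := h.map hu
    have h1 : (pr ρ).val u x = ρ.val (fun y => (u y).1) x :=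
      Form.pull_val (f := (Prod.fst : X × ℝ → X)) (Dif.map_fst (D := D) (D' := Dif.lin ℝ)) _ hu
    have hHu : Sm (H ∘ (R ∘ u)) x := hH hRu
    have hHu' : Sm (H ∘ fun y => (u y).1) x := hH hu1
    rw [h1, Form.pull_val h.map _ hu, hρ, Form.pull_val hH _ hRu, Form.pull_val hH _ hu1,
      Form.ofLin_val _ _ hHu, Form.ofLin_val _ _ hHu', pb, pb, reg, reg, map_smul, map_smul,
      map_one, map_one]
    congr 1
    refine rgf_congr c0 ?_
    change ‖H (R (u x))‖ = ‖H (u x).1‖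
    have h2 : R (u x) = R ((u x).1, (u x).2) := rfl
    rw [h2, heq, norm_RW]
  have hAo : A.sg = -A := by
    refine Form.ext_val fun E _ _ _ u x hu => ?_
    have hHu : Sm (H ∘ u) x := hH hu
    have h1 : inv (reg c0 (bw (n + 1)) ((H ∘ u) x)) = -reg c0 (bw (n + 1)) ((H ∘ u) x) := by
      rw [reg, map_smul]
      rcases eq_or_ne ((H ∘ u) x) 0 with hz | hz
      · rw [hz, rgf_zero, zero_smul, zero_smul, neg_zero]
      · rw [← smul_neg]
        congr 1
        exact (conn_bw (n + 1)).odd _ hz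
    rw [Form.sg_val, Form.neg_val, hA, Form.pull_val hH _ hu, Form.ofLin_val _ _ hHu, pb,
      ← pull_inv, h1, map_neg]
  have hρe : ρ.sg = ρ := by
    refine Form.ext_val fun E _ _ _ u x hu => ?_
    have hHu : Sm (H ∘ u) x := hH hu
    rw [Form.sg_val, hρ, Form.pull_val hH _ hu, Form.ofLin_val _ _ hHu, pb, reg, map_smul,
      map_smul, map_one, map_one]
  -- the connection form
  set ν : Form D := c⁻¹ • A + (1 - ρ) * α with hνdef
  have hν : Form.pull R h.map ν = pr ν + dt := by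
    have e1 : Form.pull R h.map ν = c⁻¹ • Form.pull R h.map A +
        (1 - Form.pull R h.map ρ) * Form.pull R h.map α := by
      have h1 : Form.pullA R h.map ν = c⁻¹ • Form.pullA R h.map A +
          (1 - Form.pullA R h.map ρ) * Form.pullA R h.map α := by
        rw [hνdef, map_add, map_smul, map_mul, map_sub, map_one]
      exact h1
    have e2 : pr ν = c⁻¹ • pr A + (1 - pr ρ) * pr α := by
      have h1 : Form.pullA (Prod.fst : X × ℝ → X) Dif.map_fst ν =
          c⁻¹ • Form.pullA (Prod.fst : X × ℝ → X) (Dif.map_fst (D := D) (D' := Dif.lin ℝ)) A +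
          (1 - Form.pullA (Prod.fst : X × ℝ → X) (Dif.map_fst (D := D) (D' := Dif.lin ℝ)) ρ) *
            Form.pullA (Prod.fst : X × ℝ → X) (Dif.map_fst (D := D) (D' := Dif.lin ℝ)) α := by
        rw [hνdef, map_add, map_smul, map_mul, map_sub, map_one]
      exact h1
    rw [e1, e2, hfl, hρb, hα, smul_add, smul_smul, inv_mul_cancel₀ hc, one_smul]
    noncomm_ring
  have hνo : ν.sg = -ν := by
    rw [hνdef, Form.sg_add, Form.sg_smul, Form.sg_mul, Form.sg_sub, hAo, hρe, hαo, Form.sg_one]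
    rw [smul_neg, mul_neg]
    abel
  have hdw : ∀ w : Form D, w1 * w.d = (w1 * w).d := fun w => by
    rw [Form.d_mul, hwd, hwe, zero_mul, zero_add]
  have h1 : I (w1 * (α * α.d ^ n)) = I (w1 * (ν * ν.d ^ n)) :=
    conn_pow_indep h hT hα hν hαo hνo (I.comp (LinearMap.mulLeft ℝ w1))
      (fun w => by
        change I (w1 * w.d) = 0
        rw [hdw, hId]) (fun w hwb' => hIb _ (Basic.mul hwb hwb')) n
  -- localisation
  have hρ1 : Loc N ρ 1 := ⟨fun E _ _ _ u x hu hx => by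
    have hHu : Sm (H ∘ u) x := hH hu
    have h2 : reg c0 (fun _ : WW (n + 1) => (1 : Lam (WW (n + 1)))) ((H ∘ u) x) = 1 :=
      reg_eq h0 _ (hHN _ hx).le
    rw [hρ, Form.pull_val hH _ hu, Form.ofLin_val _ _ hHu, pb, h2, map_one, Form.one_val hu]⟩
  have hν1 : Loc N ν (c⁻¹ • A) := ⟨fun E _ _ _ u x hu hx => by
    rw [hνdef, Form.add_val, Form.mul_val, Form.sub_val, hρ1.eq _ _ _ hu hx, sub_self, zero_mul,
      add_zero]⟩
  have hν2 : Loc N (ν * ν.d ^ n) ((c⁻¹) ^ (n + 1) • (A * A.d ^ n)) := by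
    have h2 := hν1.mul ((hν1.d hN).pow n)
    rw [Form.d_smul, smul_pow, smul_mul_smul_comm, ← pow_succ'] at h2
    exact h2
  have ho : IsOpen {y : WW (n + 1) | c0 < ‖y‖} := isOpen_lt continuous_const continuous_norm
  have s3 : ContDiffOn ℝ ∞ (om (bw (n + 1)) n) {x | x ≠ 0} := fun x hx =>
    ((conn_bw (n + 1)).smooth_om n hx).contDiffWithinAt
  have hA2 : Loc N (A * A.d ^ n) (Form.pull H hH (Form.ofLin (reg c0 (om (bw (n + 1)) n))
      (contDiff_reg c0 s3))) := by
    have e1 : A * A.d ^ n = Form.pull H hH (Form.ofLin (reg c0 (bw (n + 1))) s1 *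
        (Form.ofLin (reg c0 (bw (n + 1))) s1).d ^ n) := by
      have h2 : Form.pullA H hH (Form.ofLin (reg c0 (bw (n + 1))) s1 *
        (Form.ofLin (reg c0 (bw (n + 1))) s1).d ^ n) = Form.pullA H hH
          (Form.ofLin (reg c0 (bw (n + 1))) s1) * (Form.pullA H hH
        (Form.ofLin (reg c0 (bw (n + 1))) s1).d) ^ n := by rw [map_mul, map_pow]
      refine Eq.trans ?_ h2.symm
      congr 2
      exact (Form.pull_d _ _ _).symm
    rw [e1]
    exact Loc.pull hH (N' := {y : WW (n + 1) | c0 < ‖y‖}) hHN (loc_om h0 n s1 _)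
  -- the cohomology of the punctured space
  obtain ⟨ζ, z1, z2, z3⟩ := exists_top_prim (bW (n + 1)) (j := 2 * n) (by ring)
    (σ := om (bw (n + 1)) n) (ω' := om') s3
    (fun x hx => extd_om_bw n hx) (fun x hx => isDeg_om_bw (n + 1) n hx) ho1 ho3
    (fun x hx => ho2 x) hr ho5
  rw [integral_om_bw n hr] at z3
  have h4 : Loc {y : WW (n + 1) | c0 < ‖y‖} (Form.ofLin (reg c0 (om (bw (n + 1)) n))
      (contDiff_reg c0 s3)) ((2 * Real.pi) ^ (n + 1) • Form.ofLin (reg c0 om')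
        (contDiff_reg c0 ho1) + (Form.ofLin (reg c0 ζ) (contDiff_reg c0 z1)).d) := by
    refine ⟨fun E _ _ _ u x hu hx => ?_⟩
    have hx' : c0 < ‖u x‖ := hx
    have hx0 : u x ≠ 0 := by
      rw [← norm_pos_iff]
      exact h0.trans hx'
    have h5 : extd (reg c0 ζ) (u x) = extd ζ (u x) := by
      refine extd_congr ?_
      filter_upwards [ho.mem_nhds hx] with y hy using reg_eq h0 _ (le_of_lt hy)
    rw [Form.add_val, Form.smul_val, Form.d_ofLin, Form.ofLin_val _ _ hu, Form.ofLin_val _ _ hu,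
      Form.ofLin_val _ _ hu, pb, pb, pb, h5, reg_eq h0 _ hx'.le, reg_eq h0 _ hx'.le, z3 _ hx0,
      map_add, map_smul]
  have h5 : Loc N (ν * ν.d ^ n) ((c⁻¹) ^ (n + 1) • ((2 * Real.pi) ^ (n + 1) •
      Form.pull H hH (Form.ofLin (reg c0 om') (contDiff_reg c0 ho1)) +
        (Form.pull H hH (Form.ofLin (reg c0 ζ) (contDiff_reg c0 z1))).d)) := by
    refine hν2.trans ((hA2.trans ?_).smul _)
    have h6 := Loc.pull hH (N' := {y : WW (n + 1) | c0 < ‖y‖}) hHN h4
    rw [← Form.pull_d]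
    have h7 : Form.pullA H hH ((2 * Real.pi) ^ (n + 1) • Form.ofLin (reg c0 om')
        (contDiff_reg c0 ho1) + (Form.ofLin (reg c0 ζ) (contDiff_reg c0 z1)).d) =
        (2 * Real.pi) ^ (n + 1) • Form.pullA H hH (Form.ofLin (reg c0 om')
          (contDiff_reg c0 ho1)) + Form.pullA H hH (Form.ofLin (reg c0 ζ)
          (contDiff_reg c0 z1)).d := by rw [map_add, map_smul]
    refine h6.trans ?_
    exact ⟨fun E _ _ _ u x hu hx => congrArg (fun w : Form D => w.val u x) h7⟩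
  rw [h1, Loc.mul_eq hw h5, mul_smul_comm, mul_add, mul_smul_comm, hdw, map_smul, map_add,
    map_smul, hId, add_zero, smul_eq_mul, smul_eq_mul, mul_assoc]

end Vale.Agent.P231.S3E
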