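import Vale.Agent.P231.S3E.PMap0

/-!
# P231, stage 3, block (f): integrality for a partial homogeneous map to a product
-/

set_option linter.unusedVariables false
set_option linter.unusedSectionVars false

open Module MeasureTheory Set Metric Filter
open scoped ContDiff Topology

namespace Vale.Agent.P231.S3E

open Vale.Agent.P231.Fm
open Vale.Agent.P231.Q (dR Cut)
open Vale.Agent.P231.TW (Hom pB)

variable {V : Type*} [NormedAddCommGroup V] [NormedSpace ℝ V] [FiniteDimensional ℝ V]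
  [MeasurableSpace V] [BorelSpace V]
variable {F : Type*} [NormedAddCommGroup F] [InnerProductSpace ℝ F] [FiniteDimensional ℝ F]
  [MeasurableSpace F] [BorelSpace F]
variable {V1 : Type*} [NormedAddCommGroup V1] [NormedSpace ℝ V1] [FiniteDimensional ℝ V1]
  [MeasurableSpace V1] [BorelSpace V1]
variable {W : Type*} [NormedAddCommGroup W] [InnerProductSpace ℝ W] [FiniteDimensional ℝ W]
  [MeasurableSpace W] [BorelSpace W]

variable {B : Set V} {U : Set (V × F)} {B1 : Set V1} {f : V × F → V1} {P : V × F → W}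

/-! ### the normalised map -/

theorem PMap.at_f (h : PMap B U B1 f P) {q : V × F} (hq : q ∈ U) : ContDiffAt ℝ ∞ f q :=
  h.smf.contDiffAt (h.opn.mem_nhds hq)

theorem PMap.at_P (h : PMap B U B1 f P) {q : V × F} (hq : q ∈ U) : ContDiffAt ℝ ∞ P q :=
  h.smP.contDiffAt (h.opn.mem_nhds hq)

theorem PMap.at_rad (h : PMap B U B1 f P) {q : V × F} (hq : q ∈ U) (h1 : f q ∈ B1) :
    ContDiffAt ℝ ∞ (fun z => rad (P z)) q :=
  (contDiffAt_rad (h.ne q hq h1)).comp q (h.at_P hq)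

theorem PMap.at_nP (h : PMap B U B1 f P) {q : V × F} (hq : q ∈ U) (h1 : f q ∈ B1) :
    ContDiffAt ℝ ∞ (nP P) q :=
  ((contDiffAt_norm ℝ (h.ne0 q hq)).comp q contDiffAt_snd).smul (h.at_rad hq h1)

theorem PMap.norm_nP (h : PMap B U B1 f P) {q : V × F} (hq : q ∈ U) (h1 : f q ∈ B1) :
    ‖nP P q‖ = ‖q.2‖ := by
  rw [nP, norm_smul, norm_rad (h.ne q hq h1), mul_one, norm_norm]

theorem PMap.rad_nP (h : PMap B U B1 f P) {q : V × F} (hq : q ∈ U) (h1 : f q ∈ B1) :
    rad (nP P q) = rad (P q) := by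
  rw [nP, rad_smul _ (norm_pos_iff.2 (h.ne0 q hq)), rad, norm_rad (h.ne q hq h1), inv_one,
    one_smul]

/-- the domain of the normalised map -/
def dom (B : Set V) (U : Set (V × F)) (B1 : Set V1) (f : V × F → V1) : Set (V × F) :=
  {q | q.1 ∈ B ∧ q ∈ U ∧ f q ∈ B1}

theorem PMap.isOpen_UB1 (h : PMap B U B1 f P) : IsOpen (U ∩ f ⁻¹' B1) :=
  h.smf.continuousOn.isOpen_inter_preimage h.opn h.opn1

theorem PMap.isOpen_dom (h : PMap B U B1 f P) (hB : IsOpen B) : IsOpen (dom B U B1 f) := by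
  have h1 : dom B U B1 f = Prod.fst ⁻¹' B ∩ (U ∩ f ⁻¹' B1) := rfl
  rw [h1]
  exact (hB.preimage continuous_fst).inter h.isOpen_UB1

/-- the map to the product -/
noncomputable def psi (f : V × F → V1) (P : V × F → W) (q : V × F) : V1 × W := (f q, nP P q)

theorem PMap.at_psi (h : PMap B U B1 f P) {q : V × F} (hq : q ∈ U) (h1 : f q ∈ B1) :
    ContDiffAt ℝ ∞ (psi f P) q := (h.at_f hq).prodMk (h.at_nP hq h1)

/-- pull-back of the form of the fibre -/
theorem PMap.pb_nP (h : PMap B U B1 f P) {om : W → Lam W} (hom : Hom om) {r : F → ℝ} {K : Set F}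
    (hr : Cut r K) {r' : W → ℝ} {K' : Set W} (hr' : Cut r' K')
    (hrr : ∀ z y, ‖z‖ = ‖y‖ → r z = r' y) {q : V × F} (hq : q ∈ U) (h1 : f q ∈ B1) :
    pb (nP P) (fun y => dR r' y * om y) q = Q.ps (dR r q.2) * pb P om q := by
  have hd := (h.at_nP hq h1).differentiableAt (by simp)
  have h3 : pb (nP P) (fun y => dR r' y * om y) q = pb (nP P) (dR r') q * pb (nP P) om q :=
    map_mul _ _ _
  have hev : ∀ᶠ y : V × F in 𝓝 q, y ∈ U ∧ f y ∈ B1 := h.isOpen_UB1.mem_nhds ⟨hq, h1⟩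
  have h4 : pb (nP P) (dR r') q = Q.ps (dR r q.2) := by
    have h5 : (fun y => r' (nP P y)) =ᶠ[𝓝 q] fun y : V × F => r y.2 := by
      filter_upwards [hev] with y hy
      exact (hrr _ _ (h.norm_nP hy.1 hy.2).symm).symm
    have h6 : pb (nP P) (dR r') q = dx (fderiv ℝ (fun w => r' (nP P w)) q) := by
      rw [pb, dR, pull_dx]
      congr 1
      exact (fderiv_comp q (hr'.smooth.differentiable (by simp) _) hd).symm
    rw [h6, h5.fderiv_eq, Q.ps, dR, pull_dx]
    congr 1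
    exact (HasFDerivAt.comp q (hr.smooth.differentiable (by simp) q.2).hasFDerivAt
      hasFDerivAt_snd).fderiv
  have h6 : pb (nP P) om q = pb P om q :=
    hom.pb_smul hd ((h.at_P hq).differentiableAt (by simp))
      (by rw [← norm_ne_zero_iff, h.norm_nP hq h1]; exact norm_ne_zero_iff.2 (h.ne0 q hq))
      (hev.mono fun y hy => h.rad_nP hy.1 hy.2) (h.ne q hq h1)
  rw [h3, h4, h6]

/-- the form of the product -/
noncomputable def pform (om1 : V1 → Lam V1) (r' : W → ℝ) (om : W → Lam W) (y : V1 × W) :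
    Lam (V1 × W) := Q.ps (dR r' y.2 * om y.2) * Q.pf (om1 y.1)

theorem PMap.pb_psi (h : PMap B U B1 f P) (om1 : V1 → Lam V1) {om : W → Lam W} (hom : Hom om)
    {r : F → ℝ} {K : Set F}
    (hr : Cut r K) {r' : W → ℝ} {K' : Set W} (hr' : Cut r' K')
    (hrr : ∀ z y, ‖z‖ = ‖y‖ → r z = r' y) {q : V × F} (hq : q ∈ U) (h1 : f q ∈ B1) :
    pb (psi f P) (pform om1 r' om) q = Q.ps (dR r q.2) * (pb P om q * pb f om1 q) := by
  have hd := (h.at_psi hq h1).differentiableAt (by simp)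
  have h2 : pb (psi f P) (pform om1 r' om) q =
      pb (psi f P) (pb Prod.snd fun y => dR r' y * om y) q * pb (psi f P) (pb Prod.fst om1) q := by
    have e1 : (pb Prod.snd fun y => dR r' y * om y) =
        fun y : V1 × W => Q.ps (dR r' y.2 * om y.2) := by
      funext y
      rw [pb, fderiv_snd]
      rfl
    have e2 : (pb Prod.fst om1) = fun y : V1 × W => Q.pf (om1 y.1) := by
      funext y
      rw [pb, fderiv_fst]
      rfl
    rw [e1, e2]
    exact map_mul _ _ _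
  rw [h2, ← pb_comp (fun y => dR r' y * om y) differentiableAt_snd hd,
    ← pb_comp om1 differentiableAt_fst hd]
  change pb (nP P) (fun y => dR r' y * om y) q * pb f om1 q = _
  rw [h.pb_nP hom hr hr' hrr hq h1, mul_assoc]

theorem slice_ps {l : ℕ} (v : Fin l → W) (η : Lam W) :
    slice v (Q.ps (E := V1) η) = algebraMap ℝ (Lam V1) (evalForm η v) := by
  rw [slice_apply, Q.ps]
  have h1 := pull_cont (ContinuousLinearMap.snd ℝ V1 W) (vert (E := V1) v) η
  have h2 : (fun i => (ContinuousLinearMap.snd ℝ V1 W) (vert (E := V1) v i)) = v := rfl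
  rw [h1, h2, ← pull_comp_apply]
  have h3 : (ContinuousLinearMap.snd ℝ V1 W).comp (ContinuousLinearMap.inl ℝ V1 W) = 0 := by
    ext; simp
  rw [h3, Q.pull_zero]
  rfl

theorem eval_pform {m1 l : ℕ} (b1 : Basis (Fin m1) ℝ V1) (b : Basis (Fin l) ℝ W)
    (om1 : V1 → Lam V1) (r' : W → ℝ) (om : W → Lam W) (y : V1 × W) :
    evalForm (pform om1 r' om y) (pB b1 b) =
      evalForm (om1 y.1) b1 * evalForm (dR r' y.2 * om y.2) b := by
  rw [TW.evalForm_pB, pform, Q.slice_mul_pf, slice_ps, ← Algebra.smul_def, Q.evalForm_smul,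
    mul_comm]

/-- the sign -/
theorem PMap.cw_eq (h : PMap B U B1 f P) {om1 : V1 → Lam V1} {m1 n : ℕ}
    (h1 : ∀ y, Q.IsDeg m1 (om1 y)) {om : W → Lam W} (h2 : ∀ y, Q.IsDeg (2 * n + 1) (om y))
    (r : F → ℝ) (q : V × F) :
    Q.cw r (fun q => pb f om1 q * pb P om q) q =
      (-1 : ℝ) ^ m1 • (Q.ps (dR r q.2) * (pb P om q * pb f om1 q)) := by
  have e1 : Fm.inv (pb P om q) = -pb P om q := by
    have := ((h2 (P q)).pull (fderiv ℝ P q)).inv
    rw [pb, this, Odd.neg_one_pow ⟨n, rfl⟩, neg_one_smul]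
  have e2 : Fm.inv (pb f om1 q) = (-1 : ℝ) ^ m1 • pb f om1 q :=
    ((h1 (f q)).pull (fderiv ℝ f q)).inv
  rw [Q.cw, mul_of_odd e1, e2, smul_mul_assoc, mul_smul_comm, smul_smul, ← mul_pow]
  norm_num

/-! ### an exceptional value -/

theorem PMap.exists_dir (h : PMap B U B1 f P) (h1 : B1.Nonempty) (hBc : IsCompact (closure B))
    {k l m1 n : ℕ} (bV : Basis (Fin k) ℝ V)
    (bF : Basis (Fin l) ℝ F) (b1 : Basis (Fin m1) ℝ V1)
    (b : OrthonormalBasis (Fin (2 * n + 2)) ℝ W) (hd : l + k = m1 + (2 * n + 2))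
    (hB0 : bV.addHaar (frontier B) = 0) :
    ∃ (q1 : V1) (ρ : ℝ) (a : W) (c : ℝ), 0 < ρ ∧ closedBall q1 ρ ⊆ B1 ∧ ‖a‖ = 1 ∧ 0 ≤ c ∧
      c < 1 ∧ ∀ q ∈ U, q.1 ∈ frontier B → f q ∈ ball q1 ρ →
        inner ℝ a (nP P q) ≤ c * ‖nP P q‖ := by
  have hZ : finrank ℝ (V × F) = finrank ℝ (V1 × W) := by
    rw [finrank_eq_card_basis (pB bV bF), finrank_eq_card_basis (pB b1 b.toBasis),
      Fintype.card_fin, Fintype.card_fin, hd]
    omega
  let L : (V1 × W) ≃L[ℝ] V × F := ContinuousLinearEquiv.ofFinrankEq hZ.symm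
  let μ : Measure (V1 × W) := (pB b1 b.toBasis).addHaar
  -- the null set
  have h3 : μ (L ⁻¹' (frontier B ×ˢ univ)) = 0 := by
    have h2 : (μ.map L).IsAddHaarMeasure := L.isAddHaarMeasure_map μ
    have h3 : (μ.map L) (frontier B ×ˢ univ) = 0 := by
      have h4 : (bV.addHaar.prod bF.addHaar) (frontier B ×ˢ (univ : Set F)) = 0 := by
        rw [Measure.prod_prod, hB0, zero_mul]
      exact (Measure.absolutelyContinuous_isAddHaarMeasure (μ.map L)
        (bV.addHaar.prod bF.addHaar)) h4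
    have h5 : MeasurableEmbedding (L : V1 × W → V × F) := L.toHomeomorph.measurableEmbedding
    rwa [h5.map_apply] at h3
  let s : Set (V1 × W) := L ⁻¹' {q | q.1 ∈ frontier B ∧ q ∈ U ∧ f q ∈ B1}
  have hsub : s ⊆ L ⁻¹' (frontier B ×ˢ univ) := fun w hw => ⟨hw.1, mem_univ _⟩
  have h2 : μ s = 0 := measure_mono_null hsub h3
  have h4 : μ ((fun w => psi f P (L w)) '' s) = 0 := by
    refine addHaar_image_eq_zero_of_differentiableOn_of_addHaar_eq_zero μ (fun w hw => ?_) h2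
    exact (((h.at_psi hw.2.1 hw.2.2).comp w L.contDiff.contDiffAt).differentiableAt
      (by simp)).differentiableWithinAt
  have hnt : Nontrivial W := nontrivial_of_finrank_pos (R := ℝ) (by
    rw [finrank_eq_card_basis b.toBasis, Fintype.card_fin]
    omega)
  obtain ⟨y₀, hy₀, hyB, hy0⟩ : ∃ y₀ : V1 × W, y₀ ∉ ((fun w => psi f P (L w)) '' s) ∧
      y₀.1 ∈ B1 ∧ y₀.2 ≠ 0 := by
    by_contra h5
    push Not at h5
    have h6 : B1 ×ˢ ({0}ᶜ : Set W) ⊆ (fun w => psi f P (L w)) '' s := by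
      intro y hy
      by_contra h7
      exact hy.2 (h5 y h7 hy.1)
    have h7 : μ (B1 ×ˢ ({0}ᶜ : Set W)) = 0 := measure_mono_null h6 h4
    have h8 : IsOpen (B1 ×ˢ ({0}ᶜ : Set W)) := h.opn1.prod isOpen_compl_singleton
    obtain ⟨x, hx⟩ := h1
    obtain ⟨y, hy⟩ := exists_ne (0 : W)
    exact (h8.measure_pos μ ⟨(x, y), hx, hy⟩).ne' h7
  have hy2 : 0 < ‖y₀.2‖ := norm_pos_iff.2 hy0
  have ha : ‖rad y₀.2‖ = 1 := norm_rad hy0
  obtain ⟨ρ₀, hρ₀, hρB⟩ : ∃ ρ₀ > 0, closedBall y₀.1 ρ₀ ⊆ B1 :=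
    nhds_basis_closedBall.mem_iff.1 (h.opn1.mem_nhds hyB)
  -- the compact set of boundary values
  let Sd : Set (V × F) := {q | q ∈ frontier B ×ˢ sphere (0 : F) 1 ∧ q ∈ U ∧
    f q ∈ closedBall y₀.1 ρ₀}
  have hS : IsCompact Sd := h.cpt _ hρB (isCompact_closedBall _ _) _
    ((hBc.of_isClosed_subset isClosed_frontier frontier_subset_closure).prod
      (isCompact_sphere 0 1)) fun q hq => ⟨frontier_subset_closure hq.1, by
      rw [← norm_ne_zero_iff, mem_sphere_zero_iff_norm.1 hq.2]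
      exact one_ne_zero⟩
  let Kd : Set (V1 × W) := (fun z : V × F => (f z, rad (P z))) '' Sd
  have hKc : IsCompact Kd := by
    refine hS.image_of_continuousOn fun z hz => ?_
    exact ((h.at_f hz.2.1).continuousAt.prodMk
      (h.at_rad hz.2.1 (hρB hz.2.2)).continuousAt).continuousWithinAt
  have hKa : (y₀.1, rad y₀.2) ∉ Kd := by
    rintro ⟨z, hz, hza⟩
    have hz1 : ‖z.2‖ = 1 := mem_sphere_zero_iff_norm.1 hz.1.2
    apply hy₀
    have e1 : f z = y₀.1 := congrArg Prod.fst hza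
    have e2 : rad (P z) = rad y₀.2 := congrArg Prod.snd hza
    have e3 := h.cone z hz.2.1 _ hy2
    have e4 := h.homf z hz.2.1 _ hy2
    have e5 := h.homP z hz.2.1 _ hy2
    refine ⟨L.symm (z.1, ‖y₀.2‖ • z.2), ⟨?_, ?_, ?_⟩, ?_⟩
    · rw [L.apply_symm_apply]
      exact hz.1.1
    · rw [L.apply_symm_apply]
      exact e3
    · rw [L.apply_symm_apply, e4, e1]
      exact hyB
    · simp only
      rw [L.apply_symm_apply, psi, e4, e1, nP, e5, e2]
      simp only
      rw [norm_smul, norm_norm, hz1, mul_one, rad, smul_smul, mul_inv_cancel₀ hy2.ne', one_smul]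
  obtain ⟨δ, hδ, hδK⟩ := nhds_basis_ball.mem_iff.1 (hKc.isClosed.isOpen_compl.mem_nhds hKa)
  refine ⟨y₀.1, min ρ₀ δ, rad y₀.2, max 0 (1 - δ ^ 2 / 2), lt_min hρ₀ hδ,
    (closedBall_subset_closedBall (min_le_left _ _)).trans hρB, ha, le_max_left _ _,
    max_lt one_pos (by nlinarith [pow_pos hδ 2]), fun q hq hqB hqf => ?_⟩
  have hqf' : f q ∈ closedBall y₀.1 ρ₀ :=
    (ball_subset_closedBall.trans (closedBall_subset_closedBall (min_le_left _ _))) hqf
  have hq1 : f q ∈ B1 := hρB hqf'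
  have hz' : 0 < ‖q.2‖ := norm_pos_iff.2 (h.ne0 q hq)
  have hc := inv_pos.2 hz'
  have h6 : (f q, rad (P q)) ∈ Kd := by
    refine ⟨(q.1, ‖q.2‖⁻¹ • q.2), ⟨⟨hqB, ?_⟩, h.cone q hq _ hc, ?_⟩, ?_⟩
    · rw [mem_sphere_zero_iff_norm, norm_smul, norm_inv, norm_norm, inv_mul_cancel₀ hz'.ne']
    · rw [h.homf q hq _ hc]
      exact hqf'
    · simp only
      rw [h.homf q hq _ hc, h.homP q hq _ hc]
  have h7 : ‖rad (P q)‖ = 1 := norm_rad (h.ne q hq hq1)
  have h8 : δ ≤ ‖rad (P q) - rad y₀.2‖ := by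
    by_contra h9
    push Not at h9
    have h10 : (f q, rad (P q)) ∈ ball (y₀.1, rad y₀.2) δ := by
      rw [mem_ball, Prod.dist_eq, max_lt_iff, dist_eq_norm (rad (P q))]
      exact ⟨(mem_ball.1 hqf).trans_le (min_le_right _ _), h9⟩
    exact hδK h10 h6
  have h9 : inner ℝ (rad y₀.2) (rad (P q)) ≤ 1 - δ ^ 2 / 2 := by
    have h10 := norm_sub_sq_real (rad (P q)) (rad y₀.2)
    rw [h7, ha, real_inner_comm] at h10
    nlinarith [pow_le_pow_left₀ hδ.le h8 2]
  rw [h.norm_nP hq hq1, nP, inner_smul_right, mul_comm]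
  exact mul_le_mul_of_nonneg_right (h9.trans (le_max_right _ _)) hz'.le

/-! ### the forms -/

/-- a bump form on the first factor -/
theorem exists_bump1 {m1 : ℕ} (b1 : Basis (Fin m1) ℝ V1) (q1 : V1) {ρ : ℝ} (hρ : 0 < ρ) :
    ∃ om1 : V1 → Lam V1, ContDiff ℝ ∞ om1 ∧ (∀ y ∉ closedBall q1 (ρ / 2), om1 y = 0) ∧
      (∀ y, Q.IsDeg m1 (om1 y)) ∧ TW.JJ b1 om1 = 1 := by
  obtain ⟨τ, hτ1, hτ⟩ := exists_top b1
  let φ : ContDiffBump q1 := ⟨ρ / 4, ρ / 2, by positivity, by linarith⟩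
  refine ⟨fun y => φ.normed b1.addHaar y • τ, φ.contDiff_normed.smul contDiff_const,
    fun y hy => ?_, fun y => hτ.smul _, ?_⟩
  · have h1 : φ.normed b1.addHaar y = 0 := by
      by_contra h2
      have h3 : y ∈ tsupport (φ.normed b1.addHaar) := subset_tsupport _ h2
      rw [φ.tsupport_normed_eq] at h3
      exact hy h3
    simp only
    rw [h1, zero_smul]
  · unfold TW.JJ
    have h1 : ∀ y, evalForm (φ.normed b1.addHaar y • τ) b1 = φ.normed b1.addHaar y := fun y => by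
      rw [Q.evalForm_smul, hτ1, mul_one]
    simp only [h1]
    exact φ.integral_normed

theorem JJ_pform {m1 l : ℕ} (b1 : Basis (Fin m1) ℝ V1) (b : Basis (Fin l) ℝ W)
    (om1 : V1 → Lam V1) (r' : W → ℝ) (om : W → Lam W) :
    TW.JJ (pB b1 b) (pform om1 r' om) =
      TW.JJ b1 om1 * TW.JJ b (fun y => dR r' y * om y) := by
  unfold TW.JJ
  rw [TW.addHaar_pB]
  simp only [eval_pform]
  exact integral_prod_mul (fun y => evalForm (om1 y) b1) (fun y => evalForm (dR r' y * om y) b)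

theorem PMap.exists_int (h : PMap B U B1 f P) (h1 : B1.Nonempty) (hB : IsOpen B)
    (hBc : IsCompact (closure B)) {k l m1 n : ℕ} (bV : Basis (Fin k) ℝ V)
    (bF : Basis (Fin l) ℝ F) (b1 : Basis (Fin m1) ℝ V1)
    (b : OrthonormalBasis (Fin (2 * n + 2)) ℝ W) (hd : l + k = m1 + (2 * n + 2))
    (hB0 : bV.addHaar (frontier B) = 0) {r : F → ℝ} {K : Set F} (hr : Cut r K) {r' : W → ℝ}
    {K' : Set W} (hr' : Cut r' K') (hrr : ∀ z y, ‖z‖ = ‖y‖ → r z = r' y) :
    ∃ (K1 : Set V1) (om1 : V1 → Lam V1) (om : W → Lam W), K1 ⊆ B1 ∧ IsCompact K1 ∧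
      ContDiff ℝ ∞ om1 ∧ (∀ y ∉ K1, om1 y = 0) ∧ (∀ y, Q.IsDeg m1 (om1 y)) ∧
      TW.JJ b1 om1 = 1 ∧
      ContDiffOn ℝ ∞ om {0}ᶜ ∧ (∀ y, Q.IsDeg (2 * n + 1) (om y)) ∧
      (∀ y ≠ 0, extd om y = 0) ∧ Hom om ∧ ∫ y, evalForm (dR rst y * om y) b = 1 ∧
      ∃ m : ℤ, ∫ q in {q | q.1 ∈ B ∧ q ∈ U ∧ f q ∈ B1},
        evalForm (Q.cw r (fun q => pb f om1 q * pb P om q) q) (pB bV bF)
          ∂(pB bV bF).addHaar = m := by
  obtain ⟨q1, ρ, a, c, hρ, hρB, ha, hc0, hc1, hdir⟩ := h.exists_dir h1 hBc bV bF b1 b hd hB0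
  obtain ⟨om, ho1, ho2, ho3, ho4, ho5, ho6⟩ := exists_bump b ha (c := (c + 1) / 2) (by linarith)
  obtain ⟨om1, hp1, hp2, hp3, hp4⟩ := exists_bump1 b1 q1 hρ
  refine ⟨closedBall q1 (ρ / 2), om1, om,
    (closedBall_subset_closedBall (by linarith)).trans hρB, isCompact_closedBall _ _, hp1, hp2,
    hp3, hp4, ho1, ho2, ho3, ho4, ho6, ?_⟩
  -- the form on the product
  set w : V1 × W → Lam (V1 × W) := pform om1 r' om with hw
  have hwc : ContDiff ℝ ∞ w := by
    have e1 : ContDiff ℝ ∞ fun y => dR r' y * om y := TW.contDiff_cutmul hr' ho1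
    have e2 : ContDiff ℝ ∞ fun y : V1 × W => (Q.ps (dR r' y.2 * om y.2) : Lam (V1 × W)) :=
      (pullL (ContinuousLinearMap.snd ℝ V1 W)).contDiff.comp (e1.comp contDiff_snd)
    have e3 : ContDiff ℝ ∞ fun y : V1 × W => (Q.pf (om1 y.1) : Lam (V1 × W)) :=
      (pullL (ContinuousLinearMap.fst ℝ V1 W)).contDiff.comp (hp1.comp contDiff_fst)
    exact e2.mul e3
  have hws : HasCompactSupport w := by
    refine HasCompactSupport.intro ((isCompact_closedBall q1 (ρ / 2)).prod hr'.compact)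
      fun y hy => ?_
    rw [hw, pform]
    by_cases h2 : y.1 ∈ closedBall q1 (ρ / 2)
    · have h3 : y.2 ∉ K' := fun h3 => hy ⟨h2, h3⟩
      rw [hr'.dR_out h3, zero_mul, Q.ps, map_zero, zero_mul]
    · rw [hp2 _ h2, Q.pf, map_zero, mul_zero]
  set T : Set (V1 × W) := ball q1 ρ ×ˢ {y : W | c * ‖y‖ < inner ℝ a y} with hT
  obtain ⟨δ, hδ, hδr⟩ : ∃ δ > 0, ∀ y ∈ ball (0 : W) δ, dR r' y = 0 :=
    Metric.eventually_nhds_iff_ball.1 hr'.dR_near
  have hwV : tsupport w ⊆ T := by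
    have h2 : tsupport w ⊆ {y : V1 × W | dist y.1 q1 ≤ ρ / 2 ∧ δ ≤ ‖y.2‖ ∧
        (c + 1) / 2 * ‖y.2‖ ≤ inner ℝ a y.2} := by
      refine closure_minimal (fun y hy => ?_) ?_
      · have h5 : dist y.1 q1 ≤ ρ / 2 := by
          by_contra h6
          refine hy ?_
          rw [hw, pform, hp2 _ h6, Q.pf, map_zero, mul_zero]
        have h2 : δ ≤ ‖y.2‖ := by
          by_contra h3
          refine hy ?_
          rw [hw, pform, hδr _ (mem_ball_zero_iff.2 (not_le.1 h3)), zero_mul, Q.ps, map_zero,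
            zero_mul]
        have h3 : y.2 ≠ 0 := norm_pos_iff.1 (hδ.trans_le h2)
        refine ⟨h5, h2, ?_⟩
        by_contra h4
        refine hy ?_
        rw [hw, pform, ho5 y.2 h3 (not_le.1 h4).le, mul_zero, Q.ps, map_zero, zero_mul]
      · have c1 : IsClosed {y : V1 × W | dist y.1 q1 ≤ ρ / 2} :=
          isClosed_le (by fun_prop) (by fun_prop)
        have c2 : IsClosed {y : V1 × W | δ ≤ ‖y.2‖} := isClosed_le (by fun_prop) (by fun_prop)
        have c3 : IsClosed {y : V1 × W | (c + 1) / 2 * ‖y.2‖ ≤ inner ℝ a y.2} :=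
          isClosed_le (by fun_prop) (by fun_prop)
        exact c1.inter (c2.inter c3)
    refine h2.trans fun y hy => ?_
    obtain ⟨h5, h2, h3⟩ := hy
    refine ⟨mem_ball.2 (by linarith), ?_⟩
    simp only [mem_ofPred_eq]
    nlinarith
  -- transport
  let bY : Basis (Fin (l + k)) ℝ (V1 × W) :=
    (pB b1 b.toBasis).reindex (finCongr (by omega : 2 * n + 2 + m1 = l + k))
  have hbY : ∀ i, bY i = pB b1 b.toBasis (Fin.cast (by omega : l + k = 2 * n + 2 + m1) i) :=
    fun i => by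
      rw [Basis.reindex_apply]
      rfl
  have hbY' : bY.addHaar = (pB b1 b.toBasis).addHaar := Basis.addHaar_reindex _ _
  let bZ := pB bV bF
  let L : (V1 × W) ≃L[ℝ] V × F := (bY.equiv bZ (Equiv.refl _)).toContinuousLinearEquiv
  have hL : bY.map L.toLinearEquiv = bZ := by
    refine Basis.eq_of_apply_eq fun i => ?_
    rw [Basis.map_apply]
    change (bY.equiv bZ (Equiv.refl _)) (bY i) = bZ i
    rw [Basis.equiv_apply]
    rfl
  have hLm : MeasurableEmbedding (L : V1 × W → V × F) := L.toHomeomorph.measurableEmbedding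
  have hmap : (bY.addHaar).map L = bZ.addHaar := by
    rw [← hL]
    exact Basis.map_addHaar bY L
  set D : Set (V1 × W) := L ⁻¹' dom B U B1 f with hD
  have hDo : IsOpen D := (h.isOpen_dom hB).preimage L.continuous
  have hfat : ∀ x ∈ D, ContDiffAt ℝ ∞ (fun x => psi f P (L x)) x := fun x hx =>
    (h.at_psi hx.2.1 hx.2.2).comp x L.contDiff.contDiffAt
  obtain ⟨m, hm⟩ := exists_int_degree_form bY.addHaar bY (U := D)
    (V := T) hDo (isOpen_ball.prod (isOpen_cone a c))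
    ((convex_ball q1 ρ).prod (convex_cone a hc0))
    (f := fun x => psi f P (L x)) (fun x hx => (hfat x hx).contDiffWithinAt) (fun Kt hKV hK => by
      -- properness
      have h0K : (0 : W) ∉ Prod.snd '' Kt := by
        rintro ⟨y, hy, hy0⟩
        have := (hKV hy).2
        rw [hy0] at this
        simp only [mem_ofPred_eq, norm_zero, mul_zero, inner_zero_right, lt_irrefl] at this
      have hK2 : IsCompact (Prod.snd '' Kt) := hK.image continuous_snd
      have hK1 : IsCompact (Prod.fst '' Kt) := hK.image continuous_fst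
      have hK1B : Prod.fst '' Kt ⊆ B1 := by
        rintro _ ⟨y, hy, rfl⟩
        exact hρB (ball_subset_closedBall (hKV hy).1)
      obtain ⟨r1, hr1, hr1K⟩ : ∃ r1 : ℝ, 0 < r1 ∧ ∀ y ∈ Kt, r1 ≤ ‖y.2‖ := by
        obtain ⟨δ, hδ, hδK⟩ := nhds_basis_ball.mem_iff.1
          (hK2.isClosed.isOpen_compl.mem_nhds h0K)
        refine ⟨δ, hδ, fun y hy => ?_⟩
        by_contra h5
        exact hδK (mem_ball_zero_iff.2 (not_le.1 h5)) ⟨y, hy, rfl⟩
      obtain ⟨r2, hr2⟩ := hK2.isBounded.subset_closedBall 0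
      have hcc : IsCompact {q : V × F | q ∈ closure B ×ˢ (closedBall (0 : F) r2 \ ball 0 r1) ∧
          q ∈ U ∧ f q ∈ Prod.fst '' Kt} :=
        h.cpt _ hK1B hK1 _ (hBc.prod ((isCompact_closedBall 0 r2).diff isOpen_ball))
          fun q hq => ⟨hq.1, by
            have := hq.2.2
            rw [mem_ball_zero_iff, not_lt] at this
            rw [← norm_pos_iff]
            linarith⟩
      have hset : {x | x ∈ D ∧ psi f P (L x) ∈ Kt} = L.symm ''
          ({q : V × F | q ∈ closure B ×ˢ (closedBall (0 : F) r2 \ ball 0 r1) ∧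
          q ∈ U ∧ f q ∈ Prod.fst '' Kt} ∩ (psi f P ⁻¹' Kt)) := by
        rw [ContinuousLinearEquiv.image_symm_eq_preimage]
        ext x
        constructor
        · rintro ⟨hx, hxK⟩
          have hn1 : ‖(psi f P (L x)).2‖ = ‖(L x).2‖ := h.norm_nP hx.2.1 hx.2.2
          refine ⟨⟨⟨subset_closure hx.1, ?_, ?_⟩, hx.2.1, ⟨_, hxK, rfl⟩⟩, hxK⟩
          · rw [mem_closedBall_zero_iff, ← hn1]
            exact mem_closedBall_zero_iff.1 (hr2 ⟨_, hxK, rfl⟩)
          · rw [mem_ball_zero_iff, not_lt, ← hn1]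
            exact hr1K _ hxK
        · rintro ⟨⟨⟨hx1, hx2, hx3⟩, hxU, hxf⟩, hxK⟩
          refine ⟨⟨?_, hxU, hK1B hxf⟩, hxK⟩
          by_contra h6
          have h7 : (L x).1 ∈ frontier B := ⟨hx1, by rwa [hB.interior_eq]⟩
          have h8 := hdir _ hxU h7 (hKV hxK).1
          have h9 := (hKV hxK).2
          simp only [mem_ofPred_eq] at h9
          exact absurd h9 (not_lt.2 h8)
      rw [hset]
      refine IsCompact.image ?_ L.symm.continuous
      have hco : ContinuousOn (psi f P)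
          {q : V × F | q ∈ closure B ×ˢ (closedBall (0 : F) r2 \ ball 0 r1) ∧
          q ∈ U ∧ f q ∈ Prod.fst '' Kt} := fun z hz =>
        (h.at_psi hz.2.1 (hK1B hz.2.2)).continuousAt.continuousWithinAt
      exact hco.preimage_isClosed_of_isClosed hcc.isClosed hK.isClosed |> fun h10 =>
        hcc.of_isClosed_subset h10 inter_subset_left)
  refine ⟨(-1) ^ m1 * m, ?_⟩
  have h2 := hm w hwc hws hwV
  have h3 : ∫ y, evalForm (w y) bY ∂bY.addHaar = 1 := by
    have e1 : ∫ y, evalForm (w y) bY ∂bY.addHaar = TW.JJ (pB b1 b.toBasis) w := by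
      rw [hbY', TW.JJ]
      refine integral_congr_ae (Eventually.of_forall fun y => ?_)
      have h3 : (bY : Fin (l + k) → V1 × W) = fun i =>
        pB b1 b.toBasis (Fin.cast (by omega : l + k = 2 * n + 2 + m1) i) := funext hbY
      simp only [h3]
      exact evalForm_cast _ (pB b1 b.toBasis) (w y)
    rw [e1, hw, JJ_pform, hp4, one_mul, TW.JJ, b.addHaar_eq_volume, b.coe_toBasis,
      ← cut_indep volume b ho1 (fun y hy => by rw [ho3 y hy]; exact Q.evalForm_zero _) cut_rst hr']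
    exact ho6
  rw [h3, mul_one] at h2
  have h4 : ∀ q ∈ dom B U B1 f,
      evalForm (Q.cw r (fun q => pb f om1 q * pb P om q) q) (pB bV bF) =
        (-1 : ℝ) ^ m1 * evalForm (pb (psi f P) w q) (pB bV bF) := by
    intro q hq
    rw [h.cw_eq hp3 ho2, Q.evalForm_smul, hw, h.pb_psi om1 ho4 hr hr' hrr hq.2.1 hq.2.2]
  change ∫ q in dom B U B1 f, _ ∂(pB bV bF).addHaar = _
  rw [setIntegral_congr_fun (h.isOpen_dom hB).measurableSet h4, integral_const_mul]
  push_cast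
  congr 1
  rw [← h2]
  change ∫ q in dom B U B1 f, _ ∂bZ.addHaar = _
  rw [← hmap, hLm.setIntegral_map]
  refine setIntegral_congr_fun hDo.measurableSet fun x hx => ?_
  change evalForm (pb (psi f P) w (L x)) bZ = evalForm (pb (fun x => psi f P (L x)) w x) bY
  rw [← hL]
  rw [pb_comp w ((h.at_psi hx.2.1 hx.2.2).differentiableAt (by simp)) L.differentiableAt]
  change _ = evalForm (Fm.pull (fderiv ℝ L x) (pb (psi f P) w (L x))) bY
  rw [L.fderiv, evalForm_pull]
  rfl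

end Vale.Agent.P231.S3E
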