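import Vale.Agent.P231.S3E.Gen
import Vale.Agent.P231.S3E479.Std

/-!
# P231, stage 3, item (f), part (PSI): the generic matrix for a homogeneous family

`PData`: a continuous family `G : Z × F → M` and a smooth nonvanishing family `H : Z × F → ℂ^K`,
both homogeneous of degree zero in the second variable and with a compact set of representatives.
For a generic matrix `A` and a generic point `q0` the product `A H` is bounded below on the part
of the family near `ef q0`.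
-/

set_option linter.unusedSectionVars false
set_option linter.unusedVariables false

open Set Metric Module Filter
open scoped ContDiff Topology

namespace Vale.Agent.P231.S3E

variable {Z F V1 : Type} [NormedAddCommGroup Z] [NormedSpace ℝ Z] [FiniteDimensional ℝ Z]
  [NormedAddCommGroup F] [InnerProductSpace ℝ F] [FiniteDimensional ℝ F]
  [NormedAddCommGroup V1] [NormedSpace ℝ V1] [FiniteDimensional ℝ V1]
  {M : Type*} [MetricSpace M] {K n : ℕ}

/-- the data of the family -/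
structure PData (p : M) (D : ℝ) (lg : M → V1) (ef : V1 → M) (G : Z × F → M)
    (H : Z × F → Fin K → ℂ) (S : Set Z) : Prop where
  hD : 0 < D
  efc : ContinuousOn ef (ball 0 D)
  lgef : ∀ x ∈ ball (0 : V1) D, lg (ef x) = x ∧ dist p (ef x) < D
  eflg : ∀ x, dist p x < D → ef (lg x) = x ∧ ‖lg x‖ < D
  Gc : ContinuousOn G {q | q.2 ≠ 0}
  Gs : ContDiffOn ℝ ∞ (fun q => lg (G q)) {q | q.2 ≠ 0 ∧ dist p (G q) < D}
  Gh : ∀ (z : Z) (y : F), y ≠ 0 → ∀ c : ℝ, 0 < c → G (z, c • y) = G (z, y)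
  Hs : ContDiffOn ℝ ∞ H {q | q.2 ≠ 0}
  H0 : ∀ q, q.2 ≠ 0 → H q ≠ 0
  Hh : ∀ (z : Z) (y : F), y ≠ 0 → ∀ c : ℝ, 0 < c → H (z, c • y) = H (z, y)
  cpt : IsCompact S
  sur : ∀ q : Z × F, q.2 ≠ 0 → ∃ z ∈ S, ∃ y : F, y ≠ 0 ∧ G (z, y) = G q ∧ H (z, y) = H q

variable {p : M} {D : ℝ} {lg : M → V1} {ef : V1 → M} {G : Z × F → M} {H : Z × F → Fin K → ℂ}
  {S : Set Z}

/-- the product with the matrix, in real coordinates -/
noncomputable def AH (H : Z × F → Fin K → ℂ) (A : Fin n → Fin K → ℂ) (q : Z × F) : WW n :=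
  (LW n).symm (fun i => ∑ j, A i j * H q j)

theorem isOpen_ne (Z F : Type) [NormedAddCommGroup Z] [NormedAddCommGroup F] :
    IsOpen {q : Z × F | q.2 ≠ 0} :=
  isOpen_compl_singleton.preimage continuous_snd

namespace PData

variable (h : PData p D lg ef G H S)

include h

theorem isOpen_U : IsOpen {q : Z × F | q.2 ≠ 0 ∧ dist p (G q) < D} := by
  have h1 := (h.Gc.isOpen_inter_preimage (isOpen_ne Z F)
    (isOpen_lt (continuous_const.dist continuous_id) continuous_const : IsOpen {x | dist p x < D}))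
  exact h1

/-- the derivative in the radial direction vanishes -/
theorem ker {T : Type*} [NormedAddCommGroup T] [NormedSpace ℝ T] {f : Z × F → T} {q : Z × F}
    (hf : DifferentiableAt ℝ f q) (hh : ∀ c : ℝ, 0 < c → f (q.1, c • q.2) = f q) :
    fderiv ℝ f q (0, q.2) = 0 := by
  have h1 : HasDerivAt (fun c : ℝ => ((q.1, c • q.2) : Z × F)) ((0 : Z), (1 : ℝ) • q.2) 1 :=
    (hasDerivAt_const (1 : ℝ) q.1).prodMk ((hasDerivAt_id (1 : ℝ)).smul_const q.2)
  have h2 : HasFDerivAt f (fderiv ℝ f q) ((q.1, (1 : ℝ) • q.2) : Z × F) := by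
    rw [one_smul]
    exact hf.hasFDerivAt
  have h3 := h2.comp_hasDerivAt (1 : ℝ) h1
  have h4 : (f ∘ fun c : ℝ => ((q.1, c • q.2) : Z × F)) =ᶠ[𝓝 1] fun _ => f q := by
    filter_upwards [lt_mem_nhds one_pos] with c hc using hh c hc
  have h5 := (h3.congr_of_eventuallyEq h4.symm).unique (hasDerivAt_const (1 : ℝ) (f q))
  rwa [one_smul] at h5

theorem contDiffOn_AH (A : Fin n → Fin K → ℂ) : ContDiffOn ℝ ∞ (AH H A) {q | q.2 ≠ 0} := by
  have h1 : ContDiffOn ℝ ∞ (fun q => fun i => ∑ j, A i j * H q j) {q : Z × F | q.2 ≠ 0} := by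
    refine contDiffOn_pi.2 fun i => ?_
    refine ContDiffOn.sum fun j _ => ?_
    exact contDiffOn_const.mul ((contDiffOn_pi.1 h.Hs) j)
  exact (LW n).symm.contDiff.comp_contDiffOn h1

theorem AH_hom (A : Fin n → Fin K → ℂ) (z : Z) {y : F} (hy : y ≠ 0) {c : ℝ} (hc : 0 < c) :
    AH H A (z, c • y) = AH H A (z, y) := by
  rw [AH, AH, h.Hh z y hy c hc]

/-- **(1)** the generic matrix and the lower bound -/
theorem exists_big (hdim : finrank ℝ (Z × F) = finrank ℝ V1 + 2 * n) :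
    ∃ (q0 : V1) (δ c0 : ℝ) (A : Fin n → Fin K → ℂ), 0 < δ ∧ 0 < c0 ∧
      closedBall q0 δ ⊆ ball 0 D ∧ ∀ q : Z × F, q.2 ≠ 0 → G q ∈ ef '' closedBall q0 δ →
        c0 < ‖(LW n).symm (fun i => ∑ j, A i j * H q j)‖ := by
  have hsub : {q : Z × F | q.2 ≠ 0 ∧ dist p (G q) < D} ⊆ {q | q.2 ≠ 0} := fun q hq => hq.1
  obtain ⟨q0, A, hqA, hA⟩ := exists_generic hdim h.isOpen_U h.Gs (h.Hs.mono hsub)
    (fun z hz => h.H0 z hz.1) (fun z hz => ⟨(0, z.2), fun h0 => hz.1 (congrArg Prod.snd h0),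
      ker (h := h) ((h.Gs.contDiffAt (h.isOpen_U.mem_nhds hz)).differentiableAt (by simp))
        (fun c hc => congrArg lg (h.Gh z.1 z.2 hz.1 c hc)),
      ker (h := h) ((h.Hs.contDiffAt ((isOpen_ne Z F).mem_nhds hz.1)).differentiableAt (by simp))
        (fun c hc => h.Hh z.1 z.2 hz.1 c hc)⟩)
    (O := ball (0 : V1) D ×ˢ univ) (isOpen_ball.prod isOpen_univ)
    ⟨(0, 0), mem_ball_self h.hD, mem_univ _⟩
  have hq0 : q0 ∈ ball (0 : V1) D := hqA.1
  -- the compact set of representatives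
  set C : Set (Z × F) := S ×ˢ sphere (0 : F) 1 with hC
  have hCc : IsCompact C := h.cpt.prod (isCompact_sphere 0 1)
  have hCne : C ⊆ {q : Z × F | q.2 ≠ 0} := fun q hq h0 => by
    have h1 : ‖q.2‖ = 1 := mem_sphere_zero_iff_norm.1 hq.2
    rw [h0, norm_zero] at h1
    exact zero_ne_one h1
  have hGC : ContinuousOn G C := h.Gc.mono hCne
  have hAC : ContinuousOn (AH H A) C := (h.contDiffOn_AH A).continuousOn.mono hCne
  set N : Set (Z × F) := C ∩ (AH H A) ⁻¹' {0} with hN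
  have hNc : IsCompact N := hCc.of_isClosed_subset
    (hAC.preimage_isClosed_of_isClosed hCc.isClosed isClosed_singleton) inter_subset_left
  have hGN : IsCompact (G '' N) := hNc.image_of_continuousOn (hGC.mono inter_subset_left)
  have hef : ef q0 ∉ G '' N := by
    rintro ⟨q, ⟨hq, hq0'⟩, he⟩
    have h1 := h.lgef q0 hq0
    have h2 : q ∈ {q : Z × F | q.2 ≠ 0 ∧ dist p (G q) < D} := ⟨hCne hq, by rw [he]; exact h1.2⟩
    have h3 := hA q h2 (by rw [he, h1.1])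
    apply h3
    have h4 : (LW n).symm (fun i => ∑ j, A i j * H q j) = 0 := hq0'
    have h5 := congrArg (LW n) h4
    rwa [ContinuousLinearEquiv.apply_symm_apply, map_zero] at h5
  -- a small ball
  obtain ⟨δ, hδ, hδ1, hδ2⟩ : ∃ δ : ℝ, 0 < δ ∧ closedBall q0 δ ⊆ ball 0 D ∧
      ∀ x ∈ closedBall q0 δ, ef x ∉ G '' N := by
    have h1 : ∀ᶠ x in 𝓝 q0, x ∈ ball (0 : V1) D ∧ ef x ∈ (G '' N)ᶜ := by
      have h2 : ContinuousAt ef q0 := h.efc.continuousAt (isOpen_ball.mem_nhds hq0)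
      filter_upwards [isOpen_ball.mem_nhds hq0,
        h2.eventually (hGN.isClosed.isOpen_compl.mem_nhds hef)] with x hx1 hx2
      exact ⟨hx1, hx2⟩
    obtain ⟨δ, hδ, hδ2⟩ := Metric.nhds_basis_closedBall.mem_iff.1 h1
    exact ⟨δ, hδ, fun x hx => (hδ2 hx).1, fun x hx => (hδ2 hx).2⟩
  have hefc : IsCompact (ef '' closedBall q0 δ) :=
    (isCompact_closedBall q0 δ).image_of_continuousOn (h.efc.mono hδ1)
  set T : Set (Z × F) := C ∩ G ⁻¹' (ef '' closedBall q0 δ) with hT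
  have hTc : IsCompact T := hCc.of_isClosed_subset
    (hGC.preimage_isClosed_of_isClosed hCc.isClosed hefc.isClosed) inter_subset_left
  have hTpos : ∀ q ∈ T, 0 < ‖AH H A q‖ := by
    intro q hq
    refine norm_pos_iff.2 fun h0 => ?_
    obtain ⟨x, hx, hxq⟩ := hq.2
    exact hδ2 x hx ⟨q, ⟨hq.1, h0⟩, hxq.symm⟩
  -- the minimum
  obtain ⟨c1, hc1, hmin⟩ : ∃ c1 : ℝ, 0 < c1 ∧ ∀ q ∈ T, c1 ≤ ‖AH H A q‖ := by
    rcases T.eq_empty_or_nonempty with h0 | h0
    · exact ⟨1, one_pos, fun q hq => by rw [h0] at hq; exact absurd hq (notMem_empty _)⟩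
    · obtain ⟨q, hq, hq2⟩ := hTc.exists_isMinOn h0 (hAC.norm.mono inter_subset_left)
      exact ⟨‖AH H A q‖, hTpos q hq, fun q' hq' => hq2 hq'⟩
  refine ⟨q0, δ, c1 / 2, A, hδ, half_pos hc1, hδ1, fun q hq hGq => ?_⟩
  obtain ⟨z, hz, y, hy, e1, e2⟩ := h.sur q hq
  have hyn : 0 < ‖y‖ := norm_pos_iff.2 hy
  have hy1 : ‖‖y‖⁻¹ • y‖ = 1 := by
    rw [norm_smul, norm_inv, norm_norm, inv_mul_cancel₀ hyn.ne']
  have h1 : ((z, ‖y‖⁻¹ • y) : Z × F) ∈ T := by
    refine ⟨⟨hz, mem_sphere_zero_iff_norm.2 hy1⟩, ?_⟩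
    rw [mem_preimage, h.Gh z y hy _ (inv_pos.2 hyn), e1]
    exact hGq
  have h2 := hmin _ h1
  rw [h.AH_hom A z hy (inv_pos.2 hyn)] at h2
  have h3 : AH H A (z, y) = (LW n).symm (fun i => ∑ j, A i j * H q j) := by
    rw [AH, e2]
  rw [h3] at h2
  linarith

end PData

end Vale.Agent.P231.S3E
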