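import Vale.Agent.P231.S3E.Fub
import Vale.Agent.P231.S3E.Conn
import Vale.Agent.P231.S3E.Psi
import Vale.Agent.P231.S3E.PMap
import Vale.Agent.P231.S3E479.Equi

/-!
# P231, stage 3, S3-INT (f): the core of the integrality statement
-/

set_option maxSynthPendingDepth 3
set_option linter.unusedSectionVars false
set_option linter.unusedVariables false

open Bundle Manifold Set Filter Module Topology MeasureTheory
open scoped ContDiff Manifold Topology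

namespace Vale.Agent.P231.S3E

noncomputable section

open Vale.Agent.P234 Vale.Agent.P231 Vale.Agent.P231.Fm Vale.Agent.P231.W Vale.Agent.P231.H775
open Vale.Agent.P231.WR Vale.Agent.P231.S2II Vale.Agent.P231.H584
open Vale.Agent.P231.Q (dR Cut)
open Vale.Agent.P231.TW (pB)

variable {E : Type*} [NormedAddCommGroup E] [NormedSpace ℝ E]
  {M : Type*} [MetricSpace M] [ChartedSpace E M]
  [RiemannianBundle (fun x : M => TangentSpace 𝓘(ℝ, E) x)]
  {e : ∀ x : M, TangentSpace 𝓘(ℝ, E) x → M}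
  [FiniteDimensional ℝ E] [IsManifold 𝓘(ℝ, E) ∞ M]
  [IsContMDiffRiemannianBundle 𝓘(ℝ, E) ∞ E (fun x : M => TangentSpace 𝓘(ℝ, E) x)]
  [CompactSpace M] [ConnectedSpace M] [IsRiemannianManifold 𝓘(ℝ, E) M]
  {p : M} {e0 : Eu E}
  (F : Facts e) {D : ℝ} (hD : 0 < D) (hB : InjGE e D) (hdiam : ∀ p q : M, dist p q ≤ D)
  {l : ℕ} [NeZero l]

/-- the matrix times the equivariant map, on the pairs -/
def hA {K n : ℕ} (A : Fin n → Fin K → ℂ) (Hc : UT E M → (Fin K → ℂ)) (b : Pr e D) : WW n :=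
  (LW n).symm (fun i => ∑ j, A i j * Hc b.v j)

theorem contDiff_mat {K n : ℕ} (A : Fin n → Fin K → ℂ) :
    ContDiff ℝ ∞ (fun z : Fin K → ℂ => (LW n).symm (fun i => ∑ j, A i j * z j)) := by
  refine (LW n).symm.contDiff.comp (contDiff_pi.2 fun i => ContDiff.sum fun j _ => ?_)
  exact contDiff_const.mul (contDiff_apply ℝ ℂ j)

theorem map_hA {K n : ℕ} (A : Fin n → Fin K → ℂ) {Hc : UT E M → (Fin K → ℂ)}
    (hH : EqMap F D K Hc) : (dPr e D).Map (Dif.lin (WW n)) (hA A Hc) :=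
  fun {V} _ _ _ {u x} hu =>
    Sm.comp (f := fun z : Fin K → ℂ => (LW n).symm (fun i => ∑ j, A i j * z j))
      (Sm.of_contDiff (contDiff_mat A) _) (hH.smooth (map_v hu))

theorem hA_equi {K n : ℕ} (A : Fin n → Fin K → ℂ) {Hc : UT E M → (Fin K → ℂ)}
    (hH : EqMap F D K Hc) {Lm : Pr e D × ℝ → Pr e D}
    (hLv : ∀ b t, (Lm (b, t)).v = phi F (b.v, t)) (b : Pr e D) (t : ℝ) :
    hA A Hc (Lm (b, t)) = RW n (Real.pi / D) (hA A Hc b, t) := by
  apply (LW n).injective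
  rw [LW_RW, hA, hA, (LW n).apply_symm_apply, (LW n).apply_symm_apply, hLv, hH.equi]
  funext i
  simp only [Pi.smul_apply, smul_eq_mul, Finset.mul_sum]
  exact Finset.sum_congr rfl fun j _ => by ring

/-- **the core of item (f)** -/
theorem f_core {n : ℕ} {g1 : Pr e D → M} (hg1 : (dPr e D).Map (dM E M) g1)
    {Lm : Pr e D × ℝ → Pr e D} (hLm : IsFlow (dPr e D) (2 * D) Lm)
    (hLv : ∀ b t, (Lm (b, t)).v = phi F (b.v, t)) (hgL : ∀ b t, g1 (Lm (b, t)) = g1 b)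
    {α : Form (dPr e D)} (hα : Form.pull Lm hLm.map α = pr α + dt) (hαo : α.sg = -α)
    (I : Form (dPr e D) →ₗ[ℝ] ℝ) (hId : ∀ w : Form (dPr e D), I w.d = 0)
    (hIb : ∀ w : Form (dPr e D), Basic Lm hLm.map w → I w = 0)
    -- the box
    {T : Eu E × Yo e0 → S2II.Fr e D l} (hTf : ∀ z, (dFr e D l).At T z)
    (hsur : ∀ b : Pr e D, ∃ q : (Eu E × Yo e0) × Eul l, q.2 ≠ 0 ∧ Qh F hD hB hdiam T q = b)
    {k : ℕ} (bV : Basis (Fin k) ℝ (Eu E × Yo e0)) {ε : ℝ}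
    (hI : ∀ w, I w = ε * ∫ q in Bx D e0 ×ˢ {0}ᶜ, evalForm (Q.cw ch (w.val (Qh F hD hB hdiam T)) q)
          (pB bV (bas l).toBasis) ∂(pB bV (bas l).toBasis).addHaar)
    -- the equivariant map
    {K : ℕ} {Hc : UT E M → (Fin K → ℂ)} (hH : EqMap F D K Hc)
    -- the logarithm, the generic matrix
    {lg : M → Eu E} (eflg : ∀ x, dist p x < D → ef e p (lg x) = x ∧ ‖lg x‖ < D)
    {q0 : Eu E} {δ c0 : ℝ} {A : Fin (n + 1) → Fin K → ℂ} (hc0 : 0 < c0)
    (hN : Opn (dM E M) (ef e p '' Metric.ball q0 δ))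
    (hbig : ∀ q : (Eu E × Yo e0) × Eul l, q.2 ≠ 0 →
      g1 (Qh F hD hB hdiam T q) ∈ ef e p '' Metric.ball q0 δ →
        c0 < ‖hA A Hc (Qh F hD hB hdiam T q)‖)
    (hlgef : ∀ x ∈ Metric.ball q0 δ, lg (ef e p x) = x ∧ dist p (ef e p x) < D)
    (hpm : PMap (Bx D e0) {q : (Eu E × Yo e0) × Eul l | q.2 ≠ 0 ∧
      dist p (g1 (Qh F hD hB hdiam T q)) < D} (Metric.ball q0 δ)
      (fun q => lg (g1 (Qh F hD hB hdiam T q))) (fun q => hA A Hc (Qh F hD hB hdiam T q)))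
    -- the bump forms
    {K1 : Set (Eu E)} (hK1 : K1 ⊆ Metric.ball q0 δ) {om1 : Eu E → Lam (Eu E)}
    (ho1 : ∀ y ∉ K1, om1 y = 0)
    {om : WW (n + 1) → Lam (WW (n + 1))} (hom : ContDiffOn ℝ ∞ om {0}ᶜ)
    (homd : ∀ y, Q.IsDeg (2 * n + 1) (om y)) (homc : ∀ y ≠ 0, extd om y = 0)
    (hom1 : ∫ y, evalForm (dR rst y * om y) (bW (n + 1)) = 1) {m : ℤ}
    (hm : ∫ q in {q : (Eu E × Yo e0) × Eul l | q.1 ∈ Bx D e0 ∧ q ∈ {q : (Eu E × Yo e0) × Eul l |
        q.2 ≠ 0 ∧ dist p (g1 (Qh F hD hB hdiam T q)) < D} ∧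
        lg (g1 (Qh F hD hB hdiam T q)) ∈ Metric.ball q0 δ},
        evalForm (Q.cw ch (fun q => pb (fun q => lg (g1 (Qh F hD hB hdiam T q))) om1 q *
          pb (fun q => hA A Hc (Qh F hD hB hdiam T q)) om q) q) (pB bV (bas l).toBasis)
          ∂(pB bV (bas l).toBasis).addHaar = m)
    {wM : Form (dM E M)} (hw1M : ∀ (V : Type) [NormedAddCommGroup V] [NormedSpace ℝ V]
      [FiniteDimensional ℝ V] (u : V → M) (x : V), (dM E M).At u x → dist p (u x) < D →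
      wM.val u x = pb (fun y => lg (u y)) om1 x)
    (hw2M : ∀ (V : Type) [NormedAddCommGroup V] [NormedSpace ℝ V]
      [FiniteDimensional ℝ V] (u : V → M) (x : V), (dM E M).At u x → u x ∉ ef e p '' K1 →
      wM.val u x = 0)
    (hwMd : wM.d = 0) (hwMe : wM.sg = wM) :
    I (Form.pull g1 hg1 wM * (α * α.d ^ n)) = (2 * D) ^ (n + 1) * (ε * m) := by
  have hmh : (dPr e D).Map (Dif.lin (WW (n + 1))) (hA A Hc) := map_hA F A hH
  have hom' : ContDiffOn ℝ ∞ om {x | x ≠ 0} := hom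
  -- the open set of pairs
  set N : Set (Pr e D) := g1 ⁻¹' (ef e p '' Metric.ball q0 δ) with hNdef
  have hNo : Opn (dPr e D) N := Opn.pre hg1 hN
  have hNb : ∀ v ∈ N, c0 < ‖hA A Hc v‖ := by
    intro v hv
    obtain ⟨q, hq, rfl⟩ := hsur v
    exact hbig q hq hv
  set w1 : Form (dPr e D) := Form.pull g1 hg1 wM with hw1
  have hw1N : Loc Nᶜ w1 0 := ⟨fun V _ _ _ u x hu hx => by
    rw [hw1, Form.pull_val hg1 _ hu, Form.zero_val]
    refine hw2M V (g1 ∘ u) x (hg1 hu) fun h1 => hx ?_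
    exact image_mono hK1 h1⟩
  have hw1e : w1.sg = w1 := by rw [hw1, ← Form.pull_sg, hwMe]
  have hw1d : w1.d = 0 := by
    rw [hw1, ← Form.pull_d, hwMd]
    exact map_zero (Form.pullA g1 hg1)
  have hw1b : Basic Lm hLm.map w1 := H584.basic_pull hg1 hgL wM
  have hπ : Real.pi / D ≠ 0 := div_ne_zero Real.pi_ne_zero hD.ne'
  have h1 := conn_weight (n := n) hLm (by positivity) hα hαo hmh hπ (hA_equi F A hH hLv) hc0 hNo hNb
    hw1N hw1e hw1d hw1b I hId hIb hom' homd homc (cut_rst (E := WW (n + 1))) hom1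
  rw [h1]
  have h2 : ((Real.pi / D)⁻¹) ^ (n + 1) * (2 * Real.pi) ^ (n + 1) = (2 * D) ^ (n + 1) := by
    rw [← mul_pow]
    congr 1
    have := Real.pi_ne_zero
    have := hD.ne'
    field_simp
  rw [h2]
  congr 1
  rw [hI]
  congr 1
  rw [← hm]
  set G : (Eu E × Yo e0) × Eul l → M := fun q => g1 (Qh F hD hB hdiam T q) with hG
  set S2 : Set ((Eu E × Yo e0) × Eul l) := {q | q.1 ∈ Bx D e0 ∧ q ∈ {q : (Eu E × Yo e0) × Eul l |
        q.2 ≠ 0 ∧ dist p (G q) < D} ∧ lg (G q) ∈ Metric.ball q0 δ} with hS2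
  have hS2o : MeasurableSet S2 := by
    have h3 := hpm.smf.continuousOn.isOpen_inter_preimage hpm.opn hpm.opn1
    have h4 : IsOpen ((Prod.fst : (Eu E × Yo e0) × Eul l → Eu E × Yo e0) ⁻¹' (Bx D e0)) :=
      (isOpen_Bx D).preimage continuous_fst
    have h5 : S2 = (Prod.fst ⁻¹' (Bx D e0)) ∩ ({q : (Eu E × Yo e0) × Eul l | q.2 ≠ 0 ∧
      dist p (g1 (Qh F hD hB hdiam T q)) < D} ∩
      (fun q => lg (g1 (Qh F hD hB hdiam T q))) ⁻¹' Metric.ball q0 δ) := rfl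
    rw [h5]
    exact (h4.inter h3).measurableSet
  have hsub : S2 ⊆ Bx D e0 ×ˢ {0}ᶜ := fun q hq => ⟨hq.1, hq.2.1.1⟩
  have hval : ∀ q : (Eu E × Yo e0) × Eul l, q.2 ≠ 0 →
      (w1 * Form.pull (hA A Hc) hmh (Form.ofLin (reg c0 om) (contDiff_reg c0 hom'))).val
        (Qh F hD hB hdiam T) q =
      wM.val G q * pb (fun q => hA A Hc (Qh F hD hB hdiam T q)) (reg c0 om) q := by
    intro q hq
    have h3 := at_Qh F hD hB hdiam hTf hq
    rw [Form.mul_val, hw1, Form.pull_val hg1 _ h3, Form.pull_val hmh _ h3,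
      Form.ofLin_val _ _ (hmh h3)]
    rfl
  rw [setIntegral_eq_of_subset_of_forall_sdiff_eq_zero
    ((isOpen_Bx D).prod isOpen_compl_singleton).measurableSet hsub]
  · refine setIntegral_congr_fun hS2o fun q hq => ?_
    have hq0 : q.2 ≠ 0 := hq.2.1.1
    have hG' : (dM E M).At G q := hg1 (at_Qh F hD hB hdiam hTf hq0)
    have h3 : (w1 * Form.pull (hA A Hc) hmh (Form.ofLin (reg c0 om) (contDiff_reg c0 hom'))).val
        (Qh F hD hB hdiam T) q = pb (fun q => lg (G q)) om1 q *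
          pb (fun q => hA A Hc (Qh F hD hB hdiam T q)) om q := by
      have h4 : G q ∈ ef e p '' Metric.ball q0 δ := ⟨lg (G q), hq.2.2, (eflg _ hq.2.1.2).1⟩
      rw [hval q hq0, hw1M _ G q hG' hq.2.1.2, pb, pb, pb, reg_eq hc0 _ (hbig q hq0 h4).le]
    change evalForm (Q.ps (dR ch q.2) * _) _ = evalForm (Q.ps (dR ch q.2) * _) _
    rw [h3]
  · intro q hq
    have hq0 : q.2 ≠ 0 := hq.1.2
    have hG' : (dM E M).At G q := hg1 (at_Qh F hD hB hdiam hTf hq0)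
    have h4 : G q ∉ ef e p '' K1 := by
      rintro ⟨x, hx, hxG⟩
      apply hq.2
      have h5 := hlgef x (hK1 hx)
      rw [hxG] at h5
      exact ⟨hq.1.1, ⟨hq0, h5.2⟩, by rw [h5.1]; exact hK1 hx⟩
    have h5 : (w1 * Form.pull (hA A Hc) hmh (Form.ofLin (reg c0 om) (contDiff_reg c0 hom'))).val
        (Qh F hD hB hdiam T) q = 0 := by
      rw [hval q hq0, hw2M _ G q hG' h4, zero_mul]
    change evalForm (Q.ps (dR ch q.2) * _) _ = 0
    rw [h5, mul_zero]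
    exact map_zero (evalL (pB bV (bas l).toBasis))

end

end Vale.Agent.P231.S3E
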