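import Vale.Agent.P231.S3E.Box
import Vale.Agent.P231.Co.M3g

/-!
# P231, stage 3, S3-INT (f): the box coordinates are onto
-/

set_option maxSynthPendingDepth 3
set_option linter.unusedSectionVars false
set_option linter.unusedVariables false

open Bundle Manifold Set Filter Module Topology MeasureTheory
open scoped ContDiff Manifold Topology

namespace Vale.Agent.P231.S3E

noncomputable section

open Vale.Agent.P234 Vale.Agent.P231 Vale.Agent.P231.Fm Vale.Agent.P231.W Vale.Agent.P231.H775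
open Vale.Agent.P231.WR Vale.Agent.P231.S2II

variable {E : Type*} [NormedAddCommGroup E] [NormedSpace ℝ E]
  {M : Type*} [MetricSpace M] [ChartedSpace E M]
  [RiemannianBundle (fun x : M => TangentSpace 𝓘(ℝ, E) x)]
  {e : ∀ x : M, TangentSpace 𝓘(ℝ, E) x → M}
  [FiniteDimensional ℝ E] [IsManifold 𝓘(ℝ, E) ∞ M]
  [IsContMDiffRiemannianBundle 𝓘(ℝ, E) ∞ E (fun x : M => TangentSpace 𝓘(ℝ, E) x)]
  [CompactSpace M] [ConnectedSpace M] [IsRiemannianManifold 𝓘(ℝ, E) M]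
  (F : Facts e) {D : ℝ} (hD : 0 < D) (hB : InjGE e D) (hdiam : ∀ p q : M, dist p q ≤ D)
  {l : ℕ} [NeZero l] (hP : ∀ x y : M, dist x y = D → finrank ℝ (H775.Pl e D x y) = l + 1)
  {p : M} {R : ℝ} (X : WG.Fr e p R) (v0 : UT E M)

include F hdiam in
/-- every point is in the ball of radius `D` -/
theorem exists_ef (y : M) : ∃ x : Eu E, ‖x‖ ≤ D ∧ ef e p x = y := by
  obtain ⟨u, hu, hd⟩ := F.hopfRinow p y
  refine ⟨(CoC.fI (E := E) p).symm u, ?_, ?_⟩
  · rw [LinearIsometryEquiv.norm_map, ← hd]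
    exact hdiam _ _
  · have h1 : ef e p ((CoC.fI (E := E) p).symm u) =
        e p (CoC.fI (E := E) p ((CoC.fI (E := E) p).symm u)) := rfl
    rw [h1, LinearIsometryEquiv.apply_symm_apply]
    exact hu

include F hdiam in
theorem cc_surj1 (hDR : D < R) (v : UT E M) :
    ∃ (x η : Eu E), ‖x‖ ≤ D ∧ ‖η‖ = 1 ∧ WG.cc X v0 (x, η) = v := by
  obtain ⟨x, hx, hxv⟩ := exists_ef F hdiam (p := p) (foot v)
  have hxR : ‖x‖ < R := hx.trans_lt hDR
  have hfin : finrank ℝ (Eu E) = finrank ℝ E := by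
    rw [finrank_euclideanSpace, Fintype.card_fin]
  have hsur : Function.Surjective (X.B x) :=
    (LinearMap.injective_iff_surjective_of_finrank_eq_finrank (f := (X.B x : Eu E →ₗ[ℝ] E))
      hfin).1 (X.inj x hxR)
  obtain ⟨η, hη⟩ := hsur (vec' v)
  have hnr : X.nr (x, η) = 1 := by
    change nm (ef e p x) (X.B x η) = 1
    rw [hη, hxv]
    exact nm_vec' v
  have hη0 : η ≠ 0 := by
    rintro rfl
    rw [map_zero] at hη
    have h1 := nm_vec' v
    rw [← hη] at h1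
    have h2 : nm (foot v) (0 : E) = 0 := norm_zero (E := TangentSpace 𝓘(ℝ, E) (foot v))
    rw [h2] at h1
    exact zero_ne_one h1
  have h1 : WG.cc X v0 (x, η) = v := by
    rw [WG.cc_of X v0 (z := (x, η)) (by rw [hnr]; exact one_ne_zero)]
    refine Eq.trans (mk_congr (w := vec' v) (hw := by exact v.2) hxv ?_) (mk_eta v)
    rw [hnr, inv_one, one_smul]
    exact hη
  refine ⟨x, ‖η‖⁻¹ • η, hx, ?_, ?_⟩
  · rw [norm_smul, norm_inv, norm_norm, inv_mul_cancel₀ (norm_ne_zero_iff.2 hη0)]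
  · rw [← h1]
    exact WG.cc_smul X v0 (z := (x, η)) hxR hη0 (inv_pos.2 (norm_pos_iff.2 hη0))

variable {e0 : Eu E}

include F hD hB hdiam hP in
/-- the pairs are covered by the box -/
theorem Qh_surj (hth : ∀ η : Eu E, ‖η‖ = 1 → ∃ y : Yo e0, ‖y‖ ≤ 1 ∧ TW.th e0 y = η)
    (hDR : D < R) {T : Eu E × Yo e0 → S2II.Fr e D l}
    (hT : ∀ z : Eu E × Yo e0, ‖z.1‖ ≤ D → ‖z.2‖ ≤ 1 → (T z).v = Qc X v0 e0 z)
    (b : Pr e D) : ∃ (z : Eu E × Yo e0) (ζ : Eul l), ‖z.1‖ ≤ D ∧ ‖z.2‖ ≤ 1 ∧ ‖ζ‖ = 1 ∧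
      Qh F hD hB hdiam T (z, ζ) = b := by
  obtain ⟨x, η, hx, hη, hcc⟩ := cc_surj1 F hdiam X v0 hDR b.v
  obtain ⟨y, hy, hyη⟩ := hth η hη
  have hv : (T (x, y)).v = b.v := by
    rw [hT (x, y) hx hy, Qc, hyη, hcc]
  set f := T (x, y) with hf
  have h2 : (vec' (E := E) b.w : TangentSpace 𝓘(ℝ, E) (foot f.v)) ∈ Lf e D f.v := by
    rw [hv]
    exact b.isL.mem_Lf
  have h3 := cb_co F hD hB hdiam hP f h2
  have h4 : ‖co f (vec' b.w)‖ = 1 := by
    have h5 : ‖co f (vec' b.w)‖ ^ 2 = 1 := by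
      rw [← real_inner_self_eq_norm_sq, ← ip_cb_cb f, h3, hv]
      exact b.isL.ip_self
    exact (sq_eq_sq₀ (norm_nonneg _) zero_le_one).1 (h5.trans (one_pow 2).symm)
  refine ⟨(x, y), co f (vec' b.w), hx, hy, h4, ?_⟩
  refine Pr.ext' ?_ ?_
  · rw [Qh, cone_v]
    exact hv
  · rw [Qh, cone_w F hD hB hdiam _ h4]
    refine (mk_congr ?_ h3).trans (mk_eta b.w)
    rw [← hf, hv]
    exact b.isL.foot_eq.symm

end

end Vale.Agent.P231.S3E
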