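import Vale.Agent.P231.S3E.Core
import Vale.Agent.P231.S3E.PMap
import Vale.Agent.P231.S3E.Surj

/-!
# P231, stage 3, S3-INT (f): a top form of integral one on `M` whose pull-back gives an integer
-/

set_option maxSynthPendingDepth 3
set_option linter.unusedSectionVars false
set_option linter.unusedVariables false

open Bundle Manifold Set Filter Module Topology MeasureTheory
open scoped ContDiff Manifold Topology

namespace Vale.Agent.P231.S3E

noncomputable section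

open Vale.Agent.P234 Vale.Agent.P231 Vale.Agent.P231.Fm Vale.Agent.P231.W Vale.Agent.P231.H775
open Vale.Agent.P231.WR Vale.Agent.P231.S2II Vale.Agent.P231.H584
open Vale.Agent.P231.Q (dR Cut)
open Vale.Agent.P231.TW (pB)

variable {E : Type*} [NormedAddCommGroup E] [NormedSpace ℝ E]
  {M : Type*} [MetricSpace M] [ChartedSpace E M]
  [RiemannianBundle (fun x : M => TangentSpace 𝓘(ℝ, E) x)]
  {e : ∀ x : M, TangentSpace 𝓘(ℝ, E) x → M}
  [FiniteDimensional ℝ E] [IsManifold 𝓘(ℝ, E) ∞ M]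
  [IsContMDiffRiemannianBundle 𝓘(ℝ, E) ∞ E (fun x : M => TangentSpace 𝓘(ℝ, E) x)]
  [CompactSpace M] [ConnectedSpace M] [IsRiemannianManifold 𝓘(ℝ, E) M]
  {p : M}
  (F : Facts e) {D : ℝ} (hD : 0 < D) (hB : InjGE e D) (hdiam : ∀ p q : M, dist p q ≤ D)
  {l : ℕ} [NeZero l] (hP : ∀ x y : M, dist x y = D → finrank ℝ (H775.Pl e D x y) = l + 1)

theorem frontier_Bx {e0 : Eu E} {D : ℝ} (hD : 0 < D) {k l' : ℕ} (b : Basis (Fin k) ℝ (Eu E))
    (bY : Basis (Fin l') ℝ (Yo e0)) : (pB b bY).addHaar (frontier (Bx D e0)) = 0 := by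
  rw [TW.addHaar_pB, Bx, frontier_prod_eq]
  refine measure_union_null ?_ ?_
  · rw [Measure.prod_prod, frontier_ball (0 : Yo e0) one_ne_zero,
      Measure.addHaar_sphere_of_ne_zero _ _ one_ne_zero, mul_zero]
  · rw [Measure.prod_prod, frontier_ball (0 : Eu E) hD.ne',
      Measure.addHaar_sphere_of_ne_zero _ _ hD.ne', zero_mul]

/-- **a top form of integral one whose pull-back gives an integer** -/
theorem f_exists {o : Form (dPr e D)} (hb : Orn F hD hB hdiam (l := l) o) (hlo : Odd l)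
    {N n : ℕ} (hN : finrank ℝ E = N + 1) (hN3 : 3 ≤ finrank ℝ E) (hNe : Even (N + 1))
    (hn : l + N = 2 * n + 2) {R : ℝ} (X : WG.Fr e p R) (v0 : UT E M) (hDR : D < R)
    (b : OrthonormalBasis (Fin (N + 1)) ℝ (Eu E)) {r : Eu E → ℝ} {K₀ : Set (Eu E)}
    (hr : Q.Cut r K₀)
    {g1 : Pr e D → M} (hg1 : (dPr e D).Map (dM E M) g1)
    {Lm : Pr e D × ℝ → Pr e D} (hLm : IsFlow (dPr e D) (2 * D) Lm)
    (hLv : ∀ b t, (Lm (b, t)).v = phi F (b.v, t)) (hgL : ∀ b t, g1 (Lm (b, t)) = g1 b)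
    {α : Form (dPr e D)} (hα : Form.pull Lm hLm.map α = pr α + dt) (hαo : α.sg = -α)
    (hId : ∀ w : Form (dPr e D),
      WG.II X v0 b.toBasis hr hDR (SL F hD hB hdiam hP hb hlo w.d) = 0)
    (hIb : ∀ w : Form (dPr e D), Basic Lm hLm.map w →
      WG.II X v0 b.toBasis hr hDR (SL F hD hB hdiam hP hb hlo w) = 0)
    -- to be replaced
    {lg : M → Eu E}
    (hlg : ((dM E M).on {x | dist p x < D}).Map (Dif.lin (Eu E)) lg)
    (lgef : ∀ x ∈ Metric.ball (0 : Eu E) D, lg (ef e p x) = x ∧ dist p (ef e p x) < D)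
    (eflg : ∀ x, dist p x < D → ef e p (lg x) = x ∧ ‖lg x‖ < D)
    (hbump : ∀ {om1 : Eu E → Lam (Eu E)} {K1 : Set (Eu E)}, ContDiff ℝ ∞ om1 → IsCompact K1 →
      K1 ⊆ Metric.ball 0 D → (∀ y ∉ K1, om1 y = 0) → (∀ y, Q.IsDeg (N + 1) (om1 y)) →
      ∃ wM : Form (dM E M),
      (∀ (V : Type) [NormedAddCommGroup V] [NormedSpace ℝ V]
        [FiniteDimensional ℝ V] (u : V → M) (x : V), (dM E M).At u x → dist p (u x) < D →
        wM.val u x = pb (fun y => lg (u y)) om1 x) ∧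
      (∀ (V : Type) [NormedAddCommGroup V] [NormedSpace ℝ V]
        [FiniteDimensional ℝ V] (u : V → M) (x : V), (dM E M).At u x → u x ∉ ef e p '' K1 →
        wM.val u x = 0) ∧ wM.d = 0 ∧ Form.IsDeg (N + 1) wM ∧
        (∫ x in Metric.ball (0 : Eu E) D, evalForm (wM.val (ef e p) x) b.toBasis) =
          TW.JJ b.toBasis om1)
    (hpinst : ∀ {e0 : Eu E}, ‖e0‖ = 1 → ∀ {T : Eu E × Yo e0 → S2II.Fr e D l},
      (∀ z, (dFr e D l).At T z) →
      (∀ z : Eu E × Yo e0, ‖z.1‖ ≤ D → ‖z.2‖ ≤ 1 → (T z).v = Qc X v0 e0 z) →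
      ∀ {K : ℕ} {Hc : UT E M → (Fin K → ℂ)}, EqMap F D K Hc →
      PData p D lg (ef e p) (fun q : (Eu E × Yo e0) × Eul l => g1 (Qh F hD hB hdiam T q))
        (fun q => Hc (Qh F hD hB hdiam T q).v)
        (Metric.closedBall (0 : Eu E) D ×ˢ Metric.closedBall (0 : Yo e0) 1))
    (hpmap : ∀ {e0 : Eu E} {K n : ℕ} {G : (Eu E × Yo e0) × Eul l → M}
      {H : (Eu E × Yo e0) × Eul l → Fin K → ℂ} {S : Set (Eu E × Yo e0)}
      (h : PData p D lg (ef e p) G H S) {q0 : Eu E} {δ c0 : ℝ} {A : Fin n → Fin K → ℂ}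
      (hδ : 0 < δ) (hc0 : 0 < c0) (hsub : Metric.closedBall q0 δ ⊆ Metric.ball 0 D)
      (hbig : ∀ q : (Eu E × Yo e0) × Eul l, q.2 ≠ 0 → G q ∈ ef e p '' Metric.closedBall q0 δ →
        c0 < ‖(LW n).symm (fun i => ∑ j, A i j * H q j)‖) {B : Set (Eu E × Yo e0)},
      PMap B {q : (Eu E × Yo e0) × Eul l | q.2 ≠ 0 ∧ dist p (G q) < D} (Metric.ball q0 δ)
        (fun q => lg (G q)) (fun q => (LW n).symm (fun i => ∑ j, A i j * H q j)))
    (hopn : ∀ {q0 : Eu E} {δ : ℝ}, Metric.ball q0 δ ⊆ Metric.ball 0 D →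
      Opn (dM E M) (ef e p '' Metric.ball q0 δ)) :
    ∃ wM : Form (dM E M), wM.d = 0 ∧ Form.IsDeg (N + 1) wM ∧
      (∫ x in Metric.ball (0 : Eu E) D, evalForm (wM.val (ef e p) x) b.toBasis) = 1 ∧
      ∃ d : ℤ, WG.II X v0 b.toBasis hr hDR (SL F hD hB hdiam hP hb hlo
        (Form.pull g1 hg1 wM * (α * α.d ^ n))) = (2 * D) ^ (n + 1) * d := by
  have hfE : finrank ℝ (Eu E) = N + 1 := by
    rw [finrank_euclideanSpace, Fintype.card_fin, hN]
  have : Nontrivial (Eu E) := Module.nontrivial_of_finrank_pos (R := ℝ) (by omega)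
  obtain ⟨e0, he⟩ : ∃ e0 : Eu E, ‖e0‖ = 1 := exists_norm_eq (Eu E) zero_le_one
  have he0 : e0 ≠ 0 := by
    rw [← norm_ne_zero_iff, he]
    exact one_ne_zero
  have hfY : finrank ℝ (Yo e0) = N := by
    have h1 := Submodule.finrank_add_finrank_orthogonal (Submodule.span ℝ {e0})
    rw [finrank_span_singleton he0, hfE] at h1
    have h2 : finrank ℝ (Yo e0) = finrank ℝ (Submodule.span ℝ {e0})ᗮ := rfl
    omega
  let bY : Basis (Fin N) ℝ (Yo e0) := Module.finBasisOfFinrankEq ℝ (Yo e0) hfY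
  -- frames, box formula
  obtain ⟨T, hT, hTv⟩ := exists_frames X v0 F hD hB hdiam hP hb hlo he hDR
  have hTf : ∀ z, (dFr e D l).At T z := fun z => (hT z).1
  obtain ⟨ε, hε, hI⟩ := I_SL_box X v0 F hD hB hdiam hP he hN3 b bY hr hDR hb hlo hT hTv
  -- the equivariant map
  obtain ⟨K, Hc, hH⟩ := exists_eqMap F hD hB hdiam
  have hpd := hpinst he hTf hTv hH
  have hdim : finrank ℝ ((Eu E × Yo e0) × Eul l) = finrank ℝ (Eu E) + 2 * (n + 1) := by
    rw [finrank_prod, finrank_prod, hfE, hfY, finrank_euclideanSpace, Fintype.card_fin]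
    omega
  obtain ⟨q0, δ, c0, A, hδ, hc0, hsub, hbig⟩ := hpd.exists_big (n := n + 1) hdim
  have hpm := hpmap hpd hδ hc0 hsub hbig (B := Bx D e0)
  -- the degree
  obtain ⟨K1, om1, om, k1, k2, k3, k4, k5, k6, o1, o2, o3, o4, o5, m, hm⟩ :=
    hpm.exists_int (n := n) ⟨q0, Metric.mem_ball_self hδ⟩ (isOpen_Bx D) (cpt_Bx D)
      (pB b.toBasis bY) (bas l).toBasis b.toBasis (bW (n + 1)) (by omega)
      (frontier_Bx hD b.toBasis bY) (cut_ch (W := Eul l)) (cut_ch (W := WW (n + 1)))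
      (fun z y h => by rw [ch, ch, h])
  have hb0 : Metric.ball q0 δ ⊆ Metric.ball 0 D := Metric.ball_subset_closedBall.trans hsub
  obtain ⟨wM, w1, w2, w3, w4, w5⟩ := hbump k3 k2 (k1.trans hb0) k4 k5
  refine ⟨wM, w3, w4, by rw [w5, k6], ?_⟩
  have hsur : ∀ b : Pr e D, ∃ q : (Eu E × Yo e0) × Eul l,
      q.2 ≠ 0 ∧ Qh F hD hB hdiam T q = b := fun b' => by
    have hth : ∀ η : Eu E, ‖η‖ = 1 → ∃ y : Yo e0, ‖y‖ ≤ 1 ∧ TW.th e0 y = η := by
      intro η hη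
      have h1 := th_image (V := Eu E) he (by omega)
      have h2 : η ∈ TW.th e0 '' Metric.closedBall 0 1 := by
        rw [h1]
        exact mem_sphere_zero_iff_norm.2 hη
      obtain ⟨y, hy, hyη⟩ := h2
      exact ⟨y, mem_closedBall_zero_iff.1 hy, hyη⟩
    obtain ⟨z, ζ, -, -, h3, h4⟩ := Qh_surj F hD hB hdiam hP X v0 hth hDR hTv b'
    refine ⟨(z, ζ), fun h0 => ?_, h4⟩
    have h5 : ζ = 0 := h0
    rw [h5, norm_zero] at h3
    exact zero_ne_one h3
  have hcore := f_core F hD hB hdiam hg1 hLm hLv hgL hα hαo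
    ((WG.II X v0 b.toBasis hr hDR).comp (SL F hD hB hdiam hP hb hlo)) hId hIb hTf hsur
    (pB b.toBasis bY) hI hH eflg hc0 (hopn hb0)
    (fun q hq hG => hbig q hq (image_mono Metric.ball_subset_closedBall hG))
    (fun x hx => lgef x (hb0 hx)) hpm k1 k4 o1 o2 o3 o5 hm w1 w2 w3 (w4.sg_of_even hNe)
  have hε' : ε = 1 ∨ ε = -1 := (abs_eq zero_le_one).1 hε
  rcases hε' with rfl | rfl
  · exact ⟨m, by rw [one_mul] at hcore; exact hcore⟩
  · exact ⟨-m, by rw [Int.cast_neg, ← neg_one_mul (m : ℝ)]; exact hcore⟩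

end

end Vale.Agent.P231.S3E
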