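import Vale.Agent.P231.WG.Stokes
import Vale.Agent.P231.WG.FrameFr
import Vale.Agent.P231.WQ.Glue

/-!
# P231, stage 3, item (f), part (M3): the integral over `M` in polar coordinates, Stokes' theorem
-/

set_option maxSynthPendingDepth 3
set_option linter.unusedSectionVars false
set_option linter.unusedVariables false

open Bundle Manifold Set Filter Module Topology MeasureTheory
open scoped ContDiff Manifold Topology

namespace Vale.Agent.P231.S3E

noncomputable section

open Vale.Agent.P234 Vale.Agent.P231 Vale.Agent.P231.Fm Vale.Agent.P231.W Vale.Agent.P231.H775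
  Vale.Agent.P231.WG

variable {E : Type*} [NormedAddCommGroup E] [NormedSpace ℝ E]
  {M : Type*} [MetricSpace M] [ChartedSpace E M]
  [RiemannianBundle (fun x : M => TangentSpace 𝓘(ℝ, E) x)]
  {e : ∀ x : M, TangentSpace 𝓘(ℝ, E) x → M}
  [FiniteDimensional ℝ E] [IsManifold 𝓘(ℝ, E) ∞ M]
  [IsContMDiffRiemannianBundle 𝓘(ℝ, E) ∞ E (fun x : M => TangentSpace 𝓘(ℝ, E) x)]
  [CompactSpace M] [ConnectedSpace M] [IsRiemannianManifold 𝓘(ℝ, E) M]
  {p : M}

/-- the kernel vector on the boundary sphere -/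
theorem exists_kernelM (F : Facts e) {D : ℝ} (hD : 0 < D) (hB : InjGE e D)
    (hdiam : ∀ p q : M, dist p q ≤ D)
    (hP : ∀ x y : M, dist x y = D → 2 ≤ finrank ℝ (H775.Pl e D x y)) {x : Eu E} (hx : ‖x‖ = D) :
    ∃ κ : Eu E, κ ≠ 0 ∧ inner ℝ x κ = (0 : ℝ) ∧ ∀ w : Form (dM E M),
      iprod κ (w.val (ef e p) x) = 0 := by
  have hx0 : x ≠ 0 := by
    rw [← norm_ne_zero_iff, hx]
    exact hD.ne'
  have hn : nm p (D⁻¹ • fr p x : E) = 1 := by
    have h1 := nm_smul (E := E) p (fr p x) D⁻¹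
    rw [nm_fr, hx, abs_of_pos (inv_pos.2 hD), inv_mul_cancel₀ hD.ne'] at h1
    exact h1
  obtain ⟨X⟩ := nonempty_fr F hD hB p (D + 1)
  have hDR : D < D + 1 := lt_add_one D
  have hxR : ‖x‖ < D + 1 := by rw [hx]; exact hDR
  let v0 : UT E M := mk p (D⁻¹ • fr p x : E) hn
  obtain ⟨κ, h1, h2, h3⟩ := exists_kernel F hD hB hdiam hP X v0 hDR hx
  refine ⟨κ, h1, h2, fun w => ?_⟩
  obtain ⟨z, hz⟩ := h3 x hx0
  have h4 := hz (Form.pull foot map_foot w)
  have h5 : (dUT E M).At (cc X v0) (x, x) := at_cc X v0 (z := (x, x)) hxR hx0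
  have h6 : foot ∘ cc X v0 =ᶠ[𝓝 ((x, x) : Eu E × Eu E)] (ef e p) ∘ Prod.fst := by
    filter_upwards [(isOpen_dom (E := E) (D + 1)).mem_nhds
      (show ((x, x) : Eu E × Eu E) ∈ _ from ⟨mem_ball_zero_iff.2 hxR, hx0⟩)] with q hq
    exact foot_cc X v0 (mem_ball_zero_iff.1 hq.1) hq.2
  have h7 : (Form.pull foot map_foot w).val (cc X v0) (x, x) =
      pull (ContinuousLinearMap.fst ℝ (Eu E) (Eu E)) (w.val (ef e p) x) := by
    rw [Form.pull_val _ _ h5, w.congr (map_foot h5) h6]
    have h8 := w.nat (u := ef e p) (g := (Prod.fst : Eu E × Eu E → Eu E)) (x := (x, x))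
      (WQ.at_ef F p x) (Sm.of_contDiff contDiff_fst _)
    rw [h8, fderiv_fst]
  rw [h7, pull_iprod] at h4
  have h8 := congrArg (pull (ContinuousLinearMap.inl ℝ (Eu E) (Eu E))) h4
  rw [← pull_comp_apply, map_zero] at h8
  have h9 : (ContinuousLinearMap.fst ℝ (Eu E) (Eu E)).comp (ContinuousLinearMap.inl ℝ (Eu E) (Eu E))
      = ContinuousLinearMap.id ℝ (Eu E) := by
    ext v
    rfl
  rw [h9, pull_id] at h8
  exact h8

theorem continuous_ef (F : Facts e) (p : M) {k : ℕ} (b : Basis (Fin k) ℝ (Eu E))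
    (w : Form (dM E M)) : Continuous fun x : Eu E => evalForm (w.val (ef e p) x) b := by
  refine continuous_iff_continuousAt.2 fun x => ?_
  exact (evalL b).continuous.continuousAt.comp (w.smooth (WQ.at_ef F p x)).continuousAt

/-- the integral over `M` -/
def IM (e : ∀ x : M, TangentSpace 𝓘(ℝ, E) x → M) (D : ℝ) (p : M) {k : ℕ}
    (b : Basis (Fin k) ℝ (Eu E)) (F : Facts e) : Form (dM E M) →ₗ[ℝ] ℝ where
  toFun w := ∫ x in Metric.ball (0 : Eu E) D, evalForm (w.val (ef e p) x) b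
  map_add' v w := by
    have h1 : ∀ u : Form (dM E M), IntegrableOn (fun x : Eu E => evalForm (u.val (ef e p) x) b)
        (Metric.ball (0 : Eu E) D) := fun u =>
      ((continuous_ef F p b u).continuousOn.integrableOn_compact
        (isCompact_closedBall (0 : Eu E) D)).mono_set Metric.ball_subset_closedBall
    rw [← integral_add (h1 v) (h1 w)]
    refine setIntegral_congr_fun measurableSet_ball fun x hx => ?_
    rw [Form.add_val, Q.evalForm_add]
  map_smul' c w := by
    rw [RingHom.id_apply, smul_eq_mul, ← integral_const_mul]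
    refine setIntegral_congr_fun measurableSet_ball fun x hx => ?_
    rw [Form.smul_val, Q.evalForm_smul]

theorem IM_apply (F : Facts e) (D : ℝ) (p : M) {k : ℕ} (b : Basis (Fin k) ℝ (Eu E))
    (w : Form (dM E M)) :
    IM e D p b F w = ∫ x in Metric.ball (0 : Eu E) D, evalForm (w.val (ef e p) x) b := rfl

/-- **Stokes' theorem** -/
theorem IM_d (F : Facts e) {D : ℝ} (hD : 0 < D) (hB : InjGE e D)
    (hdiam : ∀ p q : M, dist p q ≤ D)
    (hP : ∀ x y : M, dist x y = D → 2 ≤ finrank ℝ (H775.Pl e D x y)) (p : M) {k : ℕ}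
    (b : Basis (Fin k) ℝ (Eu E)) (w : Form (dM E M)) : IM e D p b F w.d = 0 := by
  rw [IM_apply]
  have h1 : ∀ x : Eu E, w.d.val (ef e p) x = extd (w.val (ef e p)) x := fun x =>
    Form.d_val w (WQ.at_ef F p x)
  rw [setIntegral_congr_fun (g := fun x => evalForm (extd (w.val (ef e p)) x) b)
    measurableSet_ball fun x _ => congrArg (fun a => evalForm a b) (h1 x)]
  refine ball_stokes_of_iprod (V := Eu E) volume b hD (U := univ) isOpen_univ (subset_univ _)
    (Φ := w.val (ef e p)) ?_ fun x hx => ?_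
  · exact fun x _ => ((w.smooth (WQ.at_ef F p x)).of_le (WithTop.coe_le_coe.2 le_top)).contDiffWithinAt
  · obtain ⟨κ, h2, h3, h4⟩ := exists_kernelM (p := p) F hD hB hdiam hP hx
    exact ⟨κ, h2, h3, h4 w⟩

end

end Vale.Agent.P231.S3E
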