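import Vale.Agent.P231.FE.Tow
import Vale.Agent.P231.Co.Top
import Vale.Agent.P231.WG.Stokes
import Vale.Agent.P231.WQ.Glue

/-!
# P231, stage 3, S3-INT, item (f), the M-block: the logarithmic chart, bump forms, the integral
over `M`

`lg e p` is the inverse of `exp_p` in the frame at `p`; `bump` extends a form with compact support
in the ball of radius `D` by zero; `IM` integrates a form over `M` in exponential coordinates:
it vanishes on exact forms, and `|k| |IM (F ^ N)| = κ ^ N` for an integer `k`.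
-/

set_option maxSynthPendingDepth 3
set_option linter.unusedSectionVars false
set_option linter.unusedVariables false

open Bundle Manifold Set Filter Module Topology MeasureTheory
open scoped ContDiff Manifold Topology

namespace Vale.Agent.P231.S3E

noncomputable section

open Vale.Agent.P234 Vale.Agent.P231 Vale.Agent.P231.Fm Vale.Agent.P231.W Vale.Agent.P231.H775
open Vale.Agent.P231.CoC Vale.Agent.P231.WE

variable {E : Type*} [NormedAddCommGroup E] [NormedSpace ℝ E] [FiniteDimensional ℝ E]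
  {M : Type*} [MetricSpace M] [ChartedSpace E M] [IsManifold 𝓘(ℝ, E) ∞ M]
  [RiemannianBundle (fun x : M => TangentSpace 𝓘(ℝ, E) x)]
  [IsContMDiffRiemannianBundle 𝓘(ℝ, E) ∞ E (fun x : M => TangentSpace 𝓘(ℝ, E) x)]
  {e : ∀ x : M, TangentSpace 𝓘(ℝ, E) x → M}

/-! ### (M1) the logarithmic chart -/

/-- the logarithm at `p`, in the frame at `p` -/
def lg (e : ∀ x : M, TangentSpace 𝓘(ℝ, E) x → M) (p : M) (x : M) : Eu E :=
  (WQ.frI p).symm (logMap e p x)

theorem lg_eq (p x : M) : lg e p x = (fr (E := E) p).symm (logMap e p x) := rfl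

theorem lg_ef (F : Facts e) {D : ℝ} (hB : InjGE e D) {p : M} {x : Eu E} (hx : ‖x‖ < D) :
    lg e p (ef e p x) = x := by
  rw [lg, WQ.ef_eq, logMap_exp F hB (by rw [LinearIsometryEquiv.norm_map]; exact hx)]
  exact (WQ.frI p).symm_apply_apply x

theorem ef_lg (F : Facts e) {D : ℝ} (hB : InjGE e D) {p x : M} (hx : dist p x < D) :
    ef e p (lg e p x) = x := by
  rw [WQ.ef_eq, lg, (WQ.frI p).apply_symm_apply]
  exact (exp_logMap F hB hx).1

theorem norm_lg (F : Facts e) {D : ℝ} (hB : InjGE e D) {p x : M} (hx : dist p x < D) :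
    ‖lg e p x‖ = dist p x := by
  rw [lg, LinearIsometryEquiv.norm_map]
  exact (exp_logMap F hB hx).2

theorem dist_ef {D : ℝ} (hB : InjGE e D) {p : M} {x : Eu E} (hx : ‖x‖ ≤ D) :
    dist p (ef e p x) = ‖x‖ := by
  have h1 : ‖WQ.frI (E := E) p x‖ = ‖x‖ := LinearIsometryEquiv.norm_map _ _
  have h2 := hB p (WQ.frI (E := E) p x) (by rw [h1]; exact hx)
  rw [WQ.ef_eq]
  exact h2.trans h1

/-- `exp_p` in orthonormal coordinates is a plot -/
theorem at_ef (F : Facts e) (p : M) (x : Eu E) : (dM E M).At (ef e p) x := by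
  have h1 : ContMDiff 𝓘(ℝ, Eu E) 𝓘(ℝ, E) ∞ (ef e p) := by
    let g : Eu E → TangentSpace 𝓘(ℝ, E) p := fun ξ => fr (E := E) p ξ
    have h2 : ContDiff ℝ ∞ g :=
      ContinuousLinearMap.contDiff (F := TangentSpace 𝓘(ℝ, E) p)
        ((fr (E := E) p : Eu E ≃L[ℝ] E) : Eu E →L[ℝ] E)
    exact (contMDiff_exp_fiber F.isExp p).comp h2.contMDiff
  exact Eventually.of_forall fun y => h1.contMDiffAt

section Plots

variable {V : Type} [NormedAddCommGroup V] [NormedSpace ℝ V] [FiniteDimensional ℝ V]

theorem contAt {u : V → M} {x : V} (hu : (dM E M).At u x) : ContinuousAt u x := by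
  have h1 : ∀ᶠ y in 𝓝 x, ContMDiffAt 𝓘(ℝ, V) 𝓘(ℝ, E) ∞ u y := hu
  exact h1.self_of_nhds.continuousAt

theorem lt_nhds {D : ℝ} {p : M} {u : V → M} {x : V} (hu : (dM E M).At u x)
    (hx : dist p (u x) < D) : ∀ᶠ y in 𝓝 x, dist p (u y) < D :=
  (continuousAt_const.dist (contAt hu)).eventually (gt_mem_nhds hx)

theorem gt_nhds {D : ℝ} {p : M} {u : V → M} {x : V} (hu : (dM E M).At u x)
    (hx : D < dist p (u x)) : ∀ᶠ y in 𝓝 x, D < dist p (u y) :=
  (continuousAt_const.dist (contAt hu)).eventually (lt_mem_nhds hx)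

theorem sm_lg (F : Facts e) {D : ℝ} (hB : InjGE e D) {p : M} {u : V → M} {x : V}
    (hu : (dM E M).At u x) (hx : dist p (u x) < D) : Sm (fun y => lg e p (u y)) x := by
  have h1 : ∀ᶠ y in 𝓝 x, ContMDiffAt 𝓘(ℝ, V) 𝓘(ℝ, E) ∞ u y := hu
  filter_upwards [h1, lt_nhds hu hx] with y k1 k2
  have k4 : ContDiffAt ℝ ∞ (fun y => logMap e p (u y)) y :=
    ((contMDiffAt_logMap_of_dist F hB k2).comp y k1).contDiffAt
  exact (WQ.frI (E := E) p).symm.contDiff.contDiffAt.comp y k4

end Plots

/-- **(M1)** the logarithm is smooth on the open ball -/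
theorem map_lg (F : Facts e) {D : ℝ} (hB : InjGE e D) (p : M) :
    ((dM E M).on (bl p D)).Map (Dif.lin (Eu E)) (lg e p) := by
  intro V _ _ _ u x h
  have h1 : (dM E M).At u x := h.1
  have h2 : ∀ᶠ y in 𝓝 x, dist p (u y) < D := h.2
  exact sm_lg F hB h1 h2.self_of_nhds

/-! ### (M2) bump forms -/

/-- a smooth form with support in the compact subset `K` of the open ball -/
structure BD (D : ℝ) (K : Set (Eu E)) (om : Eu E → Lam (Eu E)) : Prop where
  sm : ContDiff ℝ ∞ om
  cpt : IsCompact K
  sub : K ⊆ Metric.ball 0 D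
  out : ∀ x ∉ K, om x = 0

section BD

variable {D : ℝ} {K : Set (Eu E)} {om : Eu E → Lam (Eu E)}

theorem BD.near (h : BD D K om) {x : Eu E} (hx : x ∉ K) : om =ᶠ[𝓝 x] fun _ => 0 := by
  filter_upwards [h.cpt.isClosed.isOpen_compl.mem_nhds hx] with y hy using h.out y hy

theorem BD.extd (h : BD D K om) : BD D K (Fm.extd om) where
  sm := Form.contDiff_extd h.sm
  cpt := h.cpt
  sub := h.sub
  out x hx := by rw [extd_congr (h.near hx), extd_const]

theorem BD.mono (h : BD D K om) {K' : Set (Eu E)} (hK : K ⊆ K') (hc : IsCompact K')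
    (hs : K' ⊆ Metric.ball 0 D) : BD D K' om where
  sm := h.sm
  cpt := hc
  sub := hs
  out x hx := h.out x fun h' => hx (hK h')

theorem BD.exists_lt (h : BD D K om) (hD : 0 < D) : ∃ r, 0 < r ∧ r < D ∧ ∀ x ∈ K, ‖x‖ ≤ r := by
  rcases K.eq_empty_or_nonempty with rfl | hne
  · exact ⟨D / 2, by linarith, by linarith, fun x hx => absurd hx (notMem_empty x)⟩
  · obtain ⟨x₀, h1, h2⟩ := h.cpt.exists_isMaxOn hne continuous_norm.continuousOn
    have h3 := mem_ball_zero_iff.1 (h.sub h1)
    refine ⟨max ‖x₀‖ (D / 2), lt_max_of_lt_right (by linarith), max_lt h3 (by linarith),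
      fun x hx => le_max_of_le_left (h2 hx)⟩

end BD

open Classical in
/-- the value of the bump form on plots -/
def bumpVal (e : ∀ x : M, TangentSpace 𝓘(ℝ, E) x → M) (D : ℝ) (p : M) (om : Eu E → Lam (Eu E))
    {V : Type} [NormedAddCommGroup V] [NormedSpace ℝ V] [FiniteDimensional ℝ V]
    (u : V → M) (x : V) : Lam V :=
  if dist p (u x) < D then pb (fun y => lg e p (u y)) om x else 0

section Val

variable {D : ℝ} {p : M} {K : Set (Eu E)} {om : Eu E → Lam (Eu E)}
variable {V : Type} [NormedAddCommGroup V] [NormedSpace ℝ V] [FiniteDimensional ℝ V]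

theorem bumpVal_lt {u : V → M} {x : V} (h : dist p (u x) < D) :
    bumpVal e D p om u x = pb (fun y => lg e p (u y)) om x := by
  unfold bumpVal
  rw [if_pos h]

theorem bumpVal_ge {u : V → M} {x : V} (h : ¬ dist p (u x) < D) : bumpVal e D p om u x = 0 := by
  unfold bumpVal
  rw [if_neg h]

/-- the value vanishes outside of the support -/
theorem bumpVal_out (F : Facts e) (hB : InjGE e D) (h : BD D K om) {u : V → M} {x : V}
    (hx : u x ∉ ef e p '' K) : bumpVal e D p om u x = 0 := by
  by_cases h1 : dist p (u x) < D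
  · rw [bumpVal_lt h1, pb, h.out, map_zero]
    exact fun h2 => hx ⟨_, h2, ef_lg F hB h1⟩
  · exact bumpVal_ge h1

/-- the value vanishes near the points outside of the support -/
theorem bumpVal_near (F : Facts e) (hD : 0 < D) (hB : InjGE e D) (h : BD D K om) {u : V → M} {x : V}
    (hu : (dM E M).At u x) (hx : u x ∉ ef e p '' K) :
    bumpVal e D p om u =ᶠ[𝓝 x] fun _ => 0 := by
  by_cases h1 : dist p (u x) < D
  · have h2 : lg e p (u x) ∉ K := fun h2 => hx ⟨_, h2, ef_lg F hB h1⟩
    have h3 : ∀ᶠ y in 𝓝 x, lg e p (u y) ∉ K :=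
      (sm_lg F hB hu h1).continuousAt.eventually (h.cpt.isClosed.isOpen_compl.mem_nhds h2)
    filter_upwards [h3, lt_nhds hu h1] with y k1 k2
    rw [bumpVal_lt k2, pb, h.out _ k1, map_zero]
  · obtain ⟨r, hr0, hr, hK⟩ := h.exists_lt hD
    have h2 : r < dist p (u x) := by linarith [not_lt.1 h1]
    filter_upwards [gt_nhds hu h2] with y hy
    refine bumpVal_out F hB h ?_
    rintro ⟨z, hz, hzy⟩
    have h3 : dist p (u y) = ‖z‖ := by
      rw [← hzy]
      exact dist_ef hB (mem_ball_zero_iff.1 (h.sub hz)).le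
    linarith [hK z hz]

theorem bumpVal_smooth (F : Facts e) (hD : 0 < D) (hB : InjGE e D) (h : BD D K om) {u : V → M} {x : V}
    (hu : (dM E M).At u x) : ContDiffAt ℝ ∞ (bumpVal e D p om u) x := by
  by_cases h1 : dist p (u x) < D
  · have h2 : bumpVal e D p om u =ᶠ[𝓝 x] pb (fun y => lg e p (u y)) om := by
      filter_upwards [lt_nhds hu h1] with y hy using bumpVal_lt hy
    refine ContDiffAt.congr_of_eventuallyEq ?_ h2
    exact contDiffAt_pb (n := ∞) (sm_lg F hB hu h1).contDiffAt h.sm.contDiffAt (by simp)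
  · have h2 : u x ∉ ef e p '' K := by
      rintro ⟨z, hz, hzx⟩
      apply h1
      rw [← hzx, dist_ef hB (mem_ball_zero_iff.1 (h.sub hz)).le]
      exact mem_ball_zero_iff.1 (h.sub hz)
    exact contDiffAt_const.congr_of_eventuallyEq (bumpVal_near F hD hB h hu h2)

end Val

/-- **(M2)** extension of a form with compact support by zero -/
def bump (F : Facts e) {D : ℝ} (hD : 0 < D) (hB : InjGE e D) (p : M) {K : Set (Eu E)}
    {om : Eu E → Lam (Eu E)} (h : BD D K om) : Form (dM E M) :=
  Form.mk' (fun {V} _ _ _ u x => bumpVal e D p om u x)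
    (fun {V} _ _ _ {u x} hu => bumpVal_smooth F hD hB h hu)
    (by
      intro V V' _ _ _ _ _ _ u g x hu hg
      by_cases h1 : dist p (u (g x)) < D
      · rw [bumpVal_lt h1, bumpVal_lt (u := u ∘ g) h1]
        exact pb_comp (f := g) (g := fun y => lg e p (u y)) om
          (sm_lg F hB hu h1).differentiableAt hg.differentiableAt
      · rw [bumpVal_ge h1, bumpVal_ge (u := u ∘ g) h1, map_zero])
    (by
      intro V _ _ _ u v x hu huv
      have hx : u x = v x := huv.self_of_nhds
      by_cases h1 : dist p (u x) < D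
      · rw [bumpVal_lt h1, bumpVal_lt (u := v) (by rw [← hx]; exact h1)]
        refine pb_congr _ ?_
        filter_upwards [huv] with y hy
        rw [hy]
      · rw [bumpVal_ge h1, bumpVal_ge (u := v) (by rw [← hx]; exact h1)])

section Bump

variable (F : Facts e) {D : ℝ} (hD : 0 < D) (hB : InjGE e D) {p : M} {K : Set (Eu E)}
    {om : Eu E → Lam (Eu E)} (h : BD D K om)
variable {V : Type} [NormedAddCommGroup V] [NormedSpace ℝ V] [FiniteDimensional ℝ V]

theorem bump_val {u : V → M} {x : V} (hu : (dM E M).At u x) :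
    (bump F hD hB p h).val u x = bumpVal e D p om u x := Form.mk'_val (D := dM E M) hu

/-- the bump form in the logarithmic chart -/
theorem bump_lt {u : V → M} {x : V} (hu : (dM E M).At u x) (hx : dist p (u x) < D) :
    (bump F hD hB p h).val u x = pb (fun y => lg e p (u y)) om x := by
  rw [bump_val F hD hB h hu, bumpVal_lt hx]

/-- the bump form vanishes near the points outside of the support -/
theorem bump_near {u : V → M} {x : V} (hu : (dM E M).At u x) (hx : u x ∉ ef e p '' K) :
    (bump F hD hB p h).val u =ᶠ[𝓝 x] fun _ => 0 := by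
  filter_upwards [bumpVal_near F hD hB h hu hx, (dM E M).open' hu] with y h1 h2
  rw [bump_val F hD hB h h2, h1]

theorem bump_out {u : V → M} {x : V} (hx : u x ∉ ef e p '' K) :
    (bump F hD hB p h).val u x = 0 := by
  by_cases hu : (dM E M).At u x
  · exact (bump_near F hD hB h hu hx).self_of_nhds
  · exact Form.junk _ hu

/-- the bump form in the exponential chart -/
theorem bump_ef {x : Eu E} (hx : ‖x‖ < D) : (bump F hD hB p h).val (ef e p) x = om x := by
  rw [bump_lt F hD hB h (at_ef F p x) (by rw [dist_ef hB hx.le]; exact hx)]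
  have h1 : (fun y => lg e p (ef e p y)) =ᶠ[𝓝 x] fun y => y := by
    filter_upwards [Metric.isOpen_ball.mem_nhds (mem_ball_zero_iff.2 hx)] with y hy
    exact lg_ef F hB (mem_ball_zero_iff.1 hy)
  rw [pb_congr om h1, pb_id]

/-- the exterior derivative of a bump form -/
theorem bump_d : (bump F hD hB p h).d = bump F hD hB p h.extd := by
  refine Form.ext_val fun V _ _ _ u x hu => ?_
  rw [Form.d_val _ hu, bump_val F hD hB h.extd hu]
  by_cases h1 : dist p (u x) < D
  · have h2 : (bump F hD hB p h).val u =ᶠ[𝓝 x] pb (fun y => lg e p (u y)) om := by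
      filter_upwards [lt_nhds hu h1, (dM E M).open' hu] with y k1 k2
      exact bump_lt F hD hB h k2 k1
    rw [bumpVal_lt h1, extd_congr h2]
    exact extd_pb ((sm_lg F hB hu h1).contDiffAt.of_le Fm.two_le_infty)
      (h.sm.differentiable (by simp) _)
  · have h2 : u x ∉ ef e p '' K := by
      rintro ⟨z, hz, hzx⟩
      apply h1
      rw [← hzx, dist_ef hB (mem_ball_zero_iff.1 (h.sub hz)).le]
      exact mem_ball_zero_iff.1 (h.sub hz)
    rw [bumpVal_ge h1, extd_congr (bump_near F hD hB h hu h2), extd_const]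

/-- bump forms of closed forms are closed -/
theorem bump_closed (h0 : ∀ x, extd om x = 0) : (bump F hD hB p h).d = 0 := by
  rw [bump_d]
  refine Form.ext_val fun V _ _ _ u x hu => ?_
  rw [bump_val F hD hB h.extd hu, Form.zero_val]
  by_cases h1 : dist p (u x) < D
  · rw [bumpVal_lt h1, pb, h0, map_zero]
  · exact bumpVal_ge h1

/-- the degree of a bump form -/
theorem isDeg_bump {k : ℕ} (hk : ∀ x, WA.prt k (om x) = om x) :
    Form.IsDeg k (bump F hD hB p h) := by
  refine Form.ext_val fun V _ _ _ u x hu => ?_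
  change WA.prt k ((bump F hD hB p h).val u x) = _
  rw [bump_val F hD hB h hu]
  by_cases h1 : dist p (u x) < D
  · rw [bumpVal_lt h1, pb, WA.prt_pull, hk]
  · rw [bumpVal_ge h1, map_zero]

end Bump

end

end Vale.Agent.P231.S3E
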