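import Vale.Agent.P231.S3E.NT
import Vale.Agent.P231.S3F.Num
import Vale.Agent.P231.S3F.Coh7
import Vale.Agent.P231.H230.Q1
import Vale.Agent.P231.H584.Ef
import Vale.Agent.P231.L3.Inst7b
import Vale.Agent.P231.S3E479.E7

/-!
# P231, stage 3, S3-INT: the number `n` (number theory end of `hZ`)
-/

set_option maxSynthPendingDepth 3
set_option linter.unusedSectionVars false
set_option linter.unusedVariables false

open Bundle Manifold Set Filter Module MeasureTheory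
open scoped ContDiff Manifold Topology ENNReal Real

namespace Vale.Agent.P231.S3E

noncomputable section

open Vale.Agent.P234 Vale.Agent.P231 Vale.Agent.P231.Fm Vale.Agent.P231.W Vale.Agent.P231.WR
  Vale.Agent.P231.H766 Vale.Agent.P231.WG Vale.Agent.P231.S2II Vale.Agent.P231.WQ
  Vale.Agent.P231.L3

/-- the arithmetic -/
theorem hZ_real {κ a μ I0 IM ε k : ℝ} (hκ : 0 < κ) (ha : a ≠ 0) (hI0 : |I0| = κ ^ 4)
    (hIM : |IM| = κ ^ 2) (hε : ε ^ 2 = 1) (hk : k ^ 2 = 4 * κ ^ 2) {E d A n m : ℤ}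
    (hE : (6 / a ^ 2 - 2 * μ ^ 2 / a ^ 3) * I0 = E) (hd : ε * k * μ / a ^ 2 * I0 = d * IM)
    (hA : 2 * μ / κ = A) (hn : a / κ ^ 2 = n + μ / κ * m) :
    ∃ (al : ℝ) (n A m P : ℤ), a = al * κ ^ 2 ∧ μ = A * κ / 2 ∧
        |al| * n = 2 ∧ al + A * m / 2 = P := by
  set al : ℝ := a / κ ^ 2 with hal
  have hκ0 : κ ≠ 0 := hκ.ne'
  have h1 : a = al * κ ^ 2 := by rw [hal]; field_simp
  have h2 : μ = A * κ / 2 := by rw [← hA]; field_simp
  have hal0 : al ≠ 0 := div_ne_zero ha (pow_ne_zero 2 hκ0)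
  -- `2 α` is an integer
  have h3 : al = n + A * m / 2 := by
    rw [hn, ← hA]
    ring
  have h4 : al = -((-(2 * n + A * m) : ℤ) : ℝ) / 2 := by
    rw [h3]
    push_cast
    ring
  set ν : ℤ := -(2 * n + A * m) with hν
  have hν0 : (ν : ℝ) ≠ 0 := fun h => hal0 (by rw [h4, h]; simp)
  -- signs
  obtain ⟨s, hs, hI⟩ : ∃ s : ℤ, s ^ 2 = 1 ∧ I0 = s * κ ^ 4 := by
    rcases (abs_eq (by positivity)).1 hI0 with h | h
    · exact ⟨1, by norm_num, by rw [h]; simp⟩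
    · exact ⟨-1, by norm_num, by rw [h]; simp⟩
  obtain ⟨t, ht, hI'⟩ : ∃ t : ℤ, t ^ 2 = 1 ∧ IM = t * κ ^ 2 := by
    rcases (abs_eq (by positivity)).1 hIM with h | h
    · exact ⟨1, by norm_num, by rw [h]; simp⟩
    · exact ⟨-1, by norm_num, by rw [h]; simp⟩
  obtain ⟨w, hw, hkw⟩ : ∃ w : ℤ, w ^ 2 = 1 ∧ ε * k = w * (2 * κ) := by
    have h5 : (ε * k) ^ 2 = (2 * κ) ^ 2 := by rw [mul_pow, hε, hk]; ring
    rcases sq_eq_sq_iff_eq_or_eq_neg.1 h5 with h | h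
    · exact ⟨1, by norm_num, by rw [h]; simp⟩
    · exact ⟨-1, by norm_num, by rw [h]; simp⟩
  have hsr : (s : ℝ) ^ 2 = 1 := by exact_mod_cast hs
  have htr : (t : ℝ) ^ 2 = 1 := by exact_mod_cast ht
  have hwr : (w : ℝ) ^ 2 = 1 := by exact_mod_cast hw
  -- the two identities
  have hE' : (s : ℝ) * (6 * al - A ^ 2 / 2) = E * al ^ 3 := by
    rw [hI, h1, h2] at hE
    rw [← hE]
    field_simp
  have hd' : (w : ℝ) * s * A = d * t * al ^ 2 := by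
    rw [hkw, hI, hI', h1, h2] at hd
    field_simp at hd
    linarith
  have hA2 : (A : ℝ) ^ 2 = d ^ 2 * al ^ 4 := by
    have h5 : ((w : ℝ) * s * A) ^ 2 = (d * t * al ^ 2) ^ 2 := by rw [hd']
    calc (A : ℝ) ^ 2 = (w : ℝ) ^ 2 * (s : ℝ) ^ 2 * (A : ℝ) ^ 2 := by rw [hwr, hsr]; ring
      _ = ((w : ℝ) * s * A) ^ 2 := by ring
      _ = (d * t * al ^ 2) ^ 2 := h5
      _ = (t : ℝ) ^ 2 * (d ^ 2 * al ^ 4) := by ring
      _ = _ := by rw [htr]; ring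
  have hkey : ((4 * (s * E) - ν * d ^ 2) * ν ^ 2 : ℝ) = 96 := by
    have h6 : (ν : ℝ) = -2 * al := by rw [h4]; ring
    have h7 : al * ((4 * (s * E) - ν * d ^ 2) * ν ^ 2) = al * (96 : ℝ) := by
      rw [h6]
      have h8 : (s : ℝ) * (E * al ^ 3) = 6 * al - A ^ 2 / 2 := by
        rw [← hE', ← mul_assoc, ← pow_two, hsr, one_mul]
      have h9 : (s : ℝ) * (E * al ^ 3) = 6 * al - d ^ 2 * al ^ 4 / 2 := by rw [h8, hA2]
      linear_combination 16 * h9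
    exact mul_left_cancel₀ hal0 h7
  have hkey' : (4 * (s * E) - ν * d ^ 2) * ν ^ 2 = 96 := by exact_mod_cast hkey
  obtain ⟨N, hN⟩ := S3F.exists_N (al := al) (n := ν) (E := s * E) (d := d) h4 hkey'
  refine ⟨al, N, A, -m, n, h1, h2, hN, ?_⟩
  rw [h3]
  push_cast
  ring

variable {E : Type*} [NormedAddCommGroup E] [NormedSpace ℝ E]
  {M : Type*} [MetricSpace M] [ChartedSpace E M]
  [RiemannianBundle (fun x : M => TangentSpace 𝓘(ℝ, E) x)]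
  {e : ∀ x : M, TangentSpace 𝓘(ℝ, E) x → M}
  [FiniteDimensional ℝ E] [IsManifold 𝓘(ℝ, E) ∞ M]
  [IsContMDiffRiemannianBundle 𝓘(ℝ, E) ∞ E (fun x : M => TangentSpace 𝓘(ℝ, E) x)]
  [CompactSpace M] [ConnectedSpace M] [IsRiemannianManifold 𝓘(ℝ, E) M]
  (F : Facts e) {D : ℝ} (hD : 0 < D) (hB : InjGE e D) (hdiam : ∀ p q : M, dist p q ≤ D)
  [MeasurableSpace M] [BorelSpace M]

section gen

variable {m n : ℕ} (hl : ∀ x y : M, dist x y = D → finrank ℝ (H775.Pl e D x y) = 2 * m + 2)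
  {p : M}
  {Pi : TangentSpace 𝓘(ℝ, E) p → TangentSpace 𝓘(ℝ, E) p →L[ℝ] TangentSpace 𝓘(ℝ, E) p}
  {o : TangentSpace 𝓘(ℝ, E) p → Fm.Lam (TangentSpace 𝓘(ℝ, E) p)}
  {ρ : TangentSpace 𝓘(ℝ, E) p → ℝ} {r₀ : ℝ}
  (hJ : FE.LineP e D p m Pi o) (hρ : WE.Rho e D p ρ r₀)

/-- the integral over `M` of the top power of `F` -/
theorem IM_FF (a : ℝ) {k : ℕ} (b : Basis (Fin k) ℝ (Eu E)) {r : Eu E → ℝ} {K : Set (Eu E)}
    (hr : Q.Cut r K) :
    ∫ x in Metric.ball (0 : Eu E) D,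
      evalForm (((FE.FF F hD hB hdiam hl hJ hρ a) ^ (n + 1)).val (ef e p) x) b =
      Q.qv volume b r (FE.PsiE m a p Pi o) n := by
  have hf := WQ.cut_rho (E := E) hρ
  have hK := WQ.closedBall_sub (E := E) hρ
  have hA := FE.ang_PsiE (p := p) hJ.os a
  have hpl : ∀ x : Eu E, (dM E M).At (ef e p) x := fun x => WQ.at_ef F p x
  have h1 : ∀ x ∈ Metric.ball (0 : Eu E) D,
      evalForm (((FE.FF F hD hB hdiam hl hJ hρ a) ^ (n + 1)).val (ef e p) x) b =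
      evalForm (extd (fun z => ρ (WQ.frI p z) • FE.PsiE m a p Pi o z) x ^ (n + 1)) b := by
    intro x hx
    have h2 : ∀ j : ℕ, ((FE.FF F hD hB hdiam hl hJ hρ a) ^ j).val (ef e p) x =
        ((FE.FF F hD hB hdiam hl hJ hρ a).val (ef e p) x) ^ j := by
      intro j
      induction j with
      | zero => rw [pow_zero, pow_zero, Form.one_val (hpl x)]
      | succ j ih => rw [pow_succ, pow_succ, Form.mul_val, ih]
    rw [h2, FE.FF_ef F hD hB hdiam hl hJ hρ a hx]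
  rw [setIntegral_congr_fun measurableSet_ball h1,
    setIntegral_eq_integral_of_forall_compl_eq_zero fun x hx => by
      rw [hA.eval_top hf b n x, hf.dR_out fun h => hx (hK h), zero_mul, Q.evalForm_zero, mul_zero],
    hA.base hf hr volume b n]
  rfl

end gen

section seven

variable (hl : ∀ x y : M, dist x y = D → finrank ℝ (H775.Pl e D x y) = 2 * 3 + 2)
  (hN : finrank ℝ E = 15 + 1) (hE : 15 + 1 = (2 * 3 + 2) * (1 + 1))
  {p : M}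
  {Pi : TangentSpace 𝓘(ℝ, E) p → TangentSpace 𝓘(ℝ, E) p →L[ℝ] TangentSpace 𝓘(ℝ, E) p}
  {o : TangentSpace 𝓘(ℝ, E) p → Fm.Lam (TangentSpace 𝓘(ℝ, E) p)}
  {ρ : TangentSpace 𝓘(ℝ, E) p → ℝ} {r₀ : ℝ}
  (hJ : FE.LineP e D p 3 Pi o) (hρ : WE.Rho e D p ρ r₀) {a : ℝ} (ha : a ≠ 0)
  {Lm : Pr e D × ℝ → Pr e D} {Y : Pr e D → E} {ε₀ : ℝ} (hL : PushL F hD hB hdiam Lm Y ε₀)
  (g : Pr e D × ℝ → M) (hg : ((dPr e D).prod (Dif.lin ℝ)).Map (dM E M) g)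
  (hg0 : ∀ b, g (b, 0) = foot b.v) (hg1 : ∀ b t, g (Lm (b, t), 1) = g (b, 1))
  {R : ℝ} (X : Fr e p R) (v0 : UT E M) {r : Eu E → ℝ} {K : Set (Eu E)} (hr : Q.Cut r K)
  (hDR : D < R) (b : OrthonormalBasis (Fin (15 + 1)) ℝ (Eu E))

/-- `I (B₀ Fx² Fb) = κ⁴` -/
theorem inst_I0 (hrad : ∀ y z : Eu E, (inner ℝ y z : ℝ) = 0 → fderiv ℝ r y z = 0) :
    (inst F hD hB hdiam hl hN hE hJ hρ ha hL g hg hg0 hg1 X v0 hr hDR b).I
      ((inst F hD hB hdiam hl hN hE hJ hρ ha hL g hg hg0 hg1 X v0 hr hDR b).B0 *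
        ((inst F hD hB hdiam hl hN hE hJ hρ ha hL g hg hg0 hg1 X v0 hr hDR b).Fx ^ 2 *
          (inst F hD hB hdiam hl hN hE hJ hρ ha hL g hg hg0 hg1 X v0 hr hDR b).Fb)) =
      FE.kap 3 a ^ 4 := by
  have h0 : finrank ℝ E = (2 * 3 + 2) * (1 + 1) := hN.trans hE
  have hs : ∀ v : UT E M, ∃ q : Pr e D, q.v = v := fun v => by
    obtain ⟨W, hW⟩ := exists_isLF F hD hB hdiam (l := 2 * 3 + 1) hl v
    exact ⟨S2II.Fr.p0 (⟨(v, W), hW⟩ : S2II.Fr e D (2 * 3 + 1)), rfl⟩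
  have h1 := Q2.II_eq X v0 F hD hB hdiam hs (FE.FF_d F hD hB hdiam hl hJ hρ a)
    (FE.FF_deg F hD hB hdiam hl hJ hρ a) ⟨3 + 1, by ring⟩ (by omega) (n := 1 + 1) (by omega) h0
    b.toBasis hr hrad hDR (FE.ang_PsiE hJ.os a) (WQ.cut_rho hρ) (WQ.closedBall_sub hρ)
    (fun x hx => FE.FF_ef F hD hB hdiam hl hJ hρ a hx)
    (fun y hy => FE.B0_cc F hD hB hdiam hl hJ hρ a (hD.trans hDR) X v0 hy)
  have h2 := H230.q_eq (p := p) hJ.os a (by norm_num) h0 b hr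
  have h3 : (inst F hD hB hdiam hl hN hE hJ hρ ha hL g hg hg0 hg1 X v0 hr hDR b).I
      ((inst F hD hB hdiam hl hN hE hJ hρ ha hL g hg hg0 hg1 X v0 hr hDR b).B0 *
        ((inst F hD hB hdiam hl hN hE hJ hρ ha hL g hg hg0 hg1 X v0 hr hDR b).Fx ^ 2 *
          (inst F hD hB hdiam hl hN hE hJ hρ ha hL g hg hg0 hg1 X v0 hr hDR b).Fb)) =
      Q.qv volume b.toBasis r (FE.PsiE 3 a p Pi o) 1 *
        Q.qv volume b.toBasis r (FE.PsiE 3 a p Pi o) 1 := by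
    rw [← pow_one (inst F hD hB hdiam hl hN hE hJ hρ ha hL g hg hg0 hg1 X v0 hr hDR b).Fb]
    exact h1
  have h4 : Q.qv volume b.toBasis r (FE.PsiE 3 a p Pi o) 1 ^ 2 = (FE.kap 3 a ^ 2) ^ 2 := by
    rw [← sq_abs, b.coe_toBasis, h2]
  rw [h3, ← pow_two, h4]
  ring

/-- **the end of `hZ`**: from the integrality statements `hM`, `hPm` (`TH.ints_inst`) and the
integral `hf` -/
theorem hZ_of (hrad : ∀ y z : Eu E, (inner ℝ y z : ℝ) = 0 → fderiv ℝ r y z = 0)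
    (hP : (inst F hD hB hdiam hl hN hE hJ hρ one_ne_zero hL g hg hg0 hg1 X v0 hr hDR b).PP)
    {ℓ : Form (dPr e D)} (hℓ : b1P F hD hB hdiam hL hg
      (FE.FF F hD hB hdiam hl hJ hρ 1) = (-1 : ℝ) • b0P F hD hB hdiam
      (FE.FF F hD hB hdiam hl hJ hρ 1) + ℓ.d)
    {a' μ : ℝ} {σ : Form (dPr e D)} (hσ : Basic Lm hL.flow.map σ)
    (hrel : b1P F hD hB hdiam hL hg (FE.FF F hD hB hdiam hl hJ hρ 1) ^ 2 = a' • eP e D ^ 6 +
        μ • (eP e D ^ 2 * GsP F hD hB hdiam hg (FE.FF F hD hB hdiam hl hJ hρ 1)) + σ.d)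
    (ha' : a' ≠ 0)
    (hf : ∃ d : ℤ, (inst F hD hB hdiam hl hN hE hJ hρ one_ne_zero hL g hg hg0 hg1 X v0 hr hDR b).I
      ((inst F hD hB hdiam hl hN hE hJ hρ one_ne_zero hL g hg hg0 hg1 X v0 hr hDR b).P
        (((2 * D)⁻¹ • (inst F hD hB hdiam hl hN hE hJ hρ one_ne_zero hL g hg hg0 hg1 X v0 hr
          hDR b).αB) *
        ((inst F hD hB hdiam hl hN hE hJ hρ one_ne_zero hL g hg hg0 hg1 X v0 hr hDR b).e ^ 10 *
        (inst F hD hB hdiam hl hN hE hJ hρ one_ne_zero hL g hg hg0 hg1 X v0 hr hDR b).G1 ^ 2))) =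
      d * ∫ x in Metric.ball (0 : Eu E) D,
        evalForm (((inst F hD hB hdiam hl hN hE hJ hρ one_ne_zero hL g hg hg0 hg1 X v0 hr
          hDR b).F ^ 2).val (ef e p) x) b.toBasis)
    (hM : ∃ A : ℤ, 2 * μ / FE.kap 3 1 = A)
    (hPm : ∃ n m : ℤ, a' / FE.kap 3 1 ^ 2 = n + μ / FE.kap 3 1 * m) :
    ∃ (al : ℝ) (n A m P : ℤ), a' = al * FE.kap 3 1 ^ 2 ∧ μ = A * FE.kap 3 1 / 2 ∧
        |al| * n = 2 ∧ al + A * m / 2 = P := by
  have hκ : 0 < FE.kap 3 1 := FE.kap_pos 3 one_ne_zero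
  have hk := S3F.inst_k F hD hB hdiam hl hN hE hJ hρ one_ne_zero hL g hg hg0 hg1 X v0 hr hDR b
  obtain ⟨h1, h2⟩ := H584.Sys.ef_val
    (S := inst F hD hB hdiam hl hN hE hJ hρ one_ne_zero hL g hg hg0 hg1 X v0 hr hDR b)
    (S2II.isDeg_FF F hD hB hdiam hl hJ hρ 1) hP
    (inst_α F hD hB hdiam hl hN hE hJ hρ one_ne_zero hL g hg hg0 hg1 X v0 hr hDR b)
    (S3F.inst_vol_ne F hD hB hdiam hl hN hE hJ hρ one_ne_zero hL g hg hg0 hg1 X v0 hr hDR b)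
    ha' (ρ := σ) hσ hrel (ε := -1) (by norm_num) (l := ℓ) hℓ
  have h3 := inst_I0 F hD hB hdiam hl hN hE hJ hρ one_ne_zero hL g hg hg0 hg1 X v0 hr hDR b hrad
  obtain ⟨E', hE'⟩ := inst_E_seven F hD hB hdiam hl hN hE hJ hρ one_ne_zero hL g hg hg0 hg1 X v0
    hr hDR b
  obtain ⟨d, hd⟩ := hf
  obtain ⟨A, hA⟩ := hM
  obtain ⟨n, m, hn⟩ := hPm
  have h4 := IM_FF F hD hB hdiam hl hJ hρ 1 (n := 1) b.toBasis hr
  have h5 := H230.q_eq (p := p) hJ.os 1 (by norm_num) (hN.trans hE) b hr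
  refine hZ_real (I0 := FE.kap 3 1 ^ 4) (IM := ∫ x in Metric.ball (0 : Eu E) D,
        evalForm (((inst F hD hB hdiam hl hN hE hJ hρ one_ne_zero hL g hg hg0 hg1 X v0 hr
          hDR b).F ^ 2).val (ef e p) x) b.toBasis) (ε := -1) (k := 2 * FE.kap 3 1) (E := E')
    (d := d) (A := A) (n := n) (m := m) hκ ha' (abs_of_pos (by positivity)) ?_ (by norm_num)
    (by ring) ?_ ?_ hA hn
  · have h6 : (∫ x in Metric.ball (0 : Eu E) D,
        evalForm (((inst F hD hB hdiam hl hN hE hJ hρ one_ne_zero hL g hg hg0 hg1 X v0 hr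
          hDR b).F ^ 2).val (ef e p) x) b.toBasis) =
        Q.qv volume b.toBasis r (FE.PsiE 3 1 p Pi o) 1 := h4
    rw [h6, b.coe_toBasis, h5]
  · rw [← hE', h1, h3]
  · rw [← hd, h2, h3, hk]

end seven

end

end Vale.Agent.P231.S3E
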