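import Vale.Agent.P231.S3E.Psi
import Vale.Agent.P231.S3E.Surj
import Vale.Agent.P231.S3E.A1
import Vale.Agent.P231.S3E.Alg
import Vale.Agent.P231.S3E479.Equi

/-!
# P231, stage 3, item (f), part (PINST): the family of pairs as the data of the generic matrix
-/

set_option maxSynthPendingDepth 3
set_option linter.unusedSectionVars false
set_option linter.unusedVariables false

open Bundle Manifold Set Filter Module Topology MeasureTheory Metric
open scoped ContDiff Manifold Topology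

namespace Vale.Agent.P231.S3E

noncomputable section

open Vale.Agent.P234 Vale.Agent.P231 Vale.Agent.P231.Fm Vale.Agent.P231.W Vale.Agent.P231.H775
open Vale.Agent.P231.WR Vale.Agent.P231.S2II

variable {E : Type*} [NormedAddCommGroup E] [NormedSpace ℝ E]
  {M : Type*} [MetricSpace M] [ChartedSpace E M]
  [RiemannianBundle (fun x : M => TangentSpace 𝓘(ℝ, E) x)]
  {e : ∀ x : M, TangentSpace 𝓘(ℝ, E) x → M}
  [FiniteDimensional ℝ E] [IsManifold 𝓘(ℝ, E) ∞ M]
  [IsContMDiffRiemannianBundle 𝓘(ℝ, E) ∞ E (fun x : M => TangentSpace 𝓘(ℝ, E) x)]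
  [CompactSpace M] [ConnectedSpace M] [IsRiemannianManifold 𝓘(ℝ, E) M]
  (F : Facts e) {D : ℝ} (hD : 0 < D) (hB : InjGE e D) (hdiam : ∀ p q : M, dist p q ≤ D)
  {l : ℕ} [NeZero l] (hP : ∀ x y : M, dist x y = D → finrank ℝ (H775.Pl e D x y) = l + 1)
  {p : M} {R : ℝ} (X : WG.Fr e p R) (v0 : UT E M)

/-- plots are continuous -/
theorem cont_of_at {V : Type} [NormedAddCommGroup V] [NormedSpace ℝ V] [FiniteDimensional ℝ V]
    {u : V → M} {x : V} (h : (dM E M).At u x) : ContinuousAt u x := by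
  have h1 : ∀ᶠ y in 𝓝 x, ContMDiffAt 𝓘(ℝ, V) 𝓘(ℝ, E) ∞ u y := h
  exact h1.self_of_nhds.continuousAt

variable {e0 : Eu E}

include hP in
/-- **the data of the family of pairs** -/
theorem pdata_Qh (he : ‖e0‖ = 1) (hE : 2 ≤ finrank ℝ E) (hDR : D < R)
    {T : Eu E × Yo e0 → S2II.Fr e D l} (hTf : ∀ z, (dFr e D l).At T z)
    (hTv : ∀ z : Eu E × Yo e0, ‖z.1‖ ≤ D → ‖z.2‖ ≤ 1 → (T z).v = Qc X v0 e0 z)
    {g1 : Pr e D → M} (hg1 : (dPr e D).Map (dM E M) g1) {K : ℕ} {Hc : UT E M → (Fin K → ℂ)}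
    (hH : EqMap F D K Hc) {lg : M → Eu E}
    (hlg : ((dM E M).on {x | dist p x < D}).Map (Dif.lin (Eu E)) lg)
    (lgef : ∀ x ∈ ball (0 : Eu E) D, lg (ef e p x) = x ∧ dist p (ef e p x) < D)
    (eflg : ∀ x, dist p x < D → ef e p (lg x) = x ∧ ‖lg x‖ < D) :
    PData p D lg (ef e p) (fun q : (Eu E × Yo e0) × Eul l => g1 (Qh F hD hB hdiam T q))
      (fun q => Hc (Qh F hD hB hdiam T q).v)
      (closedBall (0 : Eu E) D ×ˢ closedBall (0 : Yo e0) 1) where
  hD := hD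
  efc := fun x hx => (cont_of_at (WQ.at_ef F p x)).continuousWithinAt
  lgef := lgef
  eflg := eflg
  Gc := fun q hq => (cont_of_at (hg1 (at_Qh F hD hB hdiam hTf hq))).continuousWithinAt
  Gs := by
    intro q hq
    have h1 : (dM E M).At (g1 ∘ Qh F hD hB hdiam T) q := hg1 (at_Qh F hD hB hdiam hTf hq.1)
    have h2 : ∀ᶠ y in 𝓝 q, (g1 ∘ Qh F hD hB hdiam T) y ∈ {x : M | dist p x < D} := by
      have h3 : ContinuousAt (g1 ∘ Qh F hD hB hdiam T) q := cont_of_at h1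
      exact h3.eventually ((isOpen_lt (continuous_const.dist continuous_id)
        continuous_const).mem_nhds hq.2)
    have h3 : Sm (lg ∘ (g1 ∘ Qh F hD hB hdiam T)) q := hlg ⟨h1, h2⟩
    exact h3.contDiffAt.contDiffWithinAt
  Gh := fun z y hy c hc => by
    rw [Qh_smul F hD hB hdiam (q := (z, y)) hy hc]
  Hs := by
    intro q hq
    have h1 : Sm (Hc ∘ (Pr.v ∘ Qh F hD hB hdiam T)) q :=
      hH.smooth (map_v (at_Qh F hD hB hdiam hTf hq))
    exact h1.contDiffAt.contDiffWithinAt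
  H0 := fun q _ => hH.ne _
  Hh := fun z y hy c hc => by
    rw [Qh_smul F hD hB hdiam (q := (z, y)) hy hc]
  cpt := (isCompact_closedBall _ _).prod (isCompact_closedBall _ _)
  sur := fun q hq => by
    have hV : 2 ≤ finrank ℝ (Eu E) := by
      rw [finrank_euclideanSpace, Fintype.card_fin]
      exact hE
    have hth : ∀ η : Eu E, ‖η‖ = 1 → ∃ y : Yo e0, ‖y‖ ≤ 1 ∧ TW.th e0 y = η := by
      intro η hη
      have h1 : η ∈ TW.th e0 '' closedBall 0 1 := by
        rw [th_image he hV]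
        exact mem_sphere_zero_iff_norm.2 hη
      obtain ⟨y, hy, h2⟩ := h1
      exact ⟨y, mem_closedBall_zero_iff.1 hy, h2⟩
    obtain ⟨z, ζ, hz1, hz2, hζ, h1⟩ := Qh_surj F hD hB hdiam hP X v0 hth hDR hTv
      (Qh F hD hB hdiam T q)
    refine ⟨z, ⟨mem_closedBall_zero_iff.2 hz1, mem_closedBall_zero_iff.2 hz2⟩, ζ, ?_, ?_, ?_⟩
    · rw [← norm_ne_zero_iff, hζ]
      exact one_ne_zero
    · rw [h1]
    · rw [h1]

/-- **the image of a small ball is open in the plots** -/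
theorem opn_ef {lg : M → Eu E}
    (hlg : ((dM E M).on {x | dist p x < D}).Map (Dif.lin (Eu E)) lg)
    (lgef : ∀ x ∈ ball (0 : Eu E) D, lg (ef e p x) = x ∧ dist p (ef e p x) < D)
    (eflg : ∀ x, dist p x < D → ef e p (lg x) = x ∧ ‖lg x‖ < D) {q0 : Eu E} {δ : ℝ}
    (hδ : ball q0 δ ⊆ ball 0 D) : Opn (dM E M) (ef e p '' ball q0 δ) := by
  refine ⟨fun V _ _ _ u x hu hx => ?_⟩
  obtain ⟨ξ, hξ, hξu⟩ := hx
  obtain ⟨h1, h2⟩ := lgef ξ (hδ hξ)
  rw [hξu] at h1 h2
  have h3 : ∀ᶠ y in 𝓝 x, dist p (u y) < D :=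
    (cont_of_at hu).eventually ((isOpen_lt (continuous_const.dist continuous_id)
        continuous_const).mem_nhds h2)
  have h4 : Sm (lg ∘ u) x := hlg ⟨hu, h3⟩
  have h5 : ∀ᶠ y in 𝓝 x, (lg ∘ u) y ∈ ball q0 δ :=
    h4.continuousAt.eventually (isOpen_ball.mem_nhds (by
      change lg (u x) ∈ ball q0 δ
      rw [h1]
      exact hξ))
  filter_upwards [h3, h5] with y hy1 hy2
  exact ⟨lg (u y), hy2, (eflg (u y) hy1).1⟩

/-- the dimension -/
theorem finrank_Qh (he : ‖e0‖ = 1) {n N : ℕ} (hE : finrank ℝ E = N + 1)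
    (hln : l + N = 2 * n + 2) : finrank ℝ ((Eu E × Yo e0) × Eul l) =
      finrank ℝ (Eu E) + 2 * (n + 1) := by
  have h1 : finrank ℝ (Eu E) = N + 1 := by
    rw [finrank_euclideanSpace, Fintype.card_fin, hE]
  have h2 := TW.finrank_Y he
  have h3 : finrank ℝ (Eul l) = l := by
    rw [finrank_euclideanSpace, Fintype.card_fin]
  rw [finrank_prod, finrank_prod, h3, h1]
  have h4 : finrank ℝ (Yo e0) = N := by
    have h5 : finrank ℝ (Submodule.span ℝ {e0})ᗮ = N := by omega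
    exact h5
  rw [h4]
  omega

end

end Vale.Agent.P231.S3E
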