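import Vale.Agent.P231.S3E479.EI

/-!
# P231, stage 3, block (f): partial homogeneous maps to a product, the definition
-/

set_option linter.unusedVariables false
set_option linter.unusedSectionVars false

open Module MeasureTheory Set Metric Filter
open scoped ContDiff Topology

namespace Vale.Agent.P231.S3E

open Vale.Agent.P231.Fm

variable {V : Type*} [NormedAddCommGroup V] [NormedSpace ℝ V]
variable {F : Type*} [NormedAddCommGroup F] [InnerProductSpace ℝ F]
variable {V1 : Type*} [NormedAddCommGroup V1] [NormedSpace ℝ V1]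
variable {W : Type*} [NormedAddCommGroup W] [InnerProductSpace ℝ W]

/-- a partial homogeneous map to `V1 × W` -/
structure PMap (B : Set V) (U : Set (V × F)) (B1 : Set V1) (f : V × F → V1) (P : V × F → W) :
    Prop where
  opn : IsOpen U
  ne0 : ∀ q ∈ U, q.2 ≠ 0
  cone : ∀ q ∈ U, ∀ c : ℝ, 0 < c → (q.1, c • q.2) ∈ U
  smf : ContDiffOn ℝ ∞ f U
  smP : ContDiffOn ℝ ∞ P U
  homf : ∀ q ∈ U, ∀ c : ℝ, 0 < c → f (q.1, c • q.2) = f q
  homP : ∀ q ∈ U, ∀ c : ℝ, 0 < c → rad (P (q.1, c • q.2)) = rad (P q)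
  opn1 : IsOpen B1
  ne : ∀ q ∈ U, f q ∈ B1 → P q ≠ 0
  cpt : ∀ K ⊆ B1, IsCompact K → ∀ S : Set (V × F), IsCompact S →
    (∀ q ∈ S, q.1 ∈ closure B ∧ q.2 ≠ 0) → IsCompact {q | q ∈ S ∧ q ∈ U ∧ f q ∈ K}

end Vale.Agent.P231.S3E
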