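import Vale.Agent.P231.S3E.Psi
import Vale.Agent.P231.S3E.PMap0

/-!
# P231, stage 3, item (f), part (PSI) (2): the proper map of the family
-/

set_option linter.unusedSectionVars false
set_option linter.unusedVariables false

open Set Metric Module Filter
open scoped ContDiff Topology

namespace Vale.Agent.P231.S3E

variable {Z F V1 : Type} [NormedAddCommGroup Z] [NormedSpace ℝ Z] [FiniteDimensional ℝ Z]
  [NormedAddCommGroup F] [InnerProductSpace ℝ F] [FiniteDimensional ℝ F]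
  [NormedAddCommGroup V1] [NormedSpace ℝ V1] [FiniteDimensional ℝ V1]
  {M : Type*} [MetricSpace M] {K n : ℕ}
  {p : M} {D : ℝ} {lg : M → V1} {ef : V1 → M} {G : Z × F → M} {H : Z × F → Fin K → ℂ}
  {S : Set Z}

/-- **(2)** the proper map -/
theorem PData.pmap (h : PData p D lg ef G H S) {q0 : V1} {δ c0 : ℝ} {A : Fin n → Fin K → ℂ}
    (hc0 : 0 < c0) (hδ : closedBall q0 δ ⊆ ball 0 D)
    (hA : ∀ q : Z × F, q.2 ≠ 0 → G q ∈ ef '' closedBall q0 δ →
      c0 < ‖(LW n).symm (fun i => ∑ j, A i j * H q j)‖) {B : Set Z} :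
    PMap B {q : Z × F | q.2 ≠ 0 ∧ dist p (G q) < D} (ball q0 δ) (fun q => lg (G q))
      (fun q => (LW n).symm (fun i => ∑ j, A i j * H q j)) where
  opn := h.isOpen_U
  ne0 q hq := hq.1
  cone q hq c hc := by
    refine ⟨smul_ne_zero hc.ne' hq.1, ?_⟩
    have h1 := h.Gh q.1 q.2 hq.1 c hc
    change dist p (G (q.1, c • q.2)) < D
    rw [h1]
    exact hq.2
  smf := h.Gs
  smP := (h.contDiffOn_AH A).mono fun q hq => hq.1
  homf q hq c hc := congrArg lg (h.Gh q.1 q.2 hq.1 c hc)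
  homP q hq c hc := congrArg Fm.rad (h.AH_hom A q.1 hq.1 hc)
  opn1 := isOpen_ball
  ne q hq hf := by
    have h1 : G q ∈ ef '' closedBall q0 δ :=
      ⟨lg (G q), ball_subset_closedBall hf, (h.eflg _ hq.2).1⟩
    have h2 := hc0.trans (hA q hq.1 h1)
    exact norm_pos_iff.1 h2
  cpt K' hK' hKc S' hS' hne := by
    have h1 : K' ⊆ ball (0 : V1) D := hK'.trans (ball_subset_closedBall.trans hδ)
    have h2 : IsCompact (ef '' K') := hKc.image_of_continuousOn (h.efc.mono h1)
    have h3 : {q | q ∈ S' ∧ q ∈ {q : Z × F | q.2 ≠ 0 ∧ dist p (G q) < D} ∧ lg (G q) ∈ K'} =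
        S' ∩ G ⁻¹' (ef '' K') := by
      ext q
      constructor
      · rintro ⟨hq, hq2, hq3⟩
        exact ⟨hq, lg (G q), hq3, (h.eflg _ hq2.2).1⟩
      · rintro ⟨hq, x, hx, hxq⟩
        have h4 := h.lgef x (h1 hx)
        refine ⟨hq, ⟨(hne q hq).2, ?_⟩, ?_⟩
        · rw [← hxq]
          exact h4.2
        · rw [← hxq, h4.1]
          exact hx
    rw [h3]
    exact hS'.of_isClosed_subset ((h.Gc.mono fun q hq => (hne q hq).2).preimage_isClosed_of_isClosed
      hS'.isClosed h2.isClosed) inter_subset_left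

end Vale.Agent.P231.S3E
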