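import Vale.Agent.P231.S3E.FEx
import Vale.Agent.P231.S3E.NInt
import Vale.Agent.P231.Co.Top
import Vale.Agent.P231.S3E.Psi2
import Vale.Agent.P231.S3E.PInst
import Vale.Agent.P231.S3E.MBlk
import Vale.Agent.P231.S3E.IMd

/-!
# P231, stage 3, S3-INT (f): the integrality statement
-/

set_option maxSynthPendingDepth 3
set_option linter.unusedSectionVars false
set_option linter.unusedVariables false

open Bundle Manifold Set Filter Module MeasureTheory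
open scoped ContDiff Manifold Topology ENNReal Real

namespace Vale.Agent.P231.S3E

noncomputable section

open Vale.Agent.P234 Vale.Agent.P231 Vale.Agent.P231.Fm Vale.Agent.P231.W Vale.Agent.P231.WR
  Vale.Agent.P231.H766 Vale.Agent.P231.WG Vale.Agent.P231.S2II Vale.Agent.P231.WQ
  Vale.Agent.P231.L3

/-- the end of item (f), for a system of data -/
theorem f_sys {B U M : Type*} {dB : Dif B} {dU : Dif U} {dM : Dif M} {D c : ℝ}
    (S : H584.Sys dB dU dM 1 D c) (IM : Form dM →ₗ[ℝ] ℝ) (hIM : ∀ w : Form dM, IM w.d = 0)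
    (hF0 : IM (S.F ^ 2) ≠ 0)
    {n : ℕ} {wM : Form dM} (hw1 : IM wM = 1)
    (htop : (∀ Γ : Form dM, S.F ^ 2 ≠ Γ.d) → ∃ (c : ℝ) (Γ : Form dM), wM = c • S.F ^ 2 + Γ.d)
    {d : ℤ} (hd : S.I (S.P (Form.pull (fun b => S.g (b, 1)) (H584.map_at S.hg 1) wM *
      (S.αB * S.αB.d ^ n))) = (2 * D) ^ (n + 1) * d) (hwe : wM.sg = wM) :
    S.I (S.P (((2 * D)⁻¹ • S.αB) * (S.e ^ n * S.G1 ^ 2))) = d * IM (S.F ^ 2) := by
  obtain ⟨c, Γ, hc⟩ := htop fun Γ h => hF0 (by rw [h, hIM])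
  have hc1 : c * IM (S.F ^ 2) = 1 := by
    rw [hc, map_add, map_smul, hIM, add_zero, smul_eq_mul] at hw1
    exact hw1
  set Q := Form.pullA (fun b => S.g (b, 1)) (H584.map_at S.hg 1) with hQ
  have e1 : Form.pull (fun b => S.g (b, 1)) (H584.map_at S.hg 1) wM =
      c • S.G1 ^ 2 + (Form.pull (fun b => S.g (b, 1)) (H584.map_at S.hg 1) Γ).d := by
    rw [← Form.pull_d]
    change Q wM = c • (Q S.F) ^ 2 + Q Γ.d
    rw [hc, map_add, map_smul, map_pow]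
  set Γ' := Form.pull (fun b => S.g (b, 1)) (H584.map_at S.hg 1) Γ with hΓ'
  have hΓb : Basic S.φ S.hφ.map Γ' := H584.basic_pull (H584.map_at S.hg 1) S.hg1 Γ
  have hDb : Basic S.φ S.hφ.map (S.αB.d ^ n) :=
    H584.Basic.pow (H584.basic_d_contact S.hφ S.αB_flow) n
  have hcomm : ∀ w : Form dB, w.sg = w → w * (S.αB * S.αB.d ^ n) = S.αB * (S.αB.d ^ n * w) := by
    intro w hw
    rw [(H584.even_comm hw _).eq, mul_assoc]
  have hwe' : (Form.pull (fun b => S.g (b, 1)) (H584.map_at S.hg 1) wM).sg =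
      Form.pull (fun b => S.g (b, 1)) (H584.map_at S.hg 1) wM := by
    rw [← Form.pull_sg, hwe]
  rw [hcomm _ hwe', e1, mul_add, mul_add, map_add, map_add] at hd
  have e2 : S.αB.d ^ n * Γ'.d = (S.αB.d ^ n * Γ').d := by
    have h1 : (S.αB.d ^ n).d = 0 := by
      have h2 : ∀ k : ℕ, (S.αB.d ^ k).d = 0 := by
        intro k
        induction k with
        | zero => rw [pow_zero, Form.d_one]
        | succ k ih => rw [pow_succ, Form.d_mul, ih, Form.d_d, zero_mul, mul_zero, add_zero]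
      exact h2 n
    have h3 : (S.αB.d ^ n).sg = S.αB.d ^ n := by
      have h2 : ∀ k : ℕ, (S.αB.d ^ k).sg = S.αB.d ^ k := by
        intro k
        induction k with
        | zero => rw [pow_zero, Form.sg_one]
        | succ k ih => rw [pow_succ, Form.sg_mul, ih, H584.d_even S.αB_sg]
      exact h2 n
    rw [Form.d_mul, h1, h3, zero_mul, zero_add]
  rw [e2, S.IPα_d (H584.Basic.mul hDb hΓb), add_zero, mul_smul_comm, mul_smul_comm, map_smul,
    map_smul, smul_eq_mul] at hd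
  have e3 : ((2 * D)⁻¹ • S.αB) * (S.e ^ n * S.G1 ^ 2) =
      ((2 * D)⁻¹) ^ (n + 1) • (S.αB * (S.αB.d ^ n * S.G1 ^ 2)) := by
    have h1 : S.e = (2 * D)⁻¹ • S.αB.d := S.e_eq
    rw [h1, smul_pow, smul_mul_assoc, smul_mul_assoc, mul_smul_comm, smul_smul, ← pow_succ']
  have hD0 : (2 * D) ≠ 0 := by
    have := S.hD
    positivity
  rw [e3, map_smul, map_smul, smul_eq_mul]
  have h4 : S.I (S.P (S.αB * (S.αB.d ^ n * S.G1 ^ 2))) = (2 * D) ^ (n + 1) * d * IM (S.F ^ 2) := by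
    have h5 : c ≠ 0 := fun h0 => by rw [h0, zero_mul] at hc1; exact zero_ne_one hc1
    apply mul_left_cancel₀ h5
    rw [hd]
    linear_combination -((2 * D) ^ (n + 1) * d) * hc1
  rw [h4, inv_pow]
  field_simp

variable {E : Type*} [NormedAddCommGroup E] [NormedSpace ℝ E]
  {M : Type*} [MetricSpace M] [ChartedSpace E M]
  [RiemannianBundle (fun x : M => TangentSpace 𝓘(ℝ, E) x)]
  {e : ∀ x : M, TangentSpace 𝓘(ℝ, E) x → M}
  [FiniteDimensional ℝ E] [IsManifold 𝓘(ℝ, E) ∞ M]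
  [IsContMDiffRiemannianBundle 𝓘(ℝ, E) ∞ E (fun x : M => TangentSpace 𝓘(ℝ, E) x)]
  [CompactSpace M] [ConnectedSpace M] [IsRiemannianManifold 𝓘(ℝ, E) M]
  (F : Facts e) {D : ℝ} (hD : 0 < D) (hB : InjGE e D) (hdiam : ∀ p q : M, dist p q ≤ D)
  [MeasurableSpace M] [BorelSpace M]
  (hl : ∀ x y : M, dist x y = D → finrank ℝ (H775.Pl e D x y) = 2 * 3 + 2)
  (hN : finrank ℝ E = 15 + 1) (hE : 15 + 1 = (2 * 3 + 2) * (1 + 1))
  {p : M}
  {Pi : TangentSpace 𝓘(ℝ, E) p → TangentSpace 𝓘(ℝ, E) p →L[ℝ] TangentSpace 𝓘(ℝ, E) p}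
  {o : TangentSpace 𝓘(ℝ, E) p → Fm.Lam (TangentSpace 𝓘(ℝ, E) p)}
  {ρ : TangentSpace 𝓘(ℝ, E) p → ℝ} {r₀ : ℝ}
  (hJ : FE.LineP e D p 3 Pi o) (hρ : WE.Rho e D p ρ r₀) {a : ℝ} (ha : a ≠ 0)
  {Lm : Pr e D × ℝ → Pr e D} {Y : Pr e D → E} {ε₀ : ℝ} (hL : PushL F hD hB hdiam Lm Y ε₀)
  (g : Pr e D × ℝ → M) (hg : ((dPr e D).prod (Dif.lin ℝ)).Map (dM E M) g)
  (hg0 : ∀ b, g (b, 0) = foot b.v) (hg1 : ∀ b t, g (Lm (b, t), 1) = g (b, 1))
  {R : ℝ} (X : Fr e p R) (v0 : UT E M) {r : Eu E → ℝ} {K : Set (Eu E)} (hr : Q.Cut r K)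
  (hDR : D < R) (b : OrthonormalBasis (Fin (15 + 1)) ℝ (Eu E))

include F hD hB in
/-- the bump form on `M` -/
theorem exists_bumpM {k : ℕ} (hk : finrank ℝ E = k) (b : OrthonormalBasis (Fin k) ℝ (Eu E))
    {om1 : Eu E → Lam (Eu E)} {K1 : Set (Eu E)} (h1 : ContDiff ℝ ∞ om1) (h2 : IsCompact K1)
    (h3 : K1 ⊆ Metric.ball 0 D) (h4 : ∀ y ∉ K1, om1 y = 0) (h5 : ∀ y, Q.IsDeg k (om1 y)) :
    ∃ wM : Form (dM E M),
      (∀ (V : Type) [NormedAddCommGroup V] [NormedSpace ℝ V]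
        [FiniteDimensional ℝ V] (u : V → M) (x : V), (dM E M).At u x → dist p (u x) < D →
        wM.val u x = pb (fun y => lg e p (u y)) om1 x) ∧
      (∀ (V : Type) [NormedAddCommGroup V] [NormedSpace ℝ V]
        [FiniteDimensional ℝ V] (u : V → M) (x : V), (dM E M).At u x → u x ∉ ef e p '' K1 →
        wM.val u x = 0) ∧ wM.d = 0 ∧ Form.IsDeg k wM ∧
        (∫ x in Metric.ball (0 : Eu E) D, evalForm (wM.val (ef e p) x) b.toBasis) =
          TW.JJ b.toBasis om1 := by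
  have hbd : BD D K1 om1 := ⟨h1, h2, h3, h4⟩
  have hdeg : Form.IsDeg k (bump F hD hB p hbd) :=
    isDeg_bump F hD hB hbd fun x => DegC.q_iff_prt.1 (h5 x)
  have hdim : WA.DimLE (dM E M) k := L.dimLE_bridge (WF.dimLE_M E M hk)
  refine ⟨bump F hD hB p hbd, fun V _ _ _ u x hu hx => bump_lt F hD hB hbd hu hx,
    fun V _ _ _ u x hu hx => bump_out F hD hB hbd hx, ?_, hdeg, ?_⟩
  · exact hdim.isDeg_eq_zero (Nat.lt_succ_self k) hdeg.d
  · have k1 : ∫ x in Metric.ball (0 : Eu E) D, evalForm (om1 x) b.toBasis =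
        ∫ x, evalForm (om1 x) b.toBasis :=
      setIntegral_eq_integral_of_forall_compl_eq_zero fun x hx => by
        rw [h4 x fun h => hx (h3 h)]
        exact Q.evalForm_zero _
    rw [TW.JJ, b.addHaar_eq_volume, ← k1]
    refine setIntegral_congr_fun measurableSet_ball fun x hx => ?_
    rw [bump_ef F hD hB hbd (mem_ball_zero_iff.1 hx)]

/-- **item (f)**: `I P (θ e¹⁰ G₁²)` is an integral multiple of `∫_M F²` -/
theorem f_int : ∃ d : ℤ,
    (inst F hD hB hdiam hl hN hE hJ hρ ha hL g hg hg0 hg1 X v0 hr hDR b).I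
      ((inst F hD hB hdiam hl hN hE hJ hρ ha hL g hg hg0 hg1 X v0 hr hDR b).P
        (((2 * D)⁻¹ • (inst F hD hB hdiam hl hN hE hJ hρ ha hL g hg hg0 hg1 X v0 hr
          hDR b).αB) *
        ((inst F hD hB hdiam hl hN hE hJ hρ ha hL g hg hg0 hg1 X v0 hr hDR b).e ^ 10 *
        (inst F hD hB hdiam hl hN hE hJ hρ ha hL g hg hg0 hg1 X v0 hr hDR b).G1 ^ 2))) =
      d * ∫ x in Metric.ball (0 : Eu E) D,
        evalForm (((inst F hD hB hdiam hl hN hE hJ hρ ha hL g hg hg0 hg1 X v0 hr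
          hDR b).F ^ 2).val (ef e p) x) b.toBasis := by
  have hnz : NeZero (2 * 3 + 1) := ⟨by norm_num⟩
  have hpl : ∀ x y : M, dist x y = D → 2 ≤ finrank ℝ (H775.Pl e D x y) := fun x y h => by
    rw [hl x y h]; omega
  have hlg1 : ((dM E M).on {x | dist p x < D}).Map (Dif.lin (Eu E)) (lg e p) := map_lg F hB p
  have hlg2 : ∀ x ∈ Metric.ball (0 : Eu E) D, lg e p (ef e p x) = x ∧ dist p (ef e p x) < D :=
    fun x hx => ⟨lg_ef F hB (mem_ball_zero_iff.1 hx), by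
      rw [dist_ef hB (mem_ball_zero_iff.1 hx).le]
      exact mem_ball_zero_iff.1 hx⟩
  have hlg3 : ∀ x, dist p x < D → ef e p (lg e p x) = x ∧ ‖lg e p x‖ < D :=
    fun x hx => ⟨ef_lg F hB hx, by rw [norm_lg F hB hx]; exact hx⟩
  obtain ⟨wM, w3, w4, w5, d, hd⟩ := f_exists F hD hB hdiam (l := 2 * 3 + 1) hl
    (S2II.orn_b0P F hD hB hdiam (two_le hN hE) hl hJ hρ ha) ⟨3, rfl⟩ (N := 15) (n := 10) hN
    (by omega) ⟨8, by norm_num⟩ (by norm_num) X v0 hDR b hr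
    (g1 := fun b => g (b, 1)) (H584.map_at hg 1)
    (inst F hD hB hdiam hl hN hE hJ hρ ha hL g hg hg0 hg1 X v0 hr hDR b).hφ
    (inst F hD hB hdiam hl hN hE hJ hρ ha hL g hg hg0 hg1 X v0 hr hDR b).hpφ
    hg1 (α := (inst F hD hB hdiam hl hN hE hJ hρ ha hL g hg hg0 hg1 X v0 hr hDR b).αB)
    (inst F hD hB hdiam hl hN hE hJ hρ ha hL g hg hg0 hg1 X v0 hr hDR b).αB_flow
    (inst F hD hB hdiam hl hN hE hJ hρ ha hL g hg hg0 hg1 X v0 hr hDR b).αB_sg
    (inst F hD hB hdiam hl hN hE hJ hρ ha hL g hg hg0 hg1 X v0 hr hDR b).hId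
    (inst F hD hB hdiam hl hN hE hJ hρ ha hL g hg hg0 hg1 X v0 hr hDR b).hIφ
    (lg := lg e p) hlg1 hlg2 hlg3
    (fun h1 h2 h3 h4 h5 => exists_bumpM F hD hB hN b h1 h2 h3 h4 h5)
    (fun {_} he {_} hTf hTv {_ _} hH => pdata_Qh F hD hB hdiam hl X v0 he (by omega) hDR hTf hTv
      (H584.map_at hg 1) hH hlg1 hlg2 hlg3)
    (fun {_ _ _ _ _ _} h {_ _ _ _} hδ hc0 hsub hbig {_} => h.pmap hc0 hsub hbig)
    (fun hδ => opn_ef hlg1 hlg2 hlg3 hδ)
  have h4 := IM_FF F hD hB hdiam hl hJ hρ a (n := 1) b.toBasis hr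
  have h5 := H230.q_eq (p := p) hJ.os a (by norm_num) (hN.trans hE) b hr
  have h6 : IM e D p b.toBasis F ((inst F hD hB hdiam hl hN hE hJ hρ ha hL g hg hg0 hg1 X v0 hr
      hDR b).F ^ 2) = Q.qv volume b.toBasis r (FE.PsiE 3 a p Pi o) 1 := by
    exact h4
  refine ⟨d, ?_⟩
  rw [← IM_apply F D p b.toBasis]
  refine f_sys (inst F hD hB hdiam hl hN hE hJ hρ ha hL g hg hg0 hg1 X v0 hr hDR b)
    (IM e D p b.toBasis F) (IM_d F hD hB hdiam hpl p b.toBasis) ?_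
    (by rw [IM_apply]; exact w5) ?_ hd (w4.sg_of_even ⟨8, by norm_num⟩)
  · rw [h6, b.coe_toBasis]
    intro h0
    rw [h0, abs_zero] at h5
    have := FE.kap_pos 3 ha
    have h7 : 0 < FE.kap 3 a ^ 2 := by positivity
    exact h7.ne h5
  · intro hne
    refine CoTop.top_M F hD hB hdiam (l := 2 * 3 + 1) hl (by omega) w3 (by rw [hN]; exact w4)
      ?_ ?_ hne
    · have h7 := (inst F hD hB hdiam hl hN hE hJ hρ ha hL g hg hg0 hg1 X v0 hr hDR b).hF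
      have h8 : ∀ w : Form (dM E M), w.d = 0 → (w ^ 2).d = 0 := fun w hw => by
        rw [pow_two, Form.d_mul, hw, zero_mul, mul_zero, add_zero]
      exact h8 _ h7
    · have h7 := (S2II.isDeg_FF F hD hB hdiam hl hJ hρ a).pow 2
      rw [hN]
      exact h7

end

end Vale.Agent.P231.S3E
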