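import Vale.Agent.P231.S2I3.Lift
import Vale.Agent.P231.S2II.BunSL
import Vale.Agent.P231.WG.Cyc
import Vale.Agent.P231.TW.Theta

/-!
# P231, stage 3, S3-INT (f): global frames of `L` over the box coordinates of the unit tangent
bundle
-/

set_option maxSynthPendingDepth 3
set_option linter.unusedSectionVars false
set_option linter.unusedVariables false

open Bundle Manifold Set Filter Module Topology MeasureTheory
open scoped ContDiff Manifold Topology

namespace Vale.Agent.P231.S3E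

noncomputable section

open Vale.Agent.P234 Vale.Agent.P231 Vale.Agent.P231.Fm Vale.Agent.P231.W Vale.Agent.P231.H775
open Vale.Agent.P231.WR Vale.Agent.P231.S2II

/-! ### the cut-off rays -/

section Cut

variable {V : Type*} [NormedAddCommGroup V] [InnerProductSpace ℝ V]

/-- `x` for `‖x‖ ≤ a`, `0` for `‖x‖ ≥ b` -/
def cr (a b : ℝ) (x : V) : V :=
  Real.smoothTransition ((b ^ 2 - ‖x‖ ^ 2) / (b ^ 2 - a ^ 2)) • x

theorem contDiff_cr (a b : ℝ) : ContDiff ℝ ∞ (cr a b : V → V) := by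
  have h1 : ContDiff ℝ ∞ fun x : V => ‖x‖ ^ 2 := contDiff_norm_sq ℝ
  exact (Real.smoothTransition.contDiff.comp ((contDiff_const.sub h1).div_const _)).smul
    contDiff_id

variable {a b : ℝ}

theorem cr_eq (ha : 0 ≤ a) (hab : a < b) {x : V} (hx : ‖x‖ ≤ a) : cr a b x = x := by
  have h1 : ‖x‖ ^ 2 ≤ a ^ 2 := by nlinarith [norm_nonneg x]
  have h2 : 0 < b ^ 2 - a ^ 2 := by nlinarith
  rw [cr, Real.smoothTransition.one_of_one_le, one_smul]
  rw [le_div_iff₀ h2]
  linarith

theorem cr_zero (ha : 0 ≤ a) (hab : a < b) {x : V} (hx : b ≤ ‖x‖) : cr a b x = 0 := by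
  have h1 : b ^ 2 ≤ ‖x‖ ^ 2 := by nlinarith [norm_nonneg x]
  have h2 : 0 < b ^ 2 - a ^ 2 := by nlinarith
  rw [cr, Real.smoothTransition.zero_of_nonpos, zero_smul]
  exact div_nonpos_of_nonpos_of_nonneg (by linarith) h2.le

theorem cr_zero' : cr a b (0 : V) = 0 := by rw [cr, smul_zero]

theorem norm_cr (ha : 0 ≤ a) (hab : a < b) (x : V) : ‖cr a b x‖ ≤ b := by
  rcases le_or_gt b ‖x‖ with h | h
  · rw [cr_zero ha hab h, norm_zero]
    linarith
  · rw [cr, norm_smul, Real.norm_of_nonneg (Real.smoothTransition.nonneg _)]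
    have h1 := Real.smoothTransition.le_one ((b ^ 2 - ‖x‖ ^ 2) / (b ^ 2 - a ^ 2))
    have h2 := Real.smoothTransition.nonneg ((b ^ 2 - ‖x‖ ^ 2) / (b ^ 2 - a ^ 2))
    nlinarith [norm_nonneg x]

end Cut

variable {E : Type*} [NormedAddCommGroup E] [NormedSpace ℝ E]
  {M : Type*} [MetricSpace M] [ChartedSpace E M]
  [RiemannianBundle (fun x : M => TangentSpace 𝓘(ℝ, E) x)]
  {e : ∀ x : M, TangentSpace 𝓘(ℝ, E) x → M}
  [FiniteDimensional ℝ E] [IsManifold 𝓘(ℝ, E) ∞ M]
  [IsContMDiffRiemannianBundle 𝓘(ℝ, E) ∞ E (fun x : M => TangentSpace 𝓘(ℝ, E) x)]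
  [CompactSpace M] [ConnectedSpace M] [IsRiemannianManifold 𝓘(ℝ, E) M]

/-- the orthogonal complement of the pole -/
abbrev Yo (e0 : Eu E) : Type := ↥((Submodule.span ℝ {e0})ᗮ)

theorem at_const {V : Type} [NormedAddCommGroup V] [NormedSpace ℝ V] [FiniteDimensional ℝ V]
    (v : UT E M) (x : V) : (dUT E M).At (fun _ : V => v) x :=
  (dUT E M).comp (u := fun _ : ℝ => v) (g := fun _ : V => (0 : ℝ)) (WF.const_at v 0)
    (Sm.of_contDiff contDiff_const _)

section Box

variable {p : M} {R : ℝ} (X : WG.Fr e p R) (v0 : UT E M) (e0 : Eu E)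

/-- the box coordinates of the unit tangent bundle -/
def Qc (z : Eu E × Yo e0) : UT E M := WG.cc X v0 (z.1, TW.th e0 z.2)

variable {e0}

theorem th_ne (he : ‖e0‖ = 1) (y : Yo e0) : TW.th e0 y ≠ 0 := by
  rw [← norm_ne_zero_iff, TW.norm_th he]
  exact one_ne_zero

theorem at_Qc (he : ‖e0‖ = 1) {z : Eu E × Yo e0} (hz : ‖z.1‖ < R) :
    (dUT E M).At (Qc X v0 e0) z := by
  have h1 : (dUT E M).At (WG.cc X v0) (z.1, TW.th e0 z.2) :=
    WG.at_cc X v0 (z := (z.1, TW.th e0 z.2)) hz (th_ne he z.2)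
  refine (dUT E M).comp (u := WG.cc X v0) (g := fun z : Eu E × Yo e0 => (z.1, TW.th e0 z.2)) h1 ?_
  exact Sm.of_contDiff (contDiff_fst.prodMk ((TW.contDiff_th he).comp contDiff_snd)) _

/-- the contraction of the box coordinates -/
def Qr (D' R' : ℝ) (q : (Eu E × Yo e0) × ℝ) : UT E M :=
  Qc X v0 e0 ((1 - Real.smoothTransition q.2) • cr D' R' q.1.1,
    (1 - Real.smoothTransition q.2) • cr 1 2 q.1.2)

theorem map_Qr (he : ‖e0‖ = 1) {D' R' : ℝ} (hD' : 0 ≤ D') (hDR' : D' < R') (hR : R' < R) :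
    ((Dif.lin (Eu E × Yo e0)).prod (Dif.lin ℝ)).Map (dUT E M) (Qr X v0 (e0 := e0) D' R') := by
  intro V _ _ _ u x hu
  have h1 : Sm (fun s => (u s).1) x := hu.1
  have h2 : Sm (fun s => (u s).2) x := hu.2
  have h3 : Sm (fun s => Real.smoothTransition (u s).2) x :=
    Sm.comp (f := Real.smoothTransition) (g := fun s => (u s).2)
      (Sm.of_contDiff Real.smoothTransition.contDiff _) h2
  let g : V → Eu E × Yo e0 := fun s => ((1 - Real.smoothTransition (u s).2) • cr D' R' (u s).1.1,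
      (1 - Real.smoothTransition (u s).2) • cr 1 2 (u s).1.2)
  have h4 : Sm g x := by
    filter_upwards [h1, h3] with s k1 k3
    have k4 : ContDiffAt ℝ ∞ (fun s => 1 - Real.smoothTransition (u s).2) s :=
      contDiffAt_const.sub k3
    exact (k4.smul ((contDiff_cr D' R').contDiffAt.comp s k1.fst)).prodMk
      (k4.smul ((contDiff_cr 1 2).contDiffAt.comp s k1.snd))
  refine (dUT E M).comp (u := Qc X v0 e0) (g := g) ?_ h4
  refine at_Qc X v0 he ?_
  have h5 := Real.smoothTransition.nonneg (u x).2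
  have h6 := Real.smoothTransition.le_one (u x).2
  have h7 := norm_cr hD' hDR' (u x).1.1
  show ‖(1 - Real.smoothTransition (u x).2) • cr D' R' (u x).1.1‖ < R
  rw [norm_smul, Real.norm_of_nonneg (by linarith)]
  nlinarith [norm_nonneg (cr D' R' (u x).1.1)]

variable (F : Facts e) {D : ℝ} (hD : 0 < D) (hB : InjGE e D) (hdiam : ∀ p q : M, dist p q ≤ D)
  {l : ℕ} [NeZero l] (hP : ∀ x y : M, dist x y = D → finrank ℝ (H775.Pl e D x y) = l + 1)

include hP in
/-- **global oriented frames of `L` over the box** -/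
theorem exists_frames {b : Form (dPr e D)} (hb : Orn F hD hB hdiam (l := l) b) (hl : Odd l)
    (he : ‖e0‖ = 1) (hDR : D < R) :
    ∃ T : Eu E × Yo e0 → S2II.Fr e D l, (∀ z, (dFo F hD hB hdiam b).At T z) ∧
      ∀ z : Eu E × Yo e0, ‖z.1‖ ≤ D → ‖z.2‖ ≤ 1 → (T z).v = Qc X v0 e0 z := by
  obtain ⟨R', hR1, hR2⟩ := exists_between hDR
  -- the frame at the centre
  set v1 : UT E M := Qc X v0 e0 0 with hv1
  obtain ⟨f1, hf1, hk1⟩ : ∃ f : S2II.Fr e D l, f.v = v1 ∧ 0 < kf F hD hB hdiam b f := by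
    obtain ⟨W, hW⟩ := exists_isLF F hD hB hdiam hP v1
    let f : S2II.Fr e D l := ⟨(v1, W), hW⟩
    rcases lt_or_gt_of_ne (hb.ne f) with h | h
    · refine ⟨flip F hD hB hdiam f, rfl, ?_⟩
      have hc : (dFr e D l).At (fun _ : ℝ => f) 0 :=
        ⟨WF.const_at _ _, fun i => WF.const_at _ _⟩
      have := kf_flip F hD hB hdiam hb.deg hl hc
      rw [this]
      linarith
    · exact ⟨f, rfl, h⟩
  have hc : ((Dif.lin (Eu E × Yo e0)).prod (Dif.lin ℝ)).Map (dUT E M)
      (Qr X v0 (e0 := e0) D R') := map_Qr X v0 (e0 := e0) he hD.le hR1 hR2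
  have hjm : (Dif.lin (Eu E × Yo e0)).Map (dFr e D l) (fun _ => f1) := fun {V} _ _ _ {u x} h =>
    ⟨at_const f1.v x, fun i => at_const (f1.W i) x⟩
  have hj : ∀ x : Eu E × Yo e0, f1.v = Qr X v0 (e0 := e0) D R' (x, 1) := by
    intro x
    rw [hf1, Qr, Real.smoothTransition.one, sub_self, zero_smul, zero_smul]
    rfl
  set K : Set (Eu E × Yo e0) := Metric.closedBall 0 R' ×ˢ Metric.closedBall 0 2 with hK
  have hKc : IsCompact K := (isCompact_closedBall _ _).prod (isCompact_closedBall _ _)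
  obtain ⟨C, h1, h2, h3, -⟩ := S2I3.exists_lift F hD hB hdiam hP hc hjm hj hKc (κ := id)
    (fun z _ => Sm.of_contDiff contDiff_id z) (fun x => by
      classical
      refine ⟨(if ‖x.1‖ ≤ R' then x.1 else 0, if ‖x.2‖ ≤ 2 then x.2 else 0), ⟨?_, ?_⟩,
        fun t _ => ?_⟩
      · rw [mem_closedBall_zero_iff]
        show ‖(if ‖x.1‖ ≤ R' then x.1 else 0)‖ ≤ R'
        split_ifs with h
        · exact h
        · rw [norm_zero]
          linarith
      · rw [mem_closedBall_zero_iff]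
        show ‖(if ‖x.2‖ ≤ 2 then x.2 else 0)‖ ≤ 2
        split_ifs with h
        · exact h
        · rw [norm_zero]
          norm_num
      · have e1 : cr D R' (if ‖x.1‖ ≤ R' then x.1 else 0) = cr D R' x.1 := by
          split_ifs with h
          · rfl
          · rw [cr_zero', cr_zero hD.le hR1 (not_le.1 h).le]
        have e2 : cr 1 2 (if ‖x.2‖ ≤ 2 then x.2 else 0) = cr 1 2 x.2 := by
          split_ifs with h
          · rfl
          · rw [cr_zero', cr_zero zero_le_one one_lt_two (not_le.1 h).le]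
        simp only [Qr, id]
        rw [e1, e2])
  have hCat : ∀ q : (Eu E × Yo e0) × ℝ, (dFr e D l).At C q := fun q =>
    h1 (u := fun q => q) ⟨Sm.of_contDiff contDiff_fst _, Sm.of_contDiff contDiff_snd _⟩
  have hloc : IsLocallyConstant fun q : (Eu E × Yo e0) × ℝ => kf F hD hB hdiam b (C q) := by
    rw [IsLocallyConstant.iff_eventually_eq]
    intro q
    exact kf_eventually hb.deg hb.closed (hCat q)
  have hkf : ∀ z : Eu E × Yo e0, 0 < kf F hD hB hdiam b (C (z, 0)) := by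
    intro z
    have k1 := hloc.apply_eq_of_preconnectedSpace (z, 0) (z, 1)
    rw [k1, h2]
    exact hk1
  refine ⟨fun z => C (z, 0), fun z => ⟨?_, Eventually.of_forall hkf⟩, fun z hz1 hz2 => ?_⟩
  · exact (dFr e D l).comp (u := C) (g := fun z : Eu E × Yo e0 => (z, (0 : ℝ))) (hCat _)
      (Sm.of_contDiff (contDiff_id.prodMk contDiff_const) _)
  · refine (h3 z 0).trans ?_
    rw [Qr, Real.smoothTransition.zero, Real.smoothTransition.zero, sub_zero, one_smul,
      one_smul, cr_eq hD.le hR1 hz1, cr_eq zero_le_one one_lt_two hz2]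

end Box

end

end Vale.Agent.P231.S3E
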