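import Vale.Agent.P231.S3E.A1
import Vale.Agent.P231.S3E.Box

/-!
# P231, stage 3, S3-INT (f): the functional `I ∘ SL` as an integral over a box, 2
-/

set_option maxSynthPendingDepth 3
set_option linter.unusedSectionVars false
set_option linter.unusedVariables false

open Bundle Manifold Set Filter Module Topology MeasureTheory
open scoped ContDiff Manifold Topology

namespace Vale.Agent.P231.S3E

noncomputable section

open Vale.Agent.P234 Vale.Agent.P231 Vale.Agent.P231.Fm Vale.Agent.P231.W Vale.Agent.P231.H775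
open Vale.Agent.P231.WR Vale.Agent.P231.S2II
open Vale.Agent.P231.Q (dR Cut)
open Vale.Agent.P231.TW (pB)

section Fub

variable {V : Type*} [NormedAddCommGroup V] [NormedSpace ℝ V] [FiniteDimensional ℝ V]
  [MeasurableSpace V] [BorelSpace V]
variable {F : Type*} [NormedAddCommGroup F] [NormedSpace ℝ F] [FiniteDimensional ℝ F]
  [MeasurableSpace F] [BorelSpace F] {k l : ℕ}

/-- Fubini for the fibre integral of a smooth form -/
theorem fubini_cw {w : V × F → Lam (V × F)} {O B : Set V} (hO : IsOpen O)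
    (hw : ContDiffOn ℝ ∞ w (O ×ˢ {0}ᶜ)) (hBO : closure B ⊆ O) (hBm : MeasurableSet B)
    (hBc : IsCompact (closure B)) {r : F → ℝ} {K : Set F} (hr : Cut r K)
    (bV : Basis (Fin k) ℝ V) (bF : Basis (Fin l) ℝ F) :
    ∫ x in B, evalForm (Q.phi bF.addHaar bF r w x) bV ∂bV.addHaar =
      ∫ z in B ×ˢ {0}ᶜ, evalForm (Q.cw r w z) (pB bV bF) ∂(pB bV bF).addHaar := by
  have hcw := Q.contDiffOn_cw hr hO hw
  have hc : ContinuousOn (fun z => evalForm (Q.cw r w z) (pB bV bF)) (O ×ˢ univ) :=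
    (evalL (pB bV bF)).continuous.comp_continuousOn hcw.continuousOn
  have hz0 : ∀ z : V × F, z.2 ∉ K → evalForm (Q.cw r w z) (pB bV bF) = 0 := by
    intro z hz
    have := Q.cw_out hr w z.1 hz
    change evalL (pB bV bF) (Q.cw r w (z.1, z.2)) = 0
    rw [this, map_zero]
  have hint : IntegrableOn (fun z => evalForm (Q.cw r w z) (pB bV bF)) (B ×ˢ univ)
      (bV.addHaar.prod bF.addHaar) := by
    have h1 : IntegrableOn (fun z => evalForm (Q.cw r w z) (pB bV bF))
        (closure B ×ˢ K) (bV.addHaar.prod bF.addHaar) :=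
      (hc.mono (prod_mono hBO (subset_univ _))).integrableOn_compact
        (hBc.prod hr.compact)
    have h2 : IntegrableOn (fun z => evalForm (Q.cw r w z) (pB bV bF))
        (closure B ×ˢ univ) (bV.addHaar.prod bF.addHaar) := by
      refine h1.of_forall_sdiff_eq_zero (isClosed_closure.measurableSet.prod MeasurableSet.univ)
        fun z hz => hz0 z fun h3 => hz.2 ⟨hz.1.1, h3⟩
    exact h2.mono_set (prod_mono_left subset_closure)
  have h3 : ∀ x ∈ B, evalForm (Q.phi bF.addHaar bF r w x) bV =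
      ∫ y, evalForm (Q.cw r w (x, y)) (pB bV bF) ∂bF.addHaar := by
    intro x hx
    have h4 := ContinuousLinearMap.integral_comp_comm (evalL bV)
      (Q.integrable_slice bF.addHaar bF hr hO hw (hBO (subset_closure hx)))
    refine Eq.trans h4.symm (integral_congr_ae (Eventually.of_forall fun y => ?_))
    exact (TW.evalForm_pB bV bF _).symm
  rw [setIntegral_congr_fun hBm h3, TW.addHaar_pB]
  have h5 : ∫ z in B ×ˢ {0}ᶜ, evalForm (Q.cw r w z) (pB bV bF)
      ∂(bV.addHaar.prod bF.addHaar) =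
      ∫ z in B ×ˢ univ, evalForm (Q.cw r w z) (pB bV bF)
        ∂(bV.addHaar.prod bF.addHaar) := by
    refine (setIntegral_eq_of_subset_of_forall_sdiff_eq_zero
      (hBm.prod MeasurableSet.univ) (prod_mono_right (subset_univ _)) fun z hz => ?_).symm
    have hz2 : z.2 = 0 := by
      by_contra h6
      exact hz.2 ⟨hz.1.1, h6⟩
    have h7 := (Q.cw_near hr w z.1).self_of_nhds
    change evalL (pB bV bF) (Q.cw r w (z.1, z.2)) = 0
    rw [hz2, h7, map_zero]
  rw [h5, setIntegral_prod _ hint]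
  simp only [Measure.restrict_univ]

end Fub

variable {E : Type*} [NormedAddCommGroup E] [NormedSpace ℝ E]
  {M : Type*} [MetricSpace M] [ChartedSpace E M]
  [RiemannianBundle (fun x : M => TangentSpace 𝓘(ℝ, E) x)]
  {e : ∀ x : M, TangentSpace 𝓘(ℝ, E) x → M}
  [FiniteDimensional ℝ E] [IsManifold 𝓘(ℝ, E) ∞ M]
  [IsContMDiffRiemannianBundle 𝓘(ℝ, E) ∞ E (fun x : M => TangentSpace 𝓘(ℝ, E) x)]
  [CompactSpace M] [ConnectedSpace M] [IsRiemannianManifold 𝓘(ℝ, E) M]
  {p : M} {R : ℝ} (X : WG.Fr e p R) (v0 : UT E M) {e0 : Eu E}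
  (F : Facts e) {D : ℝ} (hD : 0 < D) (hB : InjGE e D) (hdiam : ∀ p q : M, dist p q ≤ D)
  {l : ℕ} [NeZero l] (hP : ∀ x y : M, dist x y = D → finrank ℝ (H775.Pl e D x y) = l + 1)

/-- the box -/
def Bx (D : ℝ) (e0 : Eu E) : Set (Eu E × Yo e0) := Metric.ball 0 D ×ˢ Metric.ball 0 1

theorem isOpen_Bx (D : ℝ) : IsOpen (Bx D e0) := Metric.isOpen_ball.prod Metric.isOpen_ball

theorem closure_Bx_sub (D : ℝ) : closure (Bx D e0) ⊆
    Metric.closedBall (0 : Eu E) D ×ˢ Metric.closedBall (0 : Yo e0) 1 :=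
  closure_minimal (prod_mono Metric.ball_subset_closedBall Metric.ball_subset_closedBall)
    (Metric.isClosed_closedBall.prod Metric.isClosed_closedBall)

theorem cpt_Bx (D : ℝ) : IsCompact (closure (Bx D e0)) :=
  ((isCompact_closedBall _ _).prod (isCompact_closedBall _ _)).of_isClosed_subset isClosed_closure
    (closure_Bx_sub D)

/-- **the functional `I ∘ SL` as an integral over a box** -/
theorem I_SL_box (he : ‖e0‖ = 1) (hE : 3 ≤ finrank ℝ E) {k l' : ℕ}
    (b : OrthonormalBasis (Fin k) ℝ (Eu E)) (bY : Basis (Fin l') ℝ (Yo e0))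
    {r : Eu E → ℝ} {K : Set (Eu E)} (hr : Q.Cut r K) (hDR : D < R)
    {o : Form (dPr e D)} (hb : Orn F hD hB hdiam (l := l) o) (hl : Odd l)
    {T : Eu E × Yo e0 → S2II.Fr e D l} (hT : ∀ z, (dFo F hD hB hdiam o).At T z)
    (hTv : ∀ z : Eu E × Yo e0, ‖z.1‖ ≤ D → ‖z.2‖ ≤ 1 → (T z).v = Qc X v0 e0 z) :
    ∃ ε : ℝ, |ε| = 1 ∧ ∀ w : Form (dPr e D),
      WG.II X v0 b.toBasis hr hDR (SL F hD hB hdiam hP hb hl w) =
        ε * ∫ q in Bx D e0 ×ˢ {0}ᶜ, evalForm (Q.cw ch (w.val (Qh F hD hB hdiam T)) q)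
          (pB (pB b.toBasis bY) (bas l).toBasis) ∂(pB (pB b.toBasis bY) (bas l).toBasis).addHaar := by
  obtain ⟨ε, hε, h1⟩ := II_ball (e := e) he X v0 hE b bY
  refine ⟨ε, hε, fun w => ?_⟩
  rw [h1 hr hDR]
  congr 1
  have hTf : ∀ z, (dFr e D l).At T z := fun z => (hT z).1
  have hw : ContDiffOn ℝ ∞ (w.val (Qh F hD hB hdiam T)) ((univ : Set (Eu E × Yo e0)) ×ˢ {0}ᶜ) :=
    fun q hq => (w.smooth (at_Qh F hD hB hdiam hTf hq.2)).contDiffWithinAt
  have h2 := fubini_cw isOpen_univ hw (subset_univ _) (isOpen_Bx (e0 := e0) D).measurableSet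
    (cpt_Bx D) (cut_ch (W := Eul l)) (pB b.toBasis bY) (bas l).toBasis
  rw [← h2]
  refine setIntegral_congr_fun (isOpen_Bx D).measurableSet fun z hz => ?_
  have h3 : (fun z : Eu E × Yo e0 => WG.cc X v0 (z.1, TW.th e0 z.2)) =ᶠ[𝓝 z] Fr.v ∘ T := by
    filter_upwards [(isOpen_Bx D).mem_nhds hz] with y hy
    exact (hTv y (mem_ball_zero_iff.1 hy.1).le (mem_ball_zero_iff.1 hy.2).le).symm
  have h4 : (SL F hD hB hdiam hP hb hl w).val
      (fun z : Eu E × Yo e0 => WG.cc X v0 (z.1, TW.th e0 z.2)) z =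
      Q.phi (bas l).toBasis.addHaar (bas l).toBasis ch (w.val (Qh F hD hB hdiam T)) z := by
    have h5 : (dUT E M).At (fun z : Eu E × Yo e0 => WG.cc X v0 (z.1, TW.th e0 z.2)) z :=
      at_Qc X v0 he ((mem_ball_zero_iff.1 hz.1).trans hDR)
    have h6 : (bas l).toBasis.addHaar = (volume : Measure (Eul l)) := (bas l).addHaar_eq_volume
    rw [(SL F hD hB hdiam hP hb hl w).congr h5 h3, SL_val F hD hB hdiam hP hb hl w (hT z),
      frb_val_eq F hD hB hdiam hTf, h6, OrthonormalBasis.coe_toBasis]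
  rw [h4]

end

end Vale.Agent.P231.S3E
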