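import Mathlib

/-!
# S3E/Gen: a generic matrix avoids the zero set of a degenerate family

`exists_generic` (block (G) of the S3-INT blueprint, helper717): if `g : Z' → V1` and
`H : Z' → ℂ^K ∖ 0` are smooth on an open set `U` and have a common nonzero kernel vector at every
point, and `dim Z' = dim V1 + 2 n`, then for a generic pair `(q, A)` the equation `g z = q`,
`A (H z) = 0` has no solution `z` in `U`.
-/

open MeasureTheory Set Module
open scoped Topology ContDiff

namespace Vale.Agent.P231.S3E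

section Null

variable {T D : Type*} [NormedAddCommGroup T] [NormedSpace ℝ T] [FiniteDimensional ℝ T]
  [NormedAddCommGroup D] [NormedSpace ℝ D] [FiniteDimensional ℝ D]

/-- a map between spaces of equal dimension whose derivative has a kernel at every point of a set
maps this set to a null set -/
theorem null_of_ker [MeasurableSpace T] [BorelSpace T] (μ : Measure T) [μ.IsAddHaarMeasure]
    (hdim : finrank ℝ D = finrank ℝ T) {F : D → T} {S : Set D} {F' : D → D →L[ℝ] T}
    (hF : ∀ x ∈ S, HasFDerivAt F (F' x) x) (hk : ∀ x ∈ S, ∃ r, r ≠ 0 ∧ F' x r = 0) :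
    μ (F '' S) = 0 := by
  set e : T ≃L[ℝ] D := ContinuousLinearEquiv.ofFinrankEq hdim.symm with he
  have himg : F '' S = (F ∘ e) '' (e ⁻¹' S) := by
    rw [Set.image_comp, Set.image_preimage_eq _ e.surjective]
  rw [himg]
  refine addHaar_image_eq_zero_of_det_fderivWithin_eq_zero μ
    (f' := fun x => (F' (e x)).comp (e : T →L[ℝ] D)) ?_ ?_
  · intro x hx
    exact ((hF (e x) hx).comp x e.hasFDerivAt).hasFDerivWithinAt
  · intro x hx
    by_contra hdet
    obtain ⟨r, hr0, hr⟩ := hk (e x) hx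
    set L := ContinuousLinearMap.toContinuousLinearEquivOfDetNeZero
      ((F' (e x)).comp (e : T →L[ℝ] D)) hdet with hL
    have h1 : L (e.symm r) = 0 := by
      have : L (e.symm r) = ((F' (e x)).comp (e : T →L[ℝ] D)) (e.symm r) := rfl
      rw [this]
      simp [hr]
    have h2 : e.symm r = 0 := by
      have := congrArg L.symm h1
      simpa using this
    exact hr0 (by simpa using congrArg e h2)

end Null

section Gen

variable {V1 Z' : Type*} [NormedAddCommGroup V1] [NormedSpace ℝ V1] [FiniteDimensional ℝ V1]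
  [NormedAddCommGroup Z'] [NormedSpace ℝ Z'] [FiniteDimensional ℝ Z'] {n K : ℕ}

/-- the matrix with prescribed columns `l ≠ j` whose product with `h` is zero -/
noncomputable def fillCol (n : ℕ) {K : ℕ} (j : Fin K) (h : Fin K → ℂ)
    (A : Fin n → {l : Fin K // l ≠ j} → ℂ) : Fin n → Fin K → ℂ :=
  fun i l => if hl : l = j then -(∑ l' : {l : Fin K // l ≠ j}, A i l' * h l') / h j
    else A i ⟨l, hl⟩

/-- a matrix which kills `h` is the filled matrix of its other columns -/
theorem fillCol_eq (j : Fin K) {h : Fin K → ℂ} (hj : h j ≠ 0) {A : Fin n → Fin K → ℂ}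
    (hA : ∀ i, ∑ l, A i l * h l = 0) : fillCol n j h (fun i l => A i l) = A := by
  funext i l
  unfold fillCol
  split_ifs with hl
  · subst hl
    have h1 := hA i
    rw [← Finset.sum_erase_add _ _ (Finset.mem_univ l)] at h1
    have h2 : ∑ l' : {l' : Fin K // l' ≠ l}, A i l' * h l' =
        ∑ l' ∈ Finset.univ.erase l, A i l' * h l' := by
      rw [← Finset.sum_subtype (Finset.univ.erase l) (by simp) (fun l' => A i l' * h l')]
    rw [h2, div_eq_iff hj]
    linear_combination -h1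
  · rfl

/-- the map which is differentiated -/
noncomputable def genG (V1 : Type*) (n : ℕ) {K : ℕ} (j : Fin K)
    (p : V1 × (Fin K → ℂ) × (Fin n → {l : Fin K // l ≠ j} → ℂ)) : V1 × (Fin n → Fin K → ℂ) :=
  (p.1, fillCol n j p.2.1 p.2.2)

omit [FiniteDimensional ℝ V1] in
theorem genG_diff (j : Fin K) {p : V1 × (Fin K → ℂ) × (Fin n → {l : Fin K // l ≠ j} → ℂ)}
    (hp : p.2.1 j ≠ 0) : DifferentiableAt ℝ (genG V1 n j) p := by
  unfold genG
  refine differentiableAt_fst.prodMk ?_
  rw [differentiableAt_pi]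
  intro i
  rw [differentiableAt_pi]
  intro l
  unfold fillCol
  by_cases hl : l = j
  · simp only [hl, dif_pos]
    have h1 : DifferentiableAt ℝ (fun x : V1 × (Fin K → ℂ) × (Fin n → {l : Fin K // l ≠ j} → ℂ) =>
        ∑ l' : {l : Fin K // l ≠ j}, x.2.2 i l' * x.2.1 l') p := by
      fun_prop
    have h2 : DifferentiableAt ℝ (fun x : V1 × (Fin K → ℂ) × (Fin n → {l : Fin K // l ≠ j} → ℂ) =>
        x.2.1 j) p := by
      fun_prop
    have h3 : DifferentiableAt ℝ (fun x : V1 × (Fin K → ℂ) ×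
        (Fin n → {l : Fin K // l ≠ j} → ℂ) => (x.2.1 j)⁻¹) p := h2.inv hp
    simp only [div_eq_mul_inv]
    exact h1.neg.mul h3
  · simp only [hl, dif_neg, not_false_eq_true]
    fun_prop

theorem finrank_cols (j : Fin K) :
    finrank ℝ (Fin n → {l : Fin K // l ≠ j} → ℂ) + 2 * n = finrank ℝ (Fin n → Fin K → ℂ) := by
  have hK : Fintype.card {l : Fin K // l ≠ j} + 1 = K := by
    have h1 := Fintype.card_subtype_compl (fun l : Fin K => l = j)
    simp only [Fintype.card_fin, Fintype.card_subtype_eq] at h1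
    have hK0 : 0 < K := Fin.pos j
    have h2 : Fintype.card {l : Fin K // l ≠ j} = K - 1 := h1
    omega
  have e1 : finrank ℝ (Fin n → {l : Fin K // l ≠ j} → ℂ) =
      n * (Fintype.card {l : Fin K // l ≠ j} * 2) := by
    rw [finrank_pi_fintype]
    simp only [finrank_pi_fintype, Complex.finrank_real_complex, Finset.sum_const,
      Finset.card_univ, smul_eq_mul, Fintype.card_fin]
  have e2 : finrank ℝ (Fin n → Fin K → ℂ) = n * (K * 2) := by
    rw [finrank_pi_fintype]
    simp only [finrank_pi_fintype, Complex.finrank_real_complex, Finset.sum_const,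
      Finset.card_univ, smul_eq_mul, Fintype.card_fin]
  rw [e1, e2]
  nlinarith [hK]

/-- **(G)** a generic matrix -/
theorem exists_generic (hdim : finrank ℝ Z' = finrank ℝ V1 + 2 * n) {U : Set Z'} (hU : IsOpen U)
    {g : Z' → V1} (hg : ContDiffOn ℝ ∞ g U) {H : Z' → Fin K → ℂ} (hH : ContDiffOn ℝ ∞ H U)
    (hH0 : ∀ z ∈ U, H z ≠ 0)
    (hr : ∀ z ∈ U, ∃ r, r ≠ 0 ∧ fderiv ℝ g z r = 0 ∧ fderiv ℝ H z r = 0)
    {O : Set (V1 × (Fin n → Fin K → ℂ))} (hO : IsOpen O) (hO' : O.Nonempty) :
    ∃ q A, (q, A) ∈ O ∧ ∀ z ∈ U, g z = q → (fun i => ∑ j, A i j * H z j) ≠ 0 := by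
  classical
  let _ : MeasurableSpace (V1 × (Fin n → Fin K → ℂ)) := borel _
  have _ : BorelSpace (V1 × (Fin n → Fin K → ℂ)) := ⟨rfl⟩
  set μ : Measure (V1 × (Fin n → Fin K → ℂ)) := Measure.addHaar with hμ
  let S : (j : Fin K) → Set (Z' × (Fin n → {l : Fin K // l ≠ j} → ℂ)) :=
    fun j => {p | p.1 ∈ U ∧ H p.1 j ≠ 0}
  let F : (j : Fin K) → Z' × (Fin n → {l : Fin K // l ≠ j} → ℂ) → V1 × (Fin n → Fin K → ℂ) :=
    fun j p => genG V1 n j (g p.1, H p.1, p.2)
  have hnull : ∀ j, μ (F j '' S j) = 0 := by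
    intro j
    have hd : finrank ℝ (Z' × (Fin n → {l : Fin K // l ≠ j} → ℂ)) =
        finrank ℝ (V1 × (Fin n → Fin K → ℂ)) := by
      rw [finrank_prod, finrank_prod, ← finrank_cols (n := n) j, hdim]
      ring
    refine null_of_ker μ hd (F' := fun p => (fderiv ℝ (genG V1 n j) (g p.1, H p.1, p.2)).comp
      (((fderiv ℝ g p.1).comp (ContinuousLinearMap.fst ℝ _ _)).prod
        (((fderiv ℝ H p.1).comp (ContinuousLinearMap.fst ℝ _ _)).prod
          (ContinuousLinearMap.snd ℝ _ _)))) ?_ ?_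
    · rintro ⟨z, A⟩ ⟨hz, hzj⟩
      have h1 : HasFDerivAt (genG V1 n j) (fderiv ℝ (genG V1 n j) (g z, H z, A))
          (g z, H z, A) := (genG_diff j hzj).hasFDerivAt
      have hgz : HasFDerivAt g (fderiv ℝ g z) z :=
        ((hg.contDiffAt (hU.mem_nhds hz)).differentiableAt (by simp)).hasFDerivAt
      have hHz : HasFDerivAt H (fderiv ℝ H z) z :=
        ((hH.contDiffAt (hU.mem_nhds hz)).differentiableAt (by simp)).hasFDerivAt
      have h2 : HasFDerivAt (fun p : Z' × (Fin n → {l : Fin K // l ≠ j} → ℂ) =>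
          (g p.1, H p.1, p.2)) (((fderiv ℝ g z).comp (ContinuousLinearMap.fst ℝ _ _)).prod
        (((fderiv ℝ H z).comp (ContinuousLinearMap.fst ℝ _ _)).prod
          (ContinuousLinearMap.snd ℝ _ _))) (z, A) :=
        (hgz.comp (z, A) hasFDerivAt_fst).prodMk
          ((hHz.comp (z, A) hasFDerivAt_fst).prodMk hasFDerivAt_snd)
      exact h1.comp (z, A) h2
    · rintro ⟨z, A⟩ ⟨hz, hzj⟩
      obtain ⟨r, hr0, hr1, hr2⟩ := hr z hz
      refine ⟨(r, 0), fun h => hr0 (congrArg Prod.fst h), ?_⟩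
      have h0 : (((fderiv ℝ g z).comp (ContinuousLinearMap.fst ℝ Z' _)).prod
        (((fderiv ℝ H z).comp (ContinuousLinearMap.fst ℝ Z' _)).prod
          (ContinuousLinearMap.snd ℝ Z' (Fin n → {l : Fin K // l ≠ j} → ℂ)))) (r, 0) = 0 := by
        simp only [ContinuousLinearMap.prod_apply, ContinuousLinearMap.comp_apply,
          ContinuousLinearMap.coe_fst', ContinuousLinearMap.coe_snd', hr1, hr2]
        rfl
      show (fderiv ℝ (genG V1 n j) (g z, H z, A)) ((((fderiv ℝ g z).comp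
        (ContinuousLinearMap.fst ℝ Z' _)).prod
        (((fderiv ℝ H z).comp (ContinuousLinearMap.fst ℝ Z' _)).prod
          (ContinuousLinearMap.snd ℝ Z' (Fin n → {l : Fin K // l ≠ j} → ℂ)))) (r, 0)) = 0
      rw [h0, map_zero]
  have hunion : μ (⋃ j, F j '' S j) = 0 := measure_iUnion_null hnull
  have hpos : 0 < μ O := hO.measure_pos μ hO'
  have hne : ¬ O ⊆ ⋃ j, F j '' S j := by
    intro hsub
    have := measure_mono_null hsub hunion
    exact hpos.ne' this
  obtain ⟨⟨q, A⟩, hqA, hnot⟩ := Set.not_subset.1 hne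
  refine ⟨q, A, hqA, fun z hz hgq hzero => hnot ?_⟩
  obtain ⟨j, hj⟩ : ∃ j, H z j ≠ 0 := by
    by_contra hcon
    exact hH0 z hz (funext fun j => by_contra fun hj => hcon ⟨j, hj⟩)
  refine Set.mem_iUnion.2 ⟨j, (z, fun i l => A i l), ⟨hz, hj⟩, ?_⟩
  have hA : ∀ i, ∑ l, A i l * H z l = 0 := fun i => congrFun hzero i
  show (g z, fillCol n j (H z) (fun i l => A i l)) = (q, A)
  rw [fillCol_eq j hj hA, hgq]

end Gen

end Vale.Agent.P231.S3E
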