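import Vale.Agent.P231.S3E.MBlk
import Vale.Agent.P231.S3E.IMd
import Vale.Agent.P231.WQ.Rad
import Vale.Agent.P231.S2I.DegC
import Vale.Agent.P231.H584.Main

/-!
# P231, stage 3, S3-INT, item (f), the M-block (2): the integral over `M`
-/

set_option maxSynthPendingDepth 3
set_option linter.unusedSectionVars false
set_option linter.unusedVariables false

open Bundle Manifold Set Filter Module Topology MeasureTheory
open scoped ContDiff Manifold Topology

namespace Vale.Agent.P231.S3E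

noncomputable section

open Vale.Agent.P234 Vale.Agent.P231 Vale.Agent.P231.Fm Vale.Agent.P231.W Vale.Agent.P231.H775
open Vale.Agent.P231.CoC Vale.Agent.P231.WE

variable {E : Type*} [NormedAddCommGroup E] [NormedSpace ℝ E] [FiniteDimensional ℝ E]
  {M : Type*} [MetricSpace M] [ChartedSpace E M] [IsManifold 𝓘(ℝ, E) ∞ M]
  [RiemannianBundle (fun x : M => TangentSpace 𝓘(ℝ, E) x)]
  [IsContMDiffRiemannianBundle 𝓘(ℝ, E) ∞ E (fun x : M => TangentSpace 𝓘(ℝ, E) x)]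
  {e : ∀ x : M, TangentSpace 𝓘(ℝ, E) x → M}

/-! ### (M3) the integral -/

theorem contDiff_val_ef (F : Facts e) (p : M) (w : Form (dM E M)) :
    ContDiff ℝ ∞ (w.val (ef e p)) :=
  contDiff_iff_contDiffAt.2 fun x => w.smooth (at_ef F p x)

theorem continuous_eval_ef (F : Facts e) (p : M) {k : ℕ} (b : Fin k → Eu E)
    (w : Form (dM E M)) : Continuous fun x => evalForm (w.val (ef e p) x) b :=
  (evalL b).continuous.comp (contDiff_val_ef F p w).continuous

theorem integrableOn_val_ef (F : Facts e) (p : M) (D : ℝ) {k : ℕ} (b : Fin k → Eu E)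
    (w : Form (dM E M)) :
    IntegrableOn (fun x => evalForm (w.val (ef e p) x) b) (Metric.ball (0 : Eu E) D) volume :=
  (((continuous_eval_ef F p b w).continuousOn (s := Metric.closedBall 0 D)).integrableOn_compact
    (isCompact_closedBall 0 D)).mono_set Metric.ball_subset_closedBall

variable [CompactSpace M] [ConnectedSpace M] [IsRiemannianManifold 𝓘(ℝ, E) M]

theorem IM_congr (F : Facts e) (p : M) (D : ℝ) {k : ℕ} (b : Basis (Fin k) ℝ (Eu E))
    {w : Form (dM E M)} {g : Eu E → Lam (Eu E)}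
    (h : ∀ x, ‖x‖ < D → w.val (ef e p) x = g x) :
    IM e D p b F w = ∫ x in Metric.ball (0 : Eu E) D, evalForm (g x) b := by
  rw [IM_apply]
  refine setIntegral_congr_fun measurableSet_ball fun x hx => ?_
  rw [h x (mem_ball_zero_iff.1 hx)]

/-- the integral of a bump form -/
theorem IM_bump (F : Facts e) {D : ℝ} (hD : 0 < D) (hB : InjGE e D) {p : M} {K : Set (Eu E)}
    {om : Eu E → Lam (Eu E)} (h : BD D K om) {k : ℕ} (b : Basis (Fin k) ℝ (Eu E)) :
    IM e D p b F (bump F hD hB p h) = ∫ y, evalForm (om y) b := by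
  rw [IM_congr F p D b (g := om) fun x hx => bump_ef F hD hB h hx]
  refine setIntegral_eq_integral_of_forall_compl_eq_zero fun x hx => ?_
  rw [h.out x fun h' => hx (h.sub h'), Q.evalForm_zero]

/-! ### (M4) the tower -/

section Tower

open Vale.Agent.P231.FE Vale.Agent.P231.CoTop

variable {D : ℝ} {p : M} {n : ℕ}
  {Pi : TangentSpace 𝓘(ℝ, E) p → TangentSpace 𝓘(ℝ, E) p →L[ℝ] TangentSpace 𝓘(ℝ, E) p}
  {o : TangentSpace 𝓘(ℝ, E) p → Fm.Lam (TangentSpace 𝓘(ℝ, E) p)}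
  {ρ : TangentSpace 𝓘(ℝ, E) p → ℝ} {r₀ : ℝ}
variable (F : Facts e) (hD : 0 < D) (hB : InjGE e D)
    (hdiam : ∀ p q : M, dist p q ≤ D)
    (hl : ∀ x y : M, dist x y = D → finrank ℝ (Pl e D x y) = 2 * n + 2)
    (hJ : LineP e D p n Pi o) (hρ : Rho e D p ρ r₀) (a : ℝ)

/-- the integral of the powers of `F` -/
theorem IM_FF_pow {k : ℕ} (b : Basis (Fin k) ℝ (Eu E)) {r : Eu E → ℝ} {K : Set (Eu E)}
    (hr : Q.Cut r K) (m : ℕ) :
    IM e D p b F ((FE.FF F hD hB hdiam hl hJ hρ a) ^ (m + 1)) =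
      Q.qv volume b r (PsiE n a p Pi o) m := by
  have hψ : Q.Ang (PsiE n a p Pi o) := ang_PsiE hJ.os a
  have hf : Q.Cut (fun y : Eu E => ρ (WQ.frI p y)) (Metric.closedBall 0 r₀) := WQ.cut_rho hρ
  rw [IM_congr F p D b
    (g := fun x => extd (fun z => ρ (WQ.frI p z) • PsiE n a p Pi o z) x ^ (m + 1)) fun x hx => by
      rw [WQ.pow_val _ (at_ef F p x), FE.FF_ef F hD hB hdiam hl hJ hρ a
        (mem_ball_zero_iff.2 hx)]]
  have h2 : ∫ x in Metric.ball (0 : Eu E) D,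
        evalForm (extd (fun z => ρ (WQ.frI p z) • PsiE n a p Pi o z) x ^ (m + 1)) b =
      ∫ x, evalForm (extd (fun z => ρ (WQ.frI p z) • PsiE n a p Pi o z) x ^ (m + 1)) b := by
    refine setIntegral_eq_integral_of_forall_compl_eq_zero fun x hx => ?_
    rw [hψ.eval_top hf b m x, hf.dR_out fun h => hx (WQ.closedBall_sub hρ h), zero_mul,
      Q.evalForm_zero, mul_zero]
  rw [h2, hψ.base hf hr volume b m]
  rfl

/-- **(M4)** the tower for the powers of `F` on `M` -/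
theorem IM_tower (hn : 1 ≤ n) {N : ℕ} (hN : 0 < N) (hE : finrank ℝ E = (2 * n + 2) * N)
    {k : ℕ} (b : OrthonormalBasis (Fin k) ℝ (Eu E)) :
    ∃ c : ℤ, |(c : ℝ)| * |IM e D p b.toBasis F ((FE.FF F hD hB hdiam hl hJ hρ a) ^ N)| =
      FE.kap n a ^ N := by
  obtain ⟨r, K, hr, -⟩ := WQ.exists_radCut (V := Eu E)
  obtain ⟨c, hc⟩ := q_tower hJ.os a hn hN hE b hr
  refine ⟨c, ?_⟩
  obtain ⟨m, rfl⟩ : ∃ m, N = m + 1 := ⟨N - 1, by omega⟩
  rw [IM_FF_pow F hD hB hdiam hl hJ hρ a b.toBasis hr m, b.coe_toBasis, ← hc]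
  rfl

theorem IM_FF_ne (ha : a ≠ 0) (hn : 1 ≤ n) {N : ℕ} (hN : 0 < N)
    (hE : finrank ℝ E = (2 * n + 2) * N) {k : ℕ} (b : OrthonormalBasis (Fin k) ℝ (Eu E)) :
    IM e D p b.toBasis F ((FE.FF F hD hB hdiam hl hJ hρ a) ^ N) ≠ 0 := by
  obtain ⟨c, hc⟩ := IM_tower F hD hB hdiam hl hJ hρ a hn hN hE b
  intro h
  rw [h, abs_zero, mul_zero] at hc
  exact (pow_pos (FE.kap_pos n ha) N).ne hc

/-- **(M5)** closed forms of top degree -/
theorem top_IM (ha : a ≠ 0) (hn : 1 ≤ n) {N : ℕ} (hN : 0 < N)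
    (hE : finrank ℝ E = (2 * n + 2) * N) {k : ℕ} (b : OrthonormalBasis (Fin k) ℝ (Eu E))
    {w : Form (dM E M)} (hw : w.d = 0) (hwj : Form.IsDeg (finrank ℝ E) w) :
    ∃ (c : ℝ) (Γ : Form (dM E M)), w = c • (FE.FF F hD hB hdiam hl hJ hρ a) ^ N + Γ.d ∧
      c * IM e D p b.toBasis F ((FE.FF F hD hB hdiam hl hJ hρ a) ^ N) = IM e D p b.toBasis F w := by
  have hP : ∀ x y : M, dist x y = D → 2 ≤ finrank ℝ (H775.Pl e D x y) := fun x y h => by
    rw [hl x y h]
    omega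
  set G := FE.FF F hD hB hdiam hl hJ hρ a with hG
  have hGd : G.d = 0 := FE.FF_d F hD hB hdiam hl hJ hρ a
  have hGk : Form.IsDeg (2 * n + 2) G := DegC.ofWF (FE.FF_deg F hD hB hdiam hl hJ hρ a)
  obtain ⟨c, Γ, h⟩ := top_M F hD hB hdiam (l := 2 * n + 1) hl (w₀ := G ^ N)
    (by
      rw [hE]
      have : 1 * 1 ≤ n * N := Nat.mul_le_mul hn hN
      nlinarith) hw hwj (H584.pow_closed hGd N) (by rw [hE]; exact hGk.pow N) fun Γ h => by
      have h1 := IM_FF_ne F hD hB hdiam hl hJ hρ a ha hn hN hE b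
      rw [← hG, h, IM_d F hD hB hdiam hP] at h1
      exact h1 rfl
  refine ⟨c, Γ, h, ?_⟩
  rw [h, map_add, map_smul, IM_d F hD hB hdiam hP, add_zero, smul_eq_mul]

end Tower

end

end Vale.Agent.P231.S3E
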