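import Vale.Agent.P231.S3NT.Base

/-! Item (NT) of Stage 3: the number theory of the two integrality statements. -/

namespace Vale.Agent.P231.S3E

/-- integer form. -/
theorem nt_int {n E d k s : ℤ} (hn : 0 < n) (hs : s = 1 ∨ s = -1)
    (h : (k * n) ^ 2 * (4 * E + s * d ^ 2 * n) = 96) : n = 1 ∨ n = 2 := by
  have hk : k ≠ 0 := by
    rintro rfl
    norm_num at h
  set m : ℤ := |k| * n with hm
  have hkpos : 0 < |k| := abs_pos.2 hk
  have hmpos : 0 < m := mul_pos hkpos hn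
  have hm2 : (k * n) ^ 2 = m ^ 2 := by
    rw [hm, mul_pow, mul_pow, sq_abs]
  rw [hm2] at h
  have hdvd : m ^ 2 ∣ 96 := ⟨_, h.symm⟩
  have hle : m ^ 2 ≤ 96 := Int.le_of_dvd (by norm_num) hdvd
  have hm9 : m ≤ 9 := by nlinarith
  have hnm : n ≤ m := by nlinarith
  have hcases : m = 1 ∨ m = 2 ∨ m = 4 := by
    interval_cases m <;> first | (left; rfl) | (right; left; rfl) | (right; right; rfl) |
      (exfalso; revert hdvd; decide)
  rcases hcases with h1 | h1 | h1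
  · left; omega
  · have : n ≤ 2 := by omega
    omega
  · have hn4 : n ≤ 4 := by omega
    have hdn : n ∣ 4 := by rw [← h1, hm]; exact Dvd.intro_left _ rfl
    have hn' : n = 1 ∨ n = 2 ∨ n = 4 := by
      interval_cases n <;> first | (left; rfl) | (right; left; rfl) | (right; right; rfl) |
        (exfalso; revert hdn; decide)
    rcases hn' with h2 | h2 | h2
    · exact Or.inl h2
    · exact Or.inr h2
    · exfalso
      rw [h1, h2] at h
      rcases hs with rfl | rfl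
      · have : 64 * (E + d ^ 2) = 96 := by linarith
        omega
      · have : 64 * (E - d ^ 2) = 96 := by linarith
        omega

/-- **(NT)**. -/
theorem nt_real {n : ℤ} {s M f : ℝ} {E d k : ℤ} (hn : 0 < n) (hs : s = 1 ∨ s = -1) (hk : k ≠ 0)
    (h1 : (k : ℝ) ^ 2 * E = 24 / (n : ℝ) ^ 2 - 4 * s * M ^ 2 / (n : ℝ) ^ 3)
    (h2 : f * (k : ℝ) ^ 2 = 4 * M / (n : ℝ) ^ 2) (h3 : f = d / k) : n = 1 ∨ n = 2 := by
  have hn0 : (n : ℝ) ≠ 0 := by
    have : (0 : ℝ) < n := by exact_mod_cast hn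
    exact this.ne'
  have hk0 : (k : ℝ) ≠ 0 := by exact_mod_cast hk
  have hM : 4 * M = d * k * (n : ℝ) ^ 2 := by
    rw [h3] at h2
    field_simp at h2
    linarith
  have hE : ((k : ℝ) * n) ^ 2 * (4 * E + s * d ^ 2 * n) = 96 := by
    have e1 : (k : ℝ) ^ 2 * E * (n : ℝ) ^ 3 = 24 * n - 4 * s * M ^ 2 := by
      rw [h1]; field_simp
    have hM' : M = d * k * (n : ℝ) ^ 2 / 4 := by linarith
    rw [hM'] at e1
    have e2 : (n : ℝ) * (((k : ℝ) * n) ^ 2 * (4 * E + s * d ^ 2 * n) - 96) = 0 := by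
      linear_combination 4 * e1
    have := (mul_eq_zero.1 e2).resolve_left hn0
    linarith
  rcases hs with rfl | rfl
  · refine nt_int (E := E) (d := d) (k := k) (s := 1) hn (Or.inl rfl) ?_
    exact_mod_cast hE
  · refine nt_int (E := E) (d := d) (k := k) (s := -1) hn (Or.inr rfl) ?_
    have : ((k : ℝ) * n) ^ 2 * (4 * E + ((-1 : ℤ) : ℝ) * d ^ 2 * n) = 96 := by
      push_cast; exact hE
    exact_mod_cast this

/-- the number `N` with `|α| N = 2` is an integer (`4` or `2`). -/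
theorem nt_N {n : ℤ} {s al M f : ℝ} {E d k : ℤ} (hn : 0 < n) (hs : s = 1 ∨ s = -1) (hk : k ≠ 0)
    (hal : al = s * n / 2)
    (h1 : (k : ℝ) ^ 2 * E = 24 / (n : ℝ) ^ 2 - 4 * s * M ^ 2 / (n : ℝ) ^ 3)
    (h2 : f * (k : ℝ) ^ 2 = 4 * M / (n : ℝ) ^ 2) (h3 : f = d / k) :
    ∃ N : ℤ, |al| * N = 2 ∧ (N = 2 ∨ N = 4) := by
  have hs' : |s| = 1 := by rcases hs with rfl | rfl <;> simp
  rcases nt_real hn hs hk h1 h2 h3 with rfl | rfl
  · refine ⟨4, ?_, Or.inr rfl⟩
    rw [hal, abs_div, abs_mul, hs']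
    norm_num
  · refine ⟨2, ?_, Or.inl rfl⟩
    rw [hal, abs_div, abs_mul, hs']
    norm_num

end Vale.Agent.P231.S3E
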